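import Vale.Agent.P078.State.Defs
import Vale.Agent.P078.MKS.Trace
import Vale.Agent.P078.Singular.Exhaust
import Vale.Agent.P078.MKS.Assembly.Ops

/-!
The part of a MASA separated by normal central functionals is filled by corners with faithful
normal states in whose centraliser the MASA lies (`fill_ok`).
-/

namespace Vale.Agent.P078.State

namespace Fill

open MKS MKS.TraceFacts Singular

variable {H : Type} [NormedAddCommGroup H] [InnerProductSpace ℂ H] [CompleteSpace H]
variable {M A : VonNeumannAlgebra H} {f : (H →L[ℂ] H) →ₗ[ℂ] ℂ}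

theorem exists_bound (hf : IsNormalCentral M A f) :
    ∃ K : ℝ, 0 ≤ K ∧ ∀ y ∈ M, ‖f y‖ ≤ K * ‖y‖ := by
  obtain ⟨F, δ, hδ, h⟩ := hf.2.2 1 one_pos
  set s := ∑ ξ ∈ F, ‖ξ‖
  have hs : 0 ≤ s := Finset.sum_nonneg fun _ _ => norm_nonneg _
  set c := min 1 (δ / (s + 1))
  have hc : 0 < c := lt_min one_pos (by positivity)
  refine ⟨1 / c, by positivity, fun y hy => ?_⟩
  rcases eq_or_ne y 0 with rfl | hy0
  · simp
  have hn : 0 < ‖y‖ := norm_pos_iff.2 hy0
  set y' := ((c / ‖y‖ : ℝ) : ℂ) • y
  have hy' : ‖y'‖ = c := by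
    rw [norm_smul, Complex.norm_real, Real.norm_of_nonneg (by positivity),
      div_mul_cancel₀ _ hn.ne']
  have h1 := h y' (M.toStarSubalgebra.smul_mem hy _) (hy'.trans_le (min_le_left _ _))
    fun ξ hξ => by
      refine lt_of_le_of_lt (y'.le_opNorm ξ) ?_
      rw [hy']
      calc c * ‖ξ‖ ≤ δ / (s + 1) * s := mul_le_mul (min_le_right _ _)
            (Finset.single_le_sum (fun v _ => norm_nonneg v) hξ) (norm_nonneg _) (by positivity)
        _ < δ := by rw [div_mul_eq_mul_div, div_lt_iff₀ (by positivity)]; linarith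
  rw [map_smul, norm_smul, Complex.norm_real, Real.norm_of_nonneg (by positivity),
    div_mul_eq_mul_div, div_lt_iff₀ hn, one_mul] at h1
  rw [div_mul_eq_mul_div, one_mul, le_div_iff₀ hc, mul_comm]
  exact h1.le

/-- Halving a positive element of the MASA by a projection. -/
theorem halve {a : H →L[ℂ] H} (ha : a ∈ A) (hab : ∀ y ∈ A, ∀ z ∈ A, y * z = z * y) {R : ℝ}
    (hR : 0 < R) (h0 : 0 ≤ a) (h1 : a ≤ (2 * R) • 1) :
    ∃ p, IsPr A p ∧ 0 ≤ a - R • p ∧ a - R • p ≤ R • 1 := by
  have hone : IsStarProjection (1 : H →L[ℂ] H) := .one _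
  have hac : Cor A 1 a := ⟨ha, by simp⟩
  obtain ⟨hpc, hp, hlow, hq⟩ := cut_above hone hac (IsSelfAdjoint.of_nonneg h0) hR
  set p := spProj a R
  set q := 1 - p
  have hqP : IsStarProjection q := hp.one_sub
  have hpq : p * q = 0 := hp.mul_one_sub_self
  have hqp : q * p = 0 := hp.one_sub_mul_self
  have hsplit : a = p * a * p + q * a * q := by
    have h2 : a * p = p * a := hab a ha p hpc.1
    simp only [q, sub_mul, mul_sub, one_mul, mul_one]
    rw [mul_assoc p a p, h2, ← mul_assoc, hp.isIdempotentElem.eq]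
    abel
  have e1 : a - R • p = (p * a * p - R • p) + q * a * q := by
    nth_rw 1 [hsplit]; abel
  refine ⟨p, ⟨hpc.1, hp⟩, ?_, ?_⟩
  · rw [e1]
    refine add_nonneg (sub_nonneg.2 hlow) ?_
    have := star_left_conjugate_nonneg h0 q
    rwa [hqP.isSelfAdjoint.star_eq] at this
  · rw [e1, show (R • (1 : H →L[ℂ] H)) = R • p + R • q by rw [← smul_add, add_sub_cancel]]
    refine add_le_add ?_ (hq q hqP hqp)
    have h2 := conj_le h1 p
    rw [hp.isSelfAdjoint.star_eq, mul_smul_comm, smul_mul_assoc, mul_one,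
      hp.isIdempotentElem.eq] at h2
    calc p * a * p - R • p ≤ (2 * R) • p - R • p := sub_le_sub_right h2 _
      _ = R • p := by rw [← sub_smul]; congr 1; ring

/-- A functional commuting with the projections of the MASA commutes with the MASA. -/
theorem central_mul (hA : IsMASA M A) (hf : IsNormalCentral M A f) {a y : H →L[ℂ] H} (ha : a ∈ A)
    (hy : y ∈ M) : f (a * y) = f (y * a) := by
  obtain ⟨K, hK, hb⟩ := exists_bound hf
  set g : (H →L[ℂ] H) → ℂ := fun b => f (b * y) - f (y * b) with hg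
  have hgp : ∀ p, IsPr A p → g p = 0 := fun p hp =>
    sub_eq_zero.2 (hf.2.1 p hp.1 hp.2 y hy)
  have hglin : ∀ (c : ℂ) (b b' : H →L[ℂ] H), g (b + c • b') = g b + c * g b' := fun c b b' => by
    simp only [hg, add_mul, mul_add, smul_mul_assoc, mul_smul_comm, map_add, map_smul, smul_eq_mul]
    ring
  have hgb : ∀ b ∈ A, ‖g b‖ ≤ 2 * K * ‖y‖ * ‖b‖ := fun b hbA => by
    refine (norm_sub_le _ _).trans ?_
    have h1 := (hb _ (mul_mem (hA.1 b hbA) hy)).trans
      (mul_le_mul_of_nonneg_left (norm_mul_le b y) hK)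
    have h2 := (hb _ (mul_mem hy (hA.1 b hbA))).trans
      (mul_le_mul_of_nonneg_left (norm_mul_le y b) hK)
    linarith
  have hpos : ∀ (n : ℕ) (R : ℝ), 0 < R → ∀ b ∈ A, 0 ≤ b → b ≤ R • 1 →
      ‖g b‖ ≤ 2 * K * ‖y‖ * (R / 2 ^ n) := by
    intro n
    induction n with
    | zero =>
        intro R hR b hbA hb0 hbR
        rw [pow_zero, div_one]
        refine (hgb b hbA).trans (mul_le_mul_of_nonneg_left ?_ (by positivity))
        refine norm_le_of_bounds (.of_nonneg hb0) hR.le (le_trans ?_ hb0) hbR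
        rw [neg_smul]
        exact neg_nonpos.2 (smul_nonneg hR.le zero_le_one)
    | succ n ih =>
        intro R hR b hbA hb0 hbR
        obtain ⟨p, hp, h1, h2⟩ := halve hbA hA.2.1 (half_pos hR) hb0
          (by rwa [mul_div_cancel₀ _ two_ne_zero])
        have h3 := ih (R / 2) (half_pos hR) _ (sub_mem hbA (vn_smul A _ hp.1)) h1 h2
        have e : g b = g (b - (R / 2) • p) := by
          have := hglin ((R / 2 : ℝ) : ℂ) (b - (R / 2) • p) p
          rw [hgp p hp, mul_zero, add_zero, Complex.coe_smul, sub_add_cancel] at this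
          exact this
        rw [e]
        refine h3.trans (le_of_eq ?_)
        rw [pow_succ]; ring
  have hzero : ∀ b ∈ A, 0 ≤ b → g b = 0 := by
    intro b hbA hb0
    refine norm_le_zero_iff.1 ?_
    have hR : b ≤ (‖b‖ + 1) • 1 := (bounds_of_norm_le (.of_nonneg hb0) (le_add_of_nonneg_right
      zero_le_one)).2
    refine ge_of_tendsto' (x := Filter.atTop)
      (f := fun n : ℕ => 2 * K * ‖y‖ * ((‖b‖ + 1) / 2 ^ n)) ?_ fun n => hpos n _ (by positivity) b hbA hb0 hR
    have := ((tendsto_pow_atTop_atTop_of_one_lt (one_lt_two (α := ℝ))).const_div_atTop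
      (‖b‖ + 1)).const_mul (2 * K * ‖y‖)
    rwa [mul_zero] at this
  have hsa : ∀ b ∈ A, IsSelfAdjoint b → g b = 0 := by
    intro b hbA hbs
    have h0 : 0 ≤ b + ‖b‖ • (1 : H →L[ℂ] H) := by
      have h := (bounds_of_norm_le hbs le_rfl).1
      rwa [neg_smul, neg_le_iff_add_nonneg', add_comm] at h
    have h := hzero _ (add_mem hbA (vn_smul A _ (one_mem A))) h0
    rw [RCLike.real_smul_eq_coe_smul (K := ℂ), hglin, hgp 1 ⟨one_mem A, .one _⟩, mul_zero,
      add_zero] at h
    exact h
  have h1 := hsa _ (add_mem ha (star_mem ha)) (IsSelfAdjoint.add_star_self a)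
  have h2 := hsa _ (A.toStarSubalgebra.smul_mem (sub_mem ha (star_mem ha)) Complex.I)
    (by simp [IsSelfAdjoint, star_smul, smul_sub, neg_add_eq_sub])
  simp only [hg, add_mul, mul_add, smul_mul_assoc, mul_smul_comm, sub_mul, mul_sub, map_add,
    map_sub, map_smul, smul_eq_mul] at h1 h2
  linear_combination (1/2 : ℂ) * h1 + (-Complex.I / 2) * h2 +
    (f (a * y) - f (y * a) - f (star a * y) + f (y * star a)) / 2 * Complex.I_sq

theorem pos_re (hf : IsNormalCentral M A f) {z : H →L[ℂ] H} (hz : z ∈ M) (h0 : 0 ≤ z) :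
    0 ≤ (f z).re ∧ (f z).im = 0 := by
  obtain ⟨s, hs, hss, hsc⟩ := exists_sqrt h0
  have hsM : s ∈ M := mem_of_forall_commute M fun y hy =>
    ((hsc y (commutant_commute hy hz)).eq).symm
  have h := hf.1 s hsM
  rwa [hs, hss] at h

theorem null_inner (hf : IsNormalCentral M A f) {y z : H →L[ℂ] H} (hy : y ∈ M) (hz : z ∈ M)
    (h0 : f (star y * y) = 0) : f (star y * z) = 0 := by
  have key : ∀ w, w ∈ M → (f (star y * w)).re + (f (star w * y)).re = 0 := by
    intro w hw
    set S := (f (star y * w)).re + (f (star w * y)).re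
    set Q := (f (star w * w)).re
    have hQ : 0 ≤ Q := (hf.1 w hw).1
    have h : ∀ t : ℝ, 0 ≤ t * S + t * t * Q := fun t => by
      have := (hf.1 (y + t • w) (add_mem hy (vn_smul M t hw))).1
      simp only [star_add, star_smul, star_trivial, add_mul, mul_add, smul_mul_assoc,
        mul_smul_comm, map_add, Complex.add_re, tr_rsmul, h0, Complex.zero_re] at this
      simp only [S, Q]; linarith
    have h2 := h (-S / (Q + 1))
    have e : -S / (Q + 1) * S + -S / (Q + 1) * (-S / (Q + 1)) * Q =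
        -(S * S) / ((Q + 1) * (Q + 1)) := by field_simp; ring
    rw [e, le_div_iff₀ (by positivity), zero_mul] at h2
    exact mul_self_eq_zero.1 (le_antisymm (by linarith) (mul_self_nonneg S))
  have hI : Complex.I • z ∈ M := M.toStarSubalgebra.smul_mem hz _
  have him : ∀ w, w ∈ M → (f (star y * w)).im + (f (star w * y)).im = 0 := by
    intro w hw
    have h1 := (hf.1 (y + w) (add_mem hy hw)).2
    have h2 := (hf.1 w hw).2
    simp only [star_add, add_mul, mul_add, map_add, Complex.add_im, h0, Complex.zero_im] at h1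
    linarith
  have k1 := key z hz
  have k2 := key _ hI
  have i1 := him z hz
  have i2 := him _ hI
  simp only [star_smul, smul_mul_assoc, mul_smul_comm, map_smul, smul_eq_mul, Complex.star_def,
    Complex.conj_I, Complex.mul_re, Complex.mul_im, Complex.neg_re, Complex.neg_im, Complex.I_re,
    Complex.I_im] at k2 i2
  apply Complex.ext <;> simp only [Complex.zero_re, Complex.zero_im] <;> linarith

/-- Below a projection seen by a normal central functional it is faithful on a corner. -/
theorem faithful_part (hA : IsMASA M A) (hf : IsNormalCentral M A f) {u : H →L[ℂ] H}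
    (hu : IsPr A u) (hfu : f u ≠ 0) :
    ∃ w, IsPr A w ∧ w * u = w ∧ w ≠ 0 ∧ IsState M A w f := by
  classical
  set L : Set (H →L[ℂ] H) := {y | y ∈ M ∧ y * u = y ∧ f (star y * y) = 0}
  set K₀ : Submodule ℂ H := Submodule.span ℂ {v | ∃ y ∈ L, ∃ η, star y η = v}
  set K := K₀.topologicalClosure
  have hLA : ∀ a ∈ A, ∀ y ∈ L, y * star a ∈ L := by
    intro a ha y hy
    refine ⟨mul_mem hy.1 (hA.1 _ (star_mem ha)),
      by rw [mul_assoc, hA.2.1 _ (star_mem ha) u hu.1, ← mul_assoc, hy.2.1], ?_⟩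
    rw [star_mul, star_star, mul_assoc,
      central_mul hA hf ha (mul_mem (star_mem hy.1) (mul_mem hy.1 (hA.1 _ (star_mem ha)))),
      mul_assoc]
    exact null_inner hf hy.1
      (mul_mem (mul_mem hy.1 (hA.1 _ (star_mem ha))) (hA.1 a ha)) hy.2.2
  have hK₀A : ∀ a ∈ A, ∀ v ∈ K₀, a v ∈ K₀ := by
    intro a ha v hv
    induction hv using Submodule.span_induction with
    | zero => simp
    | add x x' _ _ h h' => rw [map_add]; exact add_mem h h'
    | smul c x _ h => rw [map_smul]; exact Submodule.smul_mem _ _ h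
    | mem x hx =>
      obtain ⟨y, hy, η, rfl⟩ := hx
      exact Submodule.subset_span ⟨y * star a, hLA a ha y hy, η,
        by rw [star_mul, star_star]; rfl⟩
  set P := K.starProjection
  have hPs : IsStarProjection P := isStarProjection_starProjection
  have hPM : P ∈ M := proj_mem M K fun T hT v hv => closure_invariant (fun x hx => by
    induction hx using Submodule.span_induction with
    | zero => simp
    | add x x' _ _ h h' => rw [map_add]; exact add_mem h h'
    | smul c x _ h => rw [map_smul]; exact Submodule.smul_mem _ _ h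
    | mem x hx =>
      obtain ⟨y, hy, η, rfl⟩ := hx
      exact Submodule.subset_span ⟨y, hy, T η,
        (DFunLike.congr_fun (commutant_commute hT (star_mem hy.1)) η)⟩) hv
  have hPA : P ∈ A := by
    refine hA.2.2 P hPM fun a ha => ?_
    have h1 : ∀ b ∈ A, P * b * P = b * P := fun b hb => ContinuousLinearMap.ext fun v => by
      simp only [mul_apply_eq_comp]
      exact Submodule.starProjection_eq_self_iff.2 (closure_invariant (hK₀A b hb)
        (K.starProjection_apply_mem v))
    have h2 := congrArg star (h1 (star a) (star_mem ha))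
    simp only [star_mul, star_star, hPs.isSelfAdjoint.star_eq, ← mul_assoc] at h2
    rw [← h1 a ha, h2]
  have huP : u * P = P := ContinuousLinearMap.ext fun v => by
    have : K ≤ u.toLinearMap.eqLocus LinearMap.id := by
      refine Submodule.topologicalClosure_minimal _ (Submodule.span_le.2 ?_)
        (isClosed_eq u.continuous continuous_id)
      rintro _ ⟨y, hy, η, rfl⟩
      show u (star y η) = star y η
      rw [← mul_apply_eq_comp, show u * star y = star y by
        simpa [star_mul, hu.2.isSelfAdjoint.star_eq] using congrArg star hy.2.1]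
    exact this (K.starProjection_apply_mem v)
  have hPu : P * u = P := by
    simpa [star_mul, hu.2.isSelfAdjoint.star_eq, hPs.isSelfAdjoint.star_eq] using congrArg star huP
  have hbound : ∀ v ∈ K₀, ∃ (Y : Finset (H →L[ℂ] H)) (C : ℝ), (∀ y ∈ Y, y ∈ L) ∧ 0 ≤ C ∧
      ∀ (D : H →L[ℂ] H) (θ : ℝ), 0 ≤ θ → (∀ y ∈ Y, ‖D * star y‖ ≤ θ) → ‖D v‖ ≤ C * θ := by
    intro v hv
    induction hv using Submodule.span_induction with
    | zero => exact ⟨∅, 0, by simp, le_rfl, fun D θ _ _ => by simp⟩
    | add x x' _ _ h h' =>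
      obtain ⟨Y, C, hY, hC, hb⟩ := h
      obtain ⟨Y', C', hY', hC', hb'⟩ := h'
      refine ⟨Y ∪ Y', C + C', fun y hy => ?_, add_nonneg hC hC', fun D θ hθ hD => ?_⟩
      · rcases Finset.mem_union.1 hy with h | h
        exacts [hY y h, hY' y h]
      · rw [map_add, add_mul]
        exact (norm_add_le _ _).trans (add_le_add
          (hb D θ hθ fun y hy => hD y (Finset.mem_union_left _ hy))
          (hb' D θ hθ fun y hy => hD y (Finset.mem_union_right _ hy)))
    | smul c x _ h =>
      obtain ⟨Y, C, hY, hC, hb⟩ := h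
      refine ⟨Y, ‖c‖ * C, hY, mul_nonneg (norm_nonneg _) hC, fun D θ hθ hD => ?_⟩
      rw [map_smul, norm_smul, mul_assoc]
      exact mul_le_mul_of_nonneg_left (hb D θ hθ hD) (norm_nonneg _)
    | mem x hx =>
      obtain ⟨y, hy, η, rfl⟩ := hx
      refine ⟨{y}, ‖η‖, by simpa using hy, norm_nonneg _, fun D θ hθ hD => ?_⟩
      rw [← mul_apply_eq_comp, mul_comm]
      exact ((D * star y).le_opNorm η).trans
        (mul_le_mul_of_nonneg_right (hD y (Finset.mem_singleton_self y)) (norm_nonneg η))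
  have hfP : f P = 0 := by
    refine norm_le_zero_iff.1 (le_of_forall_gt_imp_ge_of_dense fun ε hε => ?_)
    obtain ⟨F, δ, hδ, hfF⟩ := hf.2.2 ε hε
    have happ : ∀ ξ : H, ∃ v ∈ K₀, ‖P ξ - v‖ < δ / 4 := fun ξ => by
      have h : P ξ ∈ closure (K₀ : Set H) := by
        rw [← Submodule.topologicalClosure_coe]
        exact K.starProjection_apply_mem ξ
      obtain ⟨v, hv, hd⟩ := Metric.mem_closure_iff.1 h (δ / 4) (by linarith)
      exact ⟨v, hv, by rwa [← dist_eq_norm]⟩
    choose v hv hvd using happ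
    choose Y C hY hC hb using fun ξ => hbound (v ξ) (hv ξ)
    set Z := F.biUnion Y
    set B := ∑ y ∈ Z, star y * y
    have hZ : ∀ y ∈ Z, y ∈ L := fun y hy => by
      obtain ⟨ξ, -, hyξ⟩ := Finset.mem_biUnion.1 hy
      exact hY ξ y hyξ
    have hB0 : 0 ≤ B := Finset.sum_nonneg fun y _ => star_mul_self_nonneg y
    have hBM : B ∈ M := sum_mem fun y hy => mul_mem (star_mem (hZ y hy).1) (hZ y hy).1
    have hfB : f B = 0 := by
      rw [map_sum]; exact Finset.sum_eq_zero fun y hy => (hZ y hy).2.2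
    have hPB : P * B = B := by
      rw [Finset.mul_sum]
      refine Finset.sum_congr rfl fun y hy => ?_
      rw [← mul_assoc]
      congr 1
      exact ContinuousLinearMap.ext fun η => Submodule.starProjection_eq_self_iff.2
        (Submodule.le_topologicalClosure _ (Submodule.subset_span ⟨y, hZ y hy, η, rfl⟩))
    set Cs := ∑ ξ ∈ F, C ξ
    have hCs : 0 ≤ Cs := Finset.sum_nonneg fun ξ _ => hC ξ
    set θ := δ / (4 * (Cs + 1))
    have hθ : 0 < θ := by positivity
    obtain ⟨n, hn⟩ := exists_nat_gt (1 / θ ^ 2)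
    have hn0 : (0 : ℝ) < n := lt_trans (by positivity) hn
    set X := (n : ℝ) • B with hX
    have hX0 : 0 ≤ X := smul_nonneg hn0.le hB0
    have hXM : X ∈ M := vn_smul M _ hBM
    set G := cfc damp X
    obtain ⟨hG0, hG1, hGX, -⟩ := damp_props (M := M) (e := (1 : H →L[ℂ] H)) hX0
    have hGM : G ∈ M := cfc_mem hXM _
    have hfG : f G = 0 := by
      have h1 := pos_re hf hGM hG0
      have h2 := pos_re hf (sub_mem hXM hGM) (sub_nonneg.2 hGX)
      have hfX : f X = 0 := by
        rw [hX, LinearMap.map_smul_of_tower, hfB, smul_zero]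
      rw [map_sub, hfX, Complex.sub_re, Complex.zero_re] at h2
      exact Complex.ext (by rw [Complex.zero_re]; linarith [h1.1, h2.1]) h1.2
    have hXs : IsSelfAdjoint X := .of_nonneg hX0
    have hinv : ContinuousOn (fun t : ℝ => (1 + t)⁻¹) (spectrum ℝ X) :=
      ContinuousOn.inv₀ (by fun_prop) fun t ht => by linarith [spectrum_nonneg_of_nonneg hX0 ht]
    have hG : G = X * cfc (fun t : ℝ => (1 + t)⁻¹) X := by
      conv_rhs => arg 1; rw [← cfc_id' ℝ X]
      rw [← cfc_mul (fun t : ℝ => t) _ X (by fun_prop) hinv]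
      refine cfc_congr fun t ht => ?_
      have : 1 + t ≠ 0 := by linarith [spectrum_nonneg_of_nonneg hX0 ht]
      unfold damp; field_simp; ring
    have hPG : P * G = G := by rw [hG, ← mul_assoc, hX, mul_smul_comm, hPB]
    have hGP : G * P = G := by
      have := congrArg star hPG
      rwa [star_mul, hPs.isSelfAdjoint.star_eq, (IsSelfAdjoint.of_nonneg hG0).star_eq] at this
    have h1G : 1 - G = cfc (fun t : ℝ => (1 + t)⁻¹) X := by
      rw [show G = cfc damp X from rfl, ← cfc_const_one ℝ X,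
        ← cfc_sub (fun _ : ℝ => (1 : ℝ)) damp X (by fun_prop) (continuousOn_const.sub hinv)]
      exact cfc_congr fun t _ => by simp [damp]
    have hD1 : ‖1 - G‖ ≤ 1 := by
      rw [h1G]
      refine norm_cfc_le zero_le_one fun t ht => ?_
      have h0 := spectrum_nonneg_of_nonneg hX0 ht
      rw [Real.norm_eq_abs, abs_of_nonneg (by positivity)]
      exact inv_le_one_of_one_le₀ (by linarith)
    have hD2 : ∀ y ∈ Z, ‖(1 - G) * star y‖ ≤ θ := by
      intro y hy
      refine le_of_sq_le_sq ?_ hθ.le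
      rw [sq, ← CStarRing.norm_self_mul_star]
      have hDs : star (1 - G) = 1 - G :=
        ((IsSelfAdjoint.one _).sub (IsSelfAdjoint.of_nonneg hG0)).star_eq
      have hle : (1 - G) * (star y * y) * (1 - G) ≤ (1 - G) * B * (1 - G) := by
        have := conj_le (Finset.single_le_sum (f := fun y => star y * y)
          (fun y _ => star_mul_self_nonneg y) hy) (1 - G)
        rwa [hDs] at this
      rw [star_mul, star_star, hDs]
      have h0 : 0 ≤ (1 - G) * (star y * y) * (1 - G) := by
        have := star_left_conjugate_nonneg (star_mul_self_nonneg y) (1 - G)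
        rwa [hDs] at this
      rw [show (1 - G) * star y * (y * (1 - G)) = (1 - G) * (star y * y) * (1 - G) by
        simp only [mul_assoc]]
      refine (CStarAlgebra.norm_le_norm_of_nonneg_of_le h0 hle).trans ?_
      have e : (1 - G) * B * (1 - G) = (n : ℝ)⁻¹ • ((1 - G) * X * (1 - G)) := by
        rw [hX, mul_smul_comm, smul_mul_assoc, smul_smul, inv_mul_cancel₀ hn0.ne', one_smul]
      rw [e, norm_smul, Real.norm_of_nonneg (by positivity)]
      have h1 : ‖(1 - G) * X * (1 - G)‖ ≤ 1 := by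
        rw [h1G]
        conv_lhs => arg 1; arg 1; arg 2; rw [← cfc_id' ℝ X]
        rw [← cfc_mul _ (fun t : ℝ => t) X hinv (by fun_prop),
          ← cfc_mul (fun t : ℝ => (1 + t)⁻¹ * t) _ X (hinv.mul (by fun_prop)) hinv]
        refine norm_cfc_le zero_le_one fun t ht => ?_
        have h0 := spectrum_nonneg_of_nonneg hX0 ht
        rw [Real.norm_eq_abs, abs_of_nonneg (by positivity), mul_inv_le_iff₀ (by positivity),
          one_mul, inv_mul_le_iff₀ (by positivity)]
        nlinarith
      refine (mul_le_of_le_one_right (by positivity) h1).trans ?_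
      rw [div_lt_iff₀ (by positivity)] at hn
      rw [inv_le_iff_one_le_mul₀ hn0]
      linarith
    have hPGe : P - G = (1 - G) * P := by rw [sub_mul, one_mul, hGP]
    have hsmall : ∀ ξ ∈ F, ‖(P - G) ξ‖ < δ := by
      intro ξ hξ
      rw [hPGe, mul_apply_eq_comp, ← sub_add_cancel (P ξ) (v ξ), map_add]
      have h1 : ‖(1 - G) (P ξ - v ξ)‖ < δ / 4 :=
        lt_of_le_of_lt ((1 - G).le_of_opNorm_le hD1 _) (by rw [one_mul]; exact hvd ξ)
      have h2 := hb ξ (1 - G) θ hθ.le fun y hy =>
        hD2 y (Finset.mem_biUnion.2 ⟨ξ, hξ, hy⟩)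
      have h3 : C ξ * θ ≤ δ / 4 := by
        refine (mul_le_mul_of_nonneg_right ((Finset.single_le_sum (fun x _ => hC x) hξ).trans
          (le_add_of_nonneg_right zero_le_one)) hθ.le).trans (le_of_eq ?_)
        simp only [θ, Cs]
        field_simp
        exact div_self (ne_of_gt (by positivity))
      exact lt_of_le_of_lt (norm_add_le _ _) (by linarith)
    have hn1 : ‖P - G‖ ≤ 1 := by
      rw [hPGe]
      exact (norm_mul_le _ _).trans (mul_le_one₀ hD1 (norm_nonneg _) hPs.norm_le)
    have := hfF _ (sub_mem hPM hGM) hn1 hsmall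
    rw [map_sub, hfG, sub_zero] at this
    exact this.le
  set w := u - P
  have hw : IsPr A w := ⟨sub_mem hu.1 hPA, sub_proj hu.2 hPs hPu⟩
  have hwu : w * u = w := by rw [sub_mul, hu.2.isIdempotentElem.eq, hPu]
  have hwne : w ≠ 0 := fun h => hfu (by
    have : f w = f u := by rw [map_sub, hfP, sub_zero]
    rw [← this, h, map_zero])
  refine ⟨w, hw, hwu, hwne, fun y hy _ => hf.1 y hy, fun y hy hye h0 => ?_,
    fun a ha y hy _ => central_mul hA hf ha hy, fun ε hε => ?_⟩
  · have hyw : y * w = y := by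
      conv_lhs => rw [← hye, mul_assoc, hw.2.isIdempotentElem.eq, hye]
    have hyL : y ∈ L := ⟨hy, by rw [← hyw, mul_assoc, hwu], h0⟩
    have h1 : P * star y = star y := ContinuousLinearMap.ext fun η =>
      Submodule.starProjection_eq_self_iff.2
        (Submodule.le_topologicalClosure _ (Submodule.subset_span ⟨y, hyL, η, rfl⟩))
    have h2 : y * P = y := by
      simpa [star_mul, hPs.isSelfAdjoint.star_eq] using congrArg star h1
    have hwP : w * P = 0 := by rw [sub_mul, huP, hPs.isIdempotentElem.eq, sub_self]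
    rw [← h2, ← hyw, mul_assoc, hwP, mul_zero]
  · obtain ⟨F, δ, hδ, h⟩ := hf.2.2 ε hε
    exact ⟨F, δ, hδ, fun y hy _ hn hF => h y hy hn hF⟩

end Fill

open Fill MKS Singular in
/-- The separated part is filled by states. -/
theorem fill_ok : FillStatement := by
  classical
  intro H _ _ _ M A hA p₀ hp₀ hp₀P hsep F δ hδ
  have hp : IsPr A (1 - p₀) := ⟨sub_mem (one_mem A) hp₀, hp₀P.one_sub⟩
  obtain ⟨S, Q, hS, hQ, hQp, hmax, hle, happ⟩ :=
    exhaust A (1 - p₀) hp.2 fun s => ∃ f, IsState M A s f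
  have hpQ : Q = 1 - p₀ := by
    by_contra hne
    have he : IsPr A (1 - p₀ - Q) := ⟨sub_mem hp.1 hQ.1, sub_proj hp.2 hQ.2 hQp⟩
    have hep : (1 - p₀ - Q) * (1 - p₀) = 1 - p₀ - Q := by
      rw [sub_mul, hp.2.isIdempotentElem.eq, hQp]
    obtain ⟨f, hf, hfe⟩ := hsep _ he.1 he.2
      (by rw [← hep, mul_assoc, hp₀P.one_sub_mul_self, mul_zero])
      (sub_ne_zero.2 (Ne.symm hne))
    obtain ⟨w, hw, hwe, hw0, hst⟩ := faithful_part hA hf he hfe
    exact hmax w hw hw0 hwe ⟨f, hst⟩
  obtain ⟨T, hT, hTF⟩ := happ F δ hδ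
  obtain ⟨hTP, hTp⟩ := hS.sum_pr T hT
  choose! g hg using fun u (hu : u ∈ T) => (hS.1 u (hT u hu)).2.2.2
  set e := ∑ u ∈ T, u with he
  set φ : (H →L[ℂ] H) →ₗ[ℂ] ℂ := ∑ u ∈ T, g u ∘ₗ LinearMap.mulLeftRight ℂ (u, u)
  have hval : ∀ y, φ y = ∑ u ∈ T, g u (u * y * u) := fun y => by
    simp [φ, LinearMap.sum_apply, LinearMap.mulLeftRight_apply]
  have huP : ∀ u ∈ T, IsPr A u := fun u hu => (hS.1 u (hT u hu)).1
  have hcor : ∀ u ∈ T, ∀ y ∈ M, Cor M u (u * y * u) := fun u hu y hy =>
    ⟨mul_mem (mul_mem (hA.1 _ (huP u hu).1) hy) (hA.1 _ (huP u hu).1), by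
      simp only [← mul_assoc, (huP u hu).2.isIdempotentElem.eq]
      simp only [mul_assoc, (huP u hu).2.isIdempotentElem.eq]⟩
  have hsq : ∀ u ∈ T, ∀ y ∈ M, 0 ≤ (g u (u * (star y * y) * u)).re ∧
      (g u (u * (star y * y) * u)).im = 0 ∧
      (g u (u * (star y * y) * u) = 0 → y * u = 0) := by
    intro u hu y hy
    have hus := (huP u hu).2.isSelfAdjoint.star_eq
    have hm : u * (star y * y) * u ∈ M :=
      (hcor u hu _ (mul_mem (star_mem hy) hy)).1
    have h0 : 0 ≤ u * (star y * y) * u := by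
      have := star_left_conjugate_nonneg (star_mul_self_nonneg y) u
      rwa [hus] at this
    obtain ⟨s, hs, hss, hsc⟩ := TraceFacts.exists_sqrt h0
    have hsM : s ∈ M := mem_of_forall_commute M fun z hz =>
      ((hsc z (commutant_commute hz hm)).eq).symm
    have hc := hcor u hu _ (mul_mem (star_mem hy) hy)
    have hse : s * (1 - u) = 0 := by
      have hX := hc.mul_left (huP u hu).2
      generalize u * (star y * y) * u = X at hss hX
      rw [← CStarRing.star_mul_self_eq_zero_iff, star_mul, hs,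
        (huP u hu).2.one_sub.isSelfAdjoint.star_eq, mul_assoc, ← mul_assoc s, hss,
        sub_mul (1 : H →L[ℂ] H), one_mul, ← mul_assoc, hX, sub_self]
    have h2 : s * u = s := by rw [mul_sub, mul_one, sub_eq_zero] at hse; exact hse.symm
    have h3 : u * s = s := by simpa [star_mul, hs, hus] using congrArg star h2
    have hsu : u * s * u = s := by rw [h3, h2]
    have h4 := (hg u hu).1 s hsM hsu
    rw [hs, hss] at h4
    refine ⟨h4.1, h4.2, fun hz => ?_⟩
    have h5 := (hg u hu).2.1 s hsM hsu (by rw [hs, hss]; exact hz)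
    rw [← CStarRing.star_mul_self_eq_zero_iff, star_mul, hus]
    rw [h5, mul_zero] at hss
    rw [hss]; simp only [mul_assoc]
  refine ⟨e, φ, hTP.1, hTP.2, hTp, ⟨fun y hy _ => ?_, fun y hy hye h0 => ?_,
    fun a ha y hy _ => ?_, fun ε hε => ?_⟩, fun ξ hξ => by rw [← hpQ]; exact hTF ξ hξ⟩
  · rw [hval, Complex.re_sum, Complex.im_sum]
    exact ⟨Finset.sum_nonneg fun u hu => (hsq u hu y hy).1,
      Finset.sum_eq_zero fun u hu => (hsq u hu y hy).2.1⟩
  · rw [hval] at h0
    have h1 : ∀ u ∈ T, y * u = 0 := by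
      intro u hu
      have h := congrArg Complex.re h0
      rw [Complex.re_sum, Complex.zero_re,
        Finset.sum_eq_zero_iff_of_nonneg fun v hv => (hsq v hv y hy).1] at h
      exact (hsq u hu y hy).2.2 (Complex.ext (h u hu) (hsq u hu y hy).2.1)
    have : y * e = 0 := by rw [he, Finset.mul_sum]; exact Finset.sum_eq_zero h1
    rw [← hye, mul_assoc, this, mul_zero]
  · rw [hval, hval]
    refine Finset.sum_congr rfl fun u hu => ?_
    have hc := hcor u hu y hy
    have hau := hA.2.1 a ha u (huP u hu).1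
    calc g u (u * (a * y) * u) = g u (a * (u * y * u)) := by
          simp only [← mul_assoc]; rw [hau]
      _ = g u (u * y * u * a) := (hg u hu).2.2.1 a ha _ hc.1 hc.2
      _ = _ := by simp only [mul_assoc]; rw [← hau]
  · choose! G d hd hG using fun u (hu : u ∈ T) =>
      (hg u hu).2.2.2 (ε / (T.card + 1)) (by positivity)
    obtain ⟨d₀, hd₀, hd₀le⟩ : ∃ d₀ : ℝ, 0 < d₀ ∧ ∀ u ∈ T, d₀ ≤ d u :=
      ⟨(insert 1 (T.image d)).min' (Finset.insert_nonempty _ _), by
        refine (Finset.lt_min'_iff _ _).2 fun x hx => ?_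
        rcases Finset.mem_insert.1 hx with rfl | hx
        · exact one_pos
        · obtain ⟨u, hu, rfl⟩ := Finset.mem_image.1 hx
          exact hd u hu,
        fun u hu => Finset.min'_le _ _ (Finset.mem_insert_of_mem (Finset.mem_image_of_mem d hu))⟩
    refine ⟨T.biUnion fun u => (G u).image u, d₀, hd₀, fun y hy _ hn hyF => ?_⟩
    rw [hval]
    refine lt_of_le_of_lt ((norm_sum_le _ _).trans (Finset.sum_le_card_nsmul _ _
      (ε / (T.card + 1)) fun u hu => ?_)) ?_
    · have hc := hcor u hu y hy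
      have hun := (huP u hu).2.norm_le
      refine (hG u hu _ hc.1 hc.2 ?_ fun ξ hξ => ?_).le
      · exact (norm_mul_le _ _).trans (mul_le_one₀ ((norm_mul_le _ _).trans
          (mul_le_one₀ hun (norm_nonneg _) hn)) (norm_nonneg _) hun)
      · rw [mul_assoc, mul_apply_eq_comp, mul_apply_eq_comp]
        exact lt_of_lt_of_le (lt_of_le_of_lt (norm_proj_apply_le (huP u hu).2 _)
          (hyF _ (Finset.mem_biUnion.2 ⟨u, hu, Finset.mem_image_of_mem _ hξ⟩))) (hd₀le u hu)
    · rw [nsmul_eq_mul, mul_div_assoc', div_lt_iff₀ (by positivity)]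
      nlinarith

end Vale.Agent.P078.State
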