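import Vale.Agent.P078.State.Defs
import Vale.Agent.P078.Orth.Basic

/-!
The 2-norm of a state on a corner in whose centraliser the MASA lies.
-/

namespace Vale.Agent.P078.State

open MKS Singular

set_option linter.unusedSectionVars false

variable {H : Type} [NormedAddCommGroup H] [InnerProductSpace ℂ H] [CompleteSpace H]
variable {M A : VonNeumannAlgebra H} {e : H →L[ℂ] H} {φ : (H →L[ℂ] H) →ₗ[ℂ] ℂ}

/-- A trace is a state. -/
theorem isState_of_trace (hA : IsMASA M A) (heA : e ∈ A) (he : IsStarProjection e)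
    (hτ : IsTrace M e φ) : IsState M A e φ := by
  refine ⟨hτ.1, hτ.2.1, fun a ha y hyM hy => ?_, hτ.2.2.2⟩
  have hy' : Cor M e y := ⟨hyM, hy⟩
  have hae : Cor M e (a * e) := Cor.of_abs he (mul_mem (hA.1 a ha) (hA.1 e heA))
    (by rw [← mul_assoc, hA.2.1 e heA a ha, mul_assoc, he.isIdempotentElem.eq])
    (by rw [mul_assoc, he.isIdempotentElem.eq])
  have h := hτ.2.2.1 (a * e) hae.1 y hyM hae.2 hy
  rwa [mul_assoc, hy'.mul_left he, hA.2.1 a ha e heA, ← mul_assoc, hy'.mul_right he] at h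

theorem cor_pinch (hA : IsMASA M A) {r : ℕ} {P : Fin r → (H →L[ℂ] H)}
    (hP : IsPartition A e P) {y : H →L[ℂ] H} (hy : y ∈ M) : Cor M e (MKS.pinch P y) := by
  refine Cor.sum _ fun i _ => ⟨mul_mem (mul_mem (hA.1 _ (hP.1 i).1) hy) (hA.1 _ (hP.1 i).1), ?_⟩
  rw [← mul_assoc, ← mul_assoc, (hP.mul_e i).1, mul_assoc, (hP.mul_e i).2]

/-- An element of the MASA times an element of the corner lies in the corner. -/
theorem cor_mul_mem (hA : IsMASA M A) (heA : e ∈ A) (he : IsStarProjection e) {a y : H →L[ℂ] H}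
    (ha : a ∈ A) (hy : Cor M e y) : Cor M e (a * y) ∧ Cor M e (y * a) :=
  ⟨Cor.of_abs he (mul_mem (hA.1 a ha) hy.1)
      (by rw [← mul_assoc, hA.2.1 e heA a ha, mul_assoc, hy.mul_left he])
      (by rw [mul_assoc, hy.mul_right he]),
    Cor.of_abs he (mul_mem hy.1 (hA.1 a ha))
      (by rw [← mul_assoc, hy.mul_left he])
      (by rw [mul_assoc, hA.2.1 a ha e heA, ← mul_assoc, hy.mul_right he])⟩

theorem n2_csmul (c : ℂ) (y : H →L[ℂ] H) : n2 φ (c • y) = ‖c‖ * n2 φ y := by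
  rw [n2, n2, star_smul, smul_mul_smul_comm, map_smul, smul_eq_mul, Complex.star_def,
    ← Complex.normSq_eq_conj_mul_self, Complex.re_ofReal_mul,
    Real.sqrt_mul (Complex.normSq_nonneg c)]
  rfl

theorem n2_rsmul {c : ℝ} (hc : 0 ≤ c) (y : H →L[ℂ] H) : n2 φ (c • y) = c * n2 φ y := by
  rw [n2, star_smul, star_trivial, smul_mul_smul_comm, tr_rsmul, Real.sqrt_mul (mul_nonneg hc hc),
    Real.sqrt_mul_self hc]
  rfl

theorem n2_neg (y : H →L[ℂ] H) : n2 φ (-y) = n2 φ y := by simp [n2]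

theorem n2_zero : n2 φ (0 : H →L[ℂ] H) = 0 := by simp [n2]

variable (S : IsState M A e φ) (he : IsStarProjection e)
include S he

theorem re_comm {a b : H →L[ℂ] H} (ha : Cor M e a) (hb : Cor M e b) :
    (φ (star b * a)).re = (φ (star a * b)).re := by
  have h := (S.1 (a + Complex.I • b) (ha.add (hb.csmul _)).1 (ha.add (hb.csmul _)).2).2
  have h1 := (S.1 a ha.1 ha.2).2
  have h2 := (S.1 b hb.1 hb.2).2
  simp only [star_add, star_smul, add_mul, mul_add, smul_mul_assoc, mul_smul_comm, map_add,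
    map_smul, smul_eq_mul, Complex.star_def, Complex.conj_I, Complex.add_im, Complex.mul_im,
    Complex.mul_re, Complex.neg_re, Complex.neg_im, Complex.I_re, Complex.I_im] at h
  linarith

theorem n2_sq {y : H →L[ℂ] H} (hy : Cor M e y) : n2 φ y ^ 2 = (φ (star y * y)).re :=
  Real.sq_sqrt (S.1 y hy.1 hy.2).1

theorem re_inner_le {a b : H →L[ℂ] H} (ha : Cor M e a) (hb : Cor M e b) :
    (φ (star a * b)).re ≤ n2 φ a * n2 φ b := by
  set X := (φ (star a * a)).re
  set Y := (φ (star a * b)).re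
  set Z := (φ (star b * b)).re
  have hq : ∀ t : ℝ, 0 ≤ Z * (t * t) + 2 * Y * t + X := by
    intro t
    have h := (S.1 (a + t • b) (ha.add (hb.rsmul t)).1 (ha.add (hb.rsmul t)).2).1
    simp only [star_add, star_smul, star_trivial, add_mul, mul_add, smul_mul_assoc, mul_smul_comm,
      map_add, Complex.add_re, tr_rsmul, re_comm S he ha hb] at h
    show 0 ≤ Z * (t * t) + 2 * Y * t + X
    nlinarith
  have hd := discrim_le_zero hq
  rw [discrim] at hd
  refine (le_abs_self Y).trans ((sq_le_sq₀ (abs_nonneg Y)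
    (mul_nonneg (n2_nonneg a) (n2_nonneg b))).1 ?_)
  rw [sq_abs, mul_pow, n2_sq S he ha, n2_sq S he hb]
  nlinarith

/-- The Cauchy–Schwarz inequality. -/
theorem norm_inner_le {a b : H →L[ℂ] H} (ha : Cor M e a) (hb : Cor M e b) :
    ‖φ (star a * b)‖ ≤ n2 φ a * n2 φ b := by
  set w := φ (star a * b) with hw
  rcases eq_or_ne w 0 with h | h
  · rw [h, norm_zero]; exact mul_nonneg (n2_nonneg _) (n2_nonneg _)
  have h1 := re_inner_le S he ha (hb.csmul (star w / (‖w‖ : ℂ)))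
  rw [mul_smul_comm, map_smul, ← hw, smul_eq_mul, n2_csmul, norm_div, norm_star,
    Complex.norm_real, norm_norm, div_self (norm_ne_zero_iff.2 h), one_mul] at h1
  refine le_trans (le_of_eq ?_) h1
  rw [div_mul_eq_mul_div, Complex.star_def, ← Complex.normSq_eq_conj_mul_self,
    Complex.div_ofReal_re, Complex.ofReal_re, Complex.normSq_eq_norm_sq, sq,
    mul_div_assoc, div_self (norm_ne_zero_iff.2 h), mul_one]

theorem n2_add_le {a b : H →L[ℂ] H} (ha : Cor M e a) (hb : Cor M e b) :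
    n2 φ (a + b) ≤ n2 φ a + n2 φ b := by
  refine (sq_le_sq₀ (n2_nonneg _) (add_nonneg (n2_nonneg _) (n2_nonneg _))).1 ?_
  rw [n2_sq S he (ha.add hb), add_sq, n2_sq S he ha, n2_sq S he hb]
  simp only [star_add, add_mul, mul_add, map_add, Complex.add_re, re_comm S he ha hb]
  have := re_inner_le S he ha hb
  nlinarith

theorem n2_sub_le {a b : H →L[ℂ] H} (ha : Cor M e a) (hb : Cor M e b) :
    n2 φ (a - b) ≤ n2 φ a + n2 φ b := by
  rw [sub_eq_add_neg]
  exact (n2_add_le S he ha hb.neg).trans_eq (by rw [n2_neg])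

theorem eq_zero_of_n2 {y : H →L[ℂ] H} (hy : Cor M e y) (h : n2 φ y = 0) : y = 0 := by
  refine S.2.1 y hy.1 hy.2 (Complex.ext ?_ (S.1 y hy.1 hy.2).2)
  rw [← n2_sq S he hy, h]
  simp

theorem parallelogram {a b : H →L[ℂ] H} (ha : Cor M e a) (hb : Cor M e b) :
    n2 φ (a + b) ^ 2 + n2 φ (a - b) ^ 2 = 2 * n2 φ a ^ 2 + 2 * n2 φ b ^ 2 := by
  rw [n2_sq S he (ha.add hb), n2_sq S he (ha.sub hb), n2_sq S he ha, n2_sq S he hb]
  simp only [star_add, star_sub, add_mul, mul_add, sub_mul, mul_sub, map_add, map_sub,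
    Complex.add_re, Complex.sub_re]
  ring

theorem tr_nonneg {z : H →L[ℂ] H} (hz : Cor M e z) (h0 : 0 ≤ z) : 0 ≤ (φ z).re := by
  set w := cfc Real.sqrt z with hwdef
  have hws : star w = w := (cfc_predicate _ _ : IsSelfAdjoint (cfc Real.sqrt z)).star_eq
  have hww : w * w = z := by
    rw [hwdef, ← cfc_mul _ _ z]
    conv_rhs => rw [← cfc_id' ℝ z]
    exact cfc_congr fun x hx => Real.mul_self_sqrt (spectrum_nonneg_of_nonneg h0 hx)
  have h1 : w * (1 - e) = 0 := by
    rw [← CStarRing.star_mul_self_eq_zero_iff]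
    rw [star_mul, hws, he.one_sub.isSelfAdjoint.star_eq, mul_assoc, ← mul_assoc w, hww, sub_mul,
      one_mul, ← mul_assoc, hz.mul_left he, sub_self]
  have h2 : w * e = w := by rw [mul_sub, mul_one, sub_eq_zero] at h1; exact h1.symm
  have h3 : e * w = w := by
    simpa [star_mul, hws, he.isSelfAdjoint.star_eq] using congrArg star h2
  have hw : Cor M e w := Cor.of_abs he (cfc_mem hz.1 _) h3 h2
  have := (S.1 w hw.1 hw.2).1
  rwa [hws, hww] at this

theorem tr_mono {x y : H →L[ℂ] H} (hx : Cor M e x) (hy : Cor M e y) (h : x ≤ y) :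
    (φ x).re ≤ (φ y).re := by
  have := tr_nonneg S he (hy.sub hx) (sub_nonneg.2 h)
  rw [tr_sub] at this
  linarith

theorem tr_star (heM : e ∈ M) {x : H →L[ℂ] H} (hx : Cor M e x) : φ (star x) = star (φ x) := by
  have key : ∀ c : ℂ, (φ (star (e + c • x) * (e + c • x))).im = 0 := fun c =>
    (S.1 _ ((cor_proj heM he).add (hx.csmul c)).1 ((cor_proj heM he).add (hx.csmul c)).2).2
  have e0 := (S.1 e heM (cor_proj heM he).2).2
  have x0 := (S.1 x hx.1 hx.2).2
  have hxs := hx.star' he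
  rw [he.isSelfAdjoint.star_eq, he.isIdempotentElem.eq] at e0
  have h1 := key 1
  have h2 := key Complex.I
  simp only [star_add, star_smul, he.isSelfAdjoint.star_eq, add_mul, mul_add, smul_mul_assoc,
    mul_smul_comm, he.isIdempotentElem.eq, hx.mul_left he, hxs.mul_right he, map_add, map_smul,
    smul_eq_mul, one_mul, star_one, Complex.star_def, Complex.conj_I, Complex.add_im,
    Complex.mul_im, Complex.mul_re, Complex.neg_re, Complex.neg_im, Complex.I_re, Complex.I_im]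
    at h1 h2
  apply Complex.ext <;> simp only [Complex.star_def, Complex.conj_re, Complex.conj_im] <;> linarith

theorem n2_mul_le {g y : H →L[ℂ] H} (hgy : Cor M e (g * y)) (hy : Cor M e y) :
    n2 φ (g * y) ≤ ‖g‖ * n2 φ y := by
  refine (sq_le_sq₀ (n2_nonneg _) (mul_nonneg (norm_nonneg _) (n2_nonneg _))).1 ?_
  rw [mul_pow, n2_sq S he hgy, n2_sq S he hy, ← tr_rsmul]
  refine tr_mono S he ((hgy.star' he).mul he hgy) (((hy.star' he).mul he hy).rsmul _) ?_
  have h := conj_le (x := star g * g) (y := (‖g‖ ^ 2 : ℝ) • 1) ?_ y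
  · rw [mul_smul_comm, smul_mul_assoc, mul_one] at h
    simpa [star_mul, mul_assoc] using h
  · have hb := bounds_of_norm_le (IsSelfAdjoint.star_mul_self g) (c := ‖g‖ ^ 2)
      (by rw [CStarRing.norm_star_mul_self, sq])
    exact hb.2

/-- Right multiplication by the MASA is bounded. -/
theorem n2_mul_mem_le (hA : IsMASA M A) (heA : e ∈ A) {y a : H →L[ℂ] H} (hy : Cor M e y)
    (ha : a ∈ A) : n2 φ (y * a) ≤ ‖a‖ * n2 φ y := by
  set Y := star y * y
  have hY : Cor M e Y := (hy.star' he).mul he hy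
  have hD : 0 ≤ (‖a‖ ^ 2) • (1 : H →L[ℂ] H) - a * star a := sub_nonneg.2
    (bounds_of_norm_le (IsSelfAdjoint.mul_star_self a)
      (by rw [CStarRing.norm_self_mul_star, sq])).2
  have hDA : (‖a‖ ^ 2) • (1 : H →L[ℂ] H) - a * star a ∈ A :=
    sub_mem (vn_smul A _ (one_mem A)) (mul_mem ha (star_mem ha))
  set c := cfc Real.sqrt ((‖a‖ ^ 2) • (1 : H →L[ℂ] H) - a * star a)
  have hcs : star c = c := (cfc_predicate _ _ : IsSelfAdjoint c).star_eq
  have hcc : c * c = (‖a‖ ^ 2) • (1 : H →L[ℂ] H) - a * star a := by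
    rw [← cfc_mul _ _ _]
    conv_rhs => rw [← cfc_id' ℝ ((‖a‖ ^ 2) • (1 : H →L[ℂ] H) - a * star a)]
    exact cfc_congr fun x hx => Real.mul_self_sqrt (spectrum_nonneg_of_nonneg hD hx)
  have hcA : c ∈ A := cfc_mem hDA _
  have hYc := (cor_mul_mem hA heA he hcA hY).2
  have h0 : 0 ≤ (φ (c * (Y * c))).re := by
    refine tr_nonneg S he (cor_mul_mem hA heA he hcA hYc).1 ?_
    have := star_left_conjugate_nonneg (star_mul_self_nonneg y) c
    rwa [hcs, mul_assoc] at this
  rw [S.2.2.1 c hcA _ hYc.1 hYc.2, mul_assoc, hcc, mul_sub, mul_smul_comm, mul_one, map_sub,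
    Complex.sub_re, tr_rsmul] at h0
  have hYa := (cor_mul_mem hA heA he ha hY).2
  have h1 : φ (Y * (a * star a)) = φ (star (y * a) * (y * a)) := by
    rw [← mul_assoc, ← S.2.2.1 (star a) (star_mem ha) _ hYa.1 hYa.2, star_mul]
    simp only [Y, mul_assoc]
  refine (sq_le_sq₀ (n2_nonneg _) (mul_nonneg (norm_nonneg _) (n2_nonneg _))).1 ?_
  rw [mul_pow, n2_sq S he (cor_mul_mem hA heA he ha hy).2, n2_sq S he hy, ← h1]
  linarith

/-- Pinchings preserve the state. -/
theorem tr_pinch (hA : IsMASA M A) (heA : e ∈ A) {r : ℕ} {P : Fin r → (H →L[ℂ] H)}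
    (hP : IsPartition A e P) {y : H →L[ℂ] H} (hy : Cor M e y) :
    φ (MKS.pinch P y) = φ y := by
  calc φ (MKS.pinch P y) = ∑ i, φ (P i * y * P i) := map_sum φ _ _
    _ = ∑ i, φ (P i * y) := Finset.sum_congr rfl fun i _ => by
        have hc := (cor_mul_mem hA heA he (hP.1 i).1 hy).1
        rw [← S.2.2.1 (P i) (hP.1 i).1 _ hc.1 hc.2, ← mul_assoc, (hP.1 i).2.isIdempotentElem.eq]
    _ = φ y := by rw [← map_sum, ← Finset.sum_mul, hP.2.2, hy.mul_left he]

/-- Pinchings are orthogonal projections. -/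
theorem inner_pinch (hA : IsMASA M A) (heA : e ∈ A) {r : ℕ} {P : Fin r → (H →L[ℂ] H)}
    (hP : IsPartition A e P) {y : H →L[ℂ] H} (hy : Cor M e y) :
    φ (star (MKS.pinch P y) * MKS.pinch P y) = φ (star (MKS.pinch P y) * y) := by
  have hS := cor_pinch hA hP hy.1
  rw [← tr_pinch S he hA heA hP ((hS.star' he).mul he hy)]
  congr 1
  simp only [MKS.pinch, star_sum, star_mul, (hP.1 _).2.isSelfAdjoint.star_eq, Finset.sum_mul,
    Finset.mul_sum, mul_assoc]
  refine Finset.sum_congr rfl fun i _ => ?_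
  refine Finset.sum_congr rfl fun j _ => ?_
  rcases eq_or_ne i j with rfl | h
  · simp only [← mul_assoc, (hP.1 i).2.isIdempotentElem.eq]
  · simp only [← mul_assoc, hP.2.1 i j h, hP.2.1 j i h.symm, mul_zero, zero_mul]

theorem n2_pinch_le (hA : IsMASA M A) (heA : e ∈ A) {r : ℕ} {P : Fin r → (H →L[ℂ] H)}
    (hP : IsPartition A e P) {y : H →L[ℂ] H} (hy : Cor M e y) :
    n2 φ (MKS.pinch P y) ≤ n2 φ y := by
  have hS := cor_pinch hA hP hy.1
  have h := re_inner_le S he hS hy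
  rw [← inner_pinch S he hA heA hP hy, ← n2_sq S he hS] at h
  nlinarith [n2_nonneg (τ := φ) (MKS.pinch P y), n2_nonneg (τ := φ) y]

theorem n2_pinch_mono (hA : IsMASA M A) (heA : e ∈ A) {a c : Orth.Cut A e} (h : a.Refines c)
    {y : H →L[ℂ] H} (hy : Cor M e y) : n2 φ (MKS.pinch c.q y) ≤ n2 φ (MKS.pinch a.q y) := by
  rw [← Orth.pinch_pinch_refines hA h y]
  exact n2_pinch_le S he hA heA c.part (cor_pinch hA a.part hy.1)

end Vale.Agent.P078.State
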