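import Vale.Agent.P078.State.AssemblyStage
import Vale.Agent.P078.State.Fill
import Vale.Agent.P078.MKS.Assembly.Pad
import Vale.Agent.P078.Singular.Main
import Vale.Agent.P078.Twist.Main
import Vale.Agent.P078.Twist.Scale
import Vale.Agent.P078.Twist.RepPot
import Vale.Agent.P078.Twist.Homog
import Vale.Agent.P078.Twist.Transport
import Vale.Agent.P078.Twist.Start.WeightRep

/-!
So-paving with `C ε⁻²` pieces over every MASA of every von Neumann algebra, from the stage in a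
corner with a central state.
-/

namespace Vale.Agent.P078.State

open MKS Singular

/-- So-paving with `C ε⁻²` pieces of every self-adjoint element over every MASA. -/
def MasaSoPavingStatement : Prop :=
  ∃ C : ℕ, ∀ (H : Type) [NormedAddCommGroup H] [InnerProductSpace ℂ H] [CompleteSpace H]
    (M A : VonNeumannAlgebra H), IsMASA M A →
    ∀ x ∈ M, IsSelfAdjoint x → ∀ (ε : ℝ) (r : ℕ), 0 < ε → ε < 1 → (C : ℝ) ≤ ε ^ 2 * r →
      SoPavable M A 1 x ε r

/-- The twisted paving. -/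
theorem twisted_paving_ok : Twist.TwistedPavingStatement :=
  Twist.twisted_paving_of Twist.scale_ok Twist.weight_ok Twist.transport_ok Twist.rep_pot_ok
    Twist.homog_ok (Twist.Start.start_of_transport Twist.transport_ok)

/-- From stages in the corners to so-paving below a projection which states fill. -/
theorem soPavable_of_stage {H : Type} [NormedAddCommGroup H] [InnerProductSpace ℂ H]
    [CompleteSpace H] {M A : VonNeumannAlgebra H} (hA : IsMASA M A) {p : H →L[ℂ] H} (hpA : p ∈ A)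
    (hpp : IsStarProjection p) (hfill : StatesFill M A p) {x : H →L[ℂ] H} (hxM : x ∈ M)
    (hx : IsSelfAdjoint x) {ε : ℝ} {r : ℕ} (hr0 : 0 < r)
    (hstage : ∀ (e : H →L[ℂ] H) (φ : (H →L[ℂ] H) →ₗ[ℂ] ℂ), e ∈ A → IsStarProjection e →
      IsState M A e φ → ∀ z : H →L[ℂ] H, Cor M e z → IsSelfAdjoint z → ‖z‖ ≤ 1 →
      ∀ (F : Finset H) (δ : ℝ), 0 < δ → ∃ (R : Fin r → (H →L[ℂ] H)) (a q : H →L[ℂ] H),
        IsPartition A e R ∧ a ∈ A ∧ IsSelfAdjoint a ∧ Cor M e a ∧ ‖a‖ ≤ 1 ∧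
        Cor M e q ∧ IsStarProjection q ∧ (∀ ξ ∈ F, ‖(e - q) ξ‖ < δ) ∧
        ‖q * (MKS.pinch R z - a) * q‖ ≤ ε) :
    SoPavable M A p x ε r := by
  classical
  intro F δ hδ
  obtain ⟨e, φ, heA, he, hep, hφ, heF⟩ := hfill F (δ / 2) (half_pos hδ)
  have heM : e ∈ M := hA.1 e heA
  set x₁ := ‖x‖⁻¹ • x with hx₁def
  have hx₁n : ‖x₁‖ ≤ 1 := by
    rw [hx₁def, norm_smul, norm_inv, norm_norm]
    exact inv_mul_le_one
  have hxc : Cor M e (e * x₁ * e) := ⟨mul_mem (mul_mem heM (vn_smul M _ hxM)) heM, by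
    simp only [← mul_assoc, he.isIdempotentElem.eq]
    simp only [mul_assoc, he.isIdempotentElem.eq]⟩
  have hxs : IsSelfAdjoint (e * x₁ * e) := by
    have := (show IsSelfAdjoint x₁ from (IsSelfAdjoint.all _).smul hx).conjugate e
    rwa [he.isSelfAdjoint.star_eq] at this
  have hxn : ‖e * x₁ * e‖ ≤ 1 := (norm_mul_le _ _).trans
    ((mul_le_of_le_one_right (norm_nonneg _) he.norm_le).trans ((norm_mul_le _ _).trans
      ((mul_le_of_le_one_left (norm_nonneg _) he.norm_le).trans hx₁n)))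
  obtain ⟨R, a, q, hR, haA, has, hac, han, hqc, hq, hqF, hqW⟩ :=
    hstage e φ heA he hφ _ hxc hxs hxn F (δ / 2) (half_pos hδ)
  obtain ⟨hP', hP'q⟩ := extend_partition hpA hpp heA he hep hr0 hR
  have hqe := hqc.mul_right he
  refine ⟨_, ‖x‖ • a, q, hP'.1, hP'.2.1, hP'.2.2, vn_smul A _ haA,
    (IsSelfAdjoint.all _).smul has,
    by rw [smul_mul_assoc, ← hac.mul_right he, mul_assoc, hep], ?_,
    hqc.1, hq, by rw [← hqe, mul_assoc, hep], fun ξ hξ => ?_, ?_⟩
  · rw [norm_smul, norm_norm]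
    exact mul_le_of_le_one_right (norm_nonneg _) han
  · have : (p - q) ξ = (p - e) ξ + (e - q) ξ := by
      simp only [sub_apply]; abel
    rw [this]
    exact lt_of_le_of_lt (norm_add_le _ _) (by linarith [heF ξ hξ, hqF ξ hξ])
  · have hxx : x = ‖x‖ • x₁ := by
      rcases eq_or_ne x 0 with rfl | h
      · simp
      · rw [hx₁def, smul_smul, mul_inv_cancel₀ (norm_ne_zero_iff.2 h), one_smul]
    set P' := Function.update R ⟨0, hr0⟩ (R ⟨0, hr0⟩ + (p - e))
    show ‖q * (MKS.pinch P' x - ‖x‖ • a) * q‖ ≤ ε * ‖x‖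
    rw [show MKS.pinch P' x = ‖x‖ • MKS.pinch P' x₁ by rw [← MKS.pinch_smul, ← hxx]]
    conv_lhs => rw [← smul_sub, mul_smul_comm, smul_mul_assoc, norm_smul,
      norm_norm, mul_sub, sub_mul, hP'q q x₁ hqe (hqc.mul_left he), ← sub_mul, ← mul_sub]
    rw [mul_comm ε]
    exact mul_le_mul_of_nonneg_left hqW (norm_nonneg _)

/-- So-paving over every MASA from the stage. -/
theorem masa_paving_of (hst : StageStatement) : MasaSoPavingStatement := by
  obtain ⟨C, hC⟩ := hst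
  refine ⟨C + 3, fun H _ _ _ M A hA x hxM hx ε r hε hε1 hr => ?_⟩
  obtain ⟨-, ⟨p₀, hp₀, hp₀P, -, hsep, hglue⟩, -⟩ := Singular.main H M A hA.1 hA.2.1 hA.2.2
  set r₀ := ⌊1 / ε⌋₊ + 1 with hr₀def
  have hεr₀ : 1 < ε * r₀ := by
    have := Nat.lt_floor_add_one (1 / ε)
    rw [div_lt_iff₀ hε] at this
    rw [hr₀def]; push_cast
    linarith
  have hr₀le : ε ^ 2 * r₀ ≤ 2 := by
    have := Nat.floor_le (one_div_pos.2 hε).le
    rw [le_div_iff₀ hε] at this
    rw [hr₀def]; push_cast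
    nlinarith
  push_cast at hr
  have hr₀r : r₀ < r := by
    by_contra h
    have h' : (r : ℝ) ≤ r₀ := by exact_mod_cast not_lt.1 h
    nlinarith [(Nat.cast_nonneg C : (0 : ℝ) ≤ C)]
  have hs : (C : ℝ) ≤ ε ^ 2 * ((r - r₀ : ℕ) : ℝ) := by
    rw [Nat.cast_sub hr₀r.le]; linarith
  have hq : (1 - p₀) ∈ A := sub_mem (one_mem _) hp₀
  have hsa : IsSelfAdjoint ((1 - p₀) * x * (1 - p₀)) := by
    have := hx.conjugate (1 - p₀)
    rwa [hp₀P.one_sub.isSelfAdjoint.star_eq] at this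
  have hpart : SoPavable M A (1 - p₀) ((1 - p₀) * x * (1 - p₀)) ε (r - r₀) :=
    soPavable_of_stage hA hq hp₀P.one_sub (fill_ok H M A hA p₀ hp₀ hp₀P hsep)
      (mul_mem (mul_mem (hA.1 _ hq) hxM) (hA.1 _ hq)) hsa (Nat.sub_pos_of_lt hr₀r)
      fun e φ heA he hφ z hz hzs hzn =>
        hC H M A e φ hA heA he hφ z hz hzs hzn ε (r - r₀) hε hε1 hs
  have := hglue x hxM hx ε r₀ (r - r₀) hεr₀ hpart
  rwa [Nat.add_sub_cancel' hr₀r.le] at this

/-- So-paving over every MASA from the two statements on states. -/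
theorem masa_paving (hS : SplitStatement) (hN : GeneralNoiseStatement) : MasaSoPavingStatement :=
  masa_paving_of (stage_of twisted_paving_ok hS hN)

end Vale.Agent.P078.State
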