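import Vale.Agent.P078.State.Basic
import Vale.Agent.P078.MKS.Kaplansky
import Vale.Agent.P078.MKS.Assembly.Approx

/-!
Operators of the algebra of the normaliser are 2-norm limits, with bounded norms, of elements of
the span of the normaliser.
-/

namespace Vale.Agent.P078.State

open MKS Singular

variable {H : Type} [NormedAddCommGroup H] [InnerProductSpace ℂ H] [CompleteSpace H]
variable {M A : VonNeumannAlgebra H} {e : H →L[ℂ] H} {φ : (H →L[ℂ] H) →ₗ[ℂ] ℂ}

/-- The self-adjoint case. -/
theorem span_near_sa (hS : SoStatement) (hA : IsMASA M A) (heA : e ∈ A) (he : IsStarProjection e)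
    (S : IsState M A e φ) {y : H →L[ℂ] H} (hy : Cor M e y) (hys : IsSelfAdjoint y)
    (hbic : y ∈ Set.centralizer (Set.centralizer (normStar hA : Set (H →L[ℂ] H))))
    {η : ℝ} (hη : 0 < η) :
    ∃ u ∈ normSpan M A e, IsSelfAdjoint u ∧ ‖u‖ ≤ ‖y‖ ∧ n2 φ (y - u) ≤ η := by
  classical
  rcases eq_or_ne y 0 with rfl | hy0
  · exact ⟨0, zero_mem _, IsSelfAdjoint.zero _, by simp, by simp [n2_zero, hη.le]⟩
  set C := ‖y‖
  have hC : 0 < C := norm_pos_iff.2 hy0
  obtain ⟨F, δ, hδ, hF⟩ := (hS H M A e φ hA heA he S 2).2 (η / C) (div_pos hη hC)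
  have hz1 : ‖C⁻¹ • y‖ ≤ 1 := by
    rw [norm_smul, Real.norm_of_nonneg (inv_nonneg.2 hC.le), inv_mul_cancel₀ hC.ne']
  obtain ⟨a, ha, has, han, haF⟩ := kaplansky_ok H (normStar hA) (C⁻¹ • y)
    ((IsSelfAdjoint.all _).smul hys) hz1
    (fun T hT => by rw [mul_smul_comm, smul_mul_assoc, hbic T hT]) (F.image fun ξ => e ξ) δ hδ
  set b := e * a * e with hb
  have hbs : IsSelfAdjoint b := by
    have := has.conjugate e
    rwa [he.isSelfAdjoint.star_eq] at this
  have hbn : ‖b‖ ≤ 1 := (norm_mul_le _ _).trans ((mul_le_of_le_one_right (norm_nonneg _)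
    he.norm_le).trans ((norm_mul_le _ _).trans
      ((mul_le_of_le_one_left (norm_nonneg _) he.norm_le).trans han)))
  have hbmem : b ∈ normSpan M A e := compress_mem hA heA he ha
  have hbc := normSpan_cor hA hbmem
  refine ⟨C • b, Submodule.smul_of_tower_mem _ C hbmem, (IsSelfAdjoint.all C).smul hbs, ?_, ?_⟩
  · rw [norm_smul, Real.norm_of_nonneg hC.le]
    exact mul_le_of_le_one_right hC.le hbn
  · have e1 : y - C • b = C • (C⁻¹ • y - b) := by
      rw [smul_sub, smul_smul, mul_inv_cancel₀ hC.ne', one_smul]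
    rw [e1, n2_rsmul hC.le]
    refine le_trans (mul_le_mul_of_nonneg_left (hF _ ((hy.rsmul _).sub hbc)
      ((norm_sub_le _ _).trans (by linarith)) fun ξ hξ => ?_) hC.le) (le_of_eq (by field_simp))
    have e2 : C⁻¹ • y - b = e * (C⁻¹ • y - a) * e := by
      rw [mul_sub, sub_mul, mul_smul_comm, smul_mul_assoc, hy.2]
    rw [e2, mul_apply_eq_comp, mul_apply_eq_comp]
    exact lt_of_le_of_lt (Singular.norm_proj_apply_le he _)
      (haF (e ξ) (Finset.mem_image_of_mem _ hξ))

/-- Elements of the algebra of the normaliser in the corner. -/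
theorem span_near (hS : SoStatement) (hA : IsMASA M A) (heA : e ∈ A) (he : IsStarProjection e)
    (S : IsState M A e φ) {y : H →L[ℂ] H} (hy : Cor M e y)
    (hbic : y ∈ Set.centralizer (Set.centralizer (normStar hA : Set (H →L[ℂ] H))))
    {η : ℝ} (hη : 0 < η) :
    ∃ u ∈ normSpan M A e, ‖u‖ ≤ 2 * ‖y‖ ∧ n2 φ (y - u) ≤ η := by
  set N : Set (H →L[ℂ] H) := Set.centralizer (Set.centralizer (normStar hA : Set (H →L[ℂ] H)))
  have hstar : ∀ w ∈ N, star w ∈ N := fun w hw T hT => by
    have hT' : star T ∈ Set.centralizer (normStar hA : Set (H →L[ℂ] H)) := fun u hu => by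
      have h := hT (star u) (star_mem (s := normStar hA) hu)
      simpa using (congrArg star h).symm
    simpa using (congrArg star (hw (star T) hT')).symm
  set a := (2⁻¹ : ℂ) • (y + star y) with hadef
  set b := (-Complex.I * 2⁻¹) • (y - star y) with hbdef
  have hys := hy.star' he
  have has : IsSelfAdjoint a := by
    show star a = a
    simp [hadef, star_smul, add_comm]
  have hbs : IsSelfAdjoint b := by
    show star b = b
    simp only [hbdef, star_smul, star_sub, star_star, star_mul', star_neg, Complex.star_def,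
      Complex.conj_I, neg_neg]
    rw [← neg_sub y (star y), smul_neg, ← neg_smul]
    simp [map_ofNat]
  have haN : a ∈ N := fun T hT => by
    rw [hadef, mul_smul_comm, smul_mul_assoc, mul_add, add_mul, hbic T hT, hstar y hbic T hT]
  have hbN : b ∈ N := fun T hT => by
    rw [hbdef, mul_smul_comm, smul_mul_assoc, mul_sub, sub_mul, hbic T hT, hstar y hbic T hT]
  have hn : ∀ c : ℂ, ‖c‖ = 2⁻¹ → ∀ w : H →L[ℂ] H, ‖w‖ ≤ 2 * ‖y‖ → ‖c • w‖ ≤ ‖y‖ := by
    intro c hc w hw
    rw [norm_smul, hc]; linarith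
  obtain ⟨u₁, hu₁, -, hn₁, h1⟩ :=
    span_near_sa hS hA heA he S ((hy.add hys).csmul _) has haN (half_pos hη)
  obtain ⟨u₂, hu₂, -, hn₂, h2⟩ :=
    span_near_sa hS hA heA he S ((hy.sub hys).csmul _) hbs hbN (half_pos hη)
  refine ⟨u₁ + Complex.I • u₂, add_mem hu₁ (Submodule.smul_mem _ _ hu₂), ?_, ?_⟩
  · have ka := hn₁.trans (hn _ (by simp) (y + star y)
      ((norm_add_le _ _).trans (by rw [norm_star]; linarith)))
    have kb := hn₂.trans (hn _ (by simp) (y - star y)
      ((norm_sub_le _ _).trans (by rw [norm_star]; linarith)))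
    refine (norm_add_le _ _).trans ?_
    rw [norm_smul, Complex.norm_I, one_mul]
    linarith
  · have hab : y = a + Complex.I • b := by
      rw [hadef, hbdef, smul_smul]
      have : Complex.I * (-Complex.I * 2⁻¹) = 2⁻¹ := by
        rw [← mul_assoc, mul_neg, Complex.I_mul_I, neg_neg, one_mul]
      rw [this, ← smul_add, add_add_sub_cancel, ← two_smul ℂ y, smul_smul]
      simp
    have e1 : y - (u₁ + Complex.I • u₂) = (a - u₁) + Complex.I • (b - u₂) := by
      rw [hab, smul_sub]; abel
    rw [e1]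
    refine (n2_add_le S he (((hy.add hys).csmul _).sub (normSpan_cor hA hu₁))
      ((((hy.sub hys).csmul _).sub (normSpan_cor hA hu₂)).csmul _)).trans ?_
    rw [n2_csmul, Complex.norm_I, one_mul]
    linarith

end Vale.Agent.P078.State
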