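import Vale.Agent.P078.State.Defs
import Vale.Agent.P078.Orth.Basic
import Vale.Agent.P078.Orth.AtomTools
import Vale.Agent.P078.MKS.Trace

/-!
The atom lemma for a state with the MASA in its centraliser: the inner product of the state and
expectations onto the MASA.
-/

namespace Vale.Agent.P078.State.Atom

open Filter Topology MKS Singular Orth
open Vale.Agent.P078.Orth.Atom (Spot Sub IsExp cor_bmul cor_alg isExp_self sub_cor sub_mul' sub_compl
  exists_thr exists_sup le_of_spot eq_of_spot ev_sub_proj)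

variable {H : Type} [NormedAddCommGroup H] [InnerProductSpace ℂ H] [CompleteSpace H]
variable {M A : VonNeumannAlgebra H} {e : H →L[ℂ] H} {φ : (H →L[ℂ] H) →ₗ[ℂ] ℂ}

theorem tr_rsmul' (c : ℝ) (y : H →L[ℂ] H) : (φ (c • y)).re = c * (φ y).re := MKS.tr_rsmul c y

section Norm

variable (he : IsStarProjection e) (hφ : IsState M A e φ)
include he hφ

theorem n2_sq {y : H →L[ℂ] H} (hy : Cor M e y) : n2 φ y ^ 2 = (φ (star y * y)).re :=
  Real.sq_sqrt (hφ.1 y hy.1 hy.2).1

omit he in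
theorem re_comm {a b : H →L[ℂ] H} (ha : Cor M e a) (hb : Cor M e b) :
    (φ (star b * a)).re = (φ (star a * b)).re := by
  have h := (hφ.1 (a + Complex.I • b) (ha.add (hb.csmul _)).1 (ha.add (hb.csmul _)).2).2
  have h1 := (hφ.1 a ha.1 ha.2).2
  have h2 := (hφ.1 b hb.1 hb.2).2
  simp only [star_add, star_smul, add_mul, mul_add, smul_mul_assoc, mul_smul_comm, map_add,
    map_smul, smul_eq_mul, Complex.star_def, Complex.conj_I, Complex.add_im, Complex.mul_im,
    Complex.mul_re, Complex.neg_re, Complex.neg_im, Complex.I_re, Complex.I_im] at h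
  linarith

theorem re_inner_le {a b : H →L[ℂ] H} (ha : Cor M e a) (hb : Cor M e b) :
    (φ (star a * b)).re ≤ n2 φ a * n2 φ b := by
  set X := (φ (star a * a)).re
  set Y := (φ (star a * b)).re
  set Z := (φ (star b * b)).re
  have hq : ∀ t : ℝ, 0 ≤ Z * (t * t) + 2 * Y * t + X := by
    intro t
    have h := (hφ.1 (a + t • b) (ha.add (hb.rsmul t)).1 (ha.add (hb.rsmul t)).2).1
    simp only [star_add, star_smul, star_trivial, add_mul, mul_add, smul_mul_assoc, mul_smul_comm,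
      map_add, Complex.add_re, MKS.tr_rsmul, re_comm hφ ha hb] at h
    show 0 ≤ Z * (t * t) + 2 * Y * t + X
    nlinarith
  have hd := discrim_le_zero hq
  rw [discrim] at hd
  refine (le_abs_self Y).trans ((sq_le_sq₀ (abs_nonneg Y)
    (mul_nonneg (n2_nonneg a) (n2_nonneg b))).1 ?_)
  rw [sq_abs, mul_pow, n2_sq he hφ ha, n2_sq he hφ hb]
  nlinarith

theorem n2_add_le {a b : H →L[ℂ] H} (ha : Cor M e a) (hb : Cor M e b) :
    n2 φ (a + b) ≤ n2 φ a + n2 φ b := by
  refine (sq_le_sq₀ (n2_nonneg _) (add_nonneg (n2_nonneg _) (n2_nonneg _))).1 ?_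
  rw [n2_sq he hφ (ha.add hb), add_sq, n2_sq he hφ ha, n2_sq he hφ hb]
  simp only [star_add, add_mul, mul_add, map_add, Complex.add_re, re_comm hφ ha hb]
  have := re_inner_le he hφ ha hb
  nlinarith

omit he hφ in
theorem n2_neg (y : H →L[ℂ] H) : n2 φ (-y) = n2 φ y := by simp [n2]

omit he hφ in
theorem n2_sub_comm (a b : H →L[ℂ] H) : n2 φ (a - b) = n2 φ (b - a) := by
  rw [← neg_sub, n2_neg]

omit he in
theorem n2_csmul (c : ℂ) {y : H →L[ℂ] H} (hy : Cor M e y) : n2 φ (c • y) = ‖c‖ * n2 φ y := by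
  rw [n2, n2, star_smul, smul_mul_smul_comm, map_smul, smul_eq_mul, Complex.star_def,
    ← Complex.normSq_eq_conj_mul_self, Complex.re_ofReal_mul, Real.sqrt_mul (Complex.normSq_nonneg c),
    Complex.normSq_eq_norm_sq, Real.sqrt_sq (norm_nonneg c)]

theorem eq_zero_of_n2 {y : H →L[ℂ] H} (hy : Cor M e y) (h : n2 φ y ≤ 0) : y = 0 := by
  have h0 := le_antisymm h (n2_nonneg y)
  have h1 := n2_sq he hφ hy
  rw [h0] at h1
  refine hφ.2.1 y hy.1 hy.2 (Complex.ext ?_ (hφ.1 y hy.1 hy.2).2)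
  simpa using h1.symm

/-- The Cauchy-Schwarz inequality. -/
theorem tr_cs {a b : H →L[ℂ] H} (ha : Cor M e a) (hb : Cor M e b) :
    ‖φ (star a * b)‖ ≤ n2 φ a * n2 φ b := by
  set z := φ (star a * b) with hz
  rcases eq_or_ne z 0 with h | h
  · rw [h, norm_zero]; exact mul_nonneg (n2_nonneg _) (n2_nonneg _)
  set c : ℂ := starRingEnd ℂ z / (‖z‖ : ℂ) with hc
  have hc1 : ‖c‖ = 1 := by
    rw [hc, norm_div, Complex.norm_conj, Complex.norm_real, norm_norm, div_self (norm_ne_zero_iff.2 h)]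
  have hcz : c * z = (‖z‖ : ℂ) := by
    have hn : (‖z‖ : ℂ) ≠ 0 := by simpa using h
    rw [hc, div_mul_eq_mul_div, mul_comm, Complex.mul_conj, Complex.normSq_eq_norm_sq]
    field_simp
    push_cast
    ring
  have h1 := re_inner_le he hφ ha (hb.csmul c)
  rw [n2_csmul hφ c hb, hc1, one_mul, mul_smul_comm, map_smul, smul_eq_mul, ← hz, hcz,
    Complex.ofReal_re] at h1
  exact h1

theorem abs_re_cs {a b : H →L[ℂ] H} (ha : Cor M e a) (hb : Cor M e b) :
    |(φ (star a * b)).re| ≤ n2 φ a * n2 φ b :=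
  (Complex.abs_re_le_norm _).trans (tr_cs he hφ ha hb)

theorem tr_star (heM : e ∈ M) {x : H →L[ℂ] H} (hx : Cor M e x) :
    φ (star x) = starRingEnd ℂ (φ x) := by
  have hee := cor_proj heM he
  have h1 := re_comm hφ hx hee
  rw [he.isSelfAdjoint.star_eq, hx.mul_left he, (hx.star' he).mul_right he] at h1
  have h2 := re_comm hφ (hx.csmul Complex.I) hee
  rw [he.isSelfAdjoint.star_eq, (hx.csmul _).mul_left he,
    ((hx.csmul _).star' he).mul_right he, star_smul, map_smul, map_smul] at h2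
  simp only [smul_eq_mul, Complex.star_def, Complex.conj_I, Complex.mul_re, Complex.neg_re,
    Complex.neg_im, Complex.I_re, Complex.I_im] at h2
  refine Complex.ext ?_ ?_
  · rw [Complex.conj_re]; exact h1.symm
  · rw [Complex.conj_im]; linarith

theorem tr_nonneg {z : H →L[ℂ] H} (hz : Cor M e z) (h0 : 0 ≤ z) : 0 ≤ (φ z).re := by
  obtain ⟨w, hws, hww, hcomm⟩ := TraceFacts.exists_sqrt h0
  have hwM : w ∈ M := mem_of_forall_commute M fun y hy =>
    ((hcomm y (commutant_commute hy hz.1)).eq).symm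
  have h1 : w * (1 - e) = 0 := by
    rw [← CStarRing.star_mul_self_eq_zero_iff, star_mul, hws, he.one_sub.isSelfAdjoint.star_eq,
      mul_assoc, ← mul_assoc w, hww, sub_mul, one_mul, ← mul_assoc, hz.mul_left he, sub_self]
  have h2 : w * e = w := by rw [mul_sub, mul_one, sub_eq_zero] at h1; exact h1.symm
  have h3 : e * w = w := by
    simpa [star_mul, hws, he.isSelfAdjoint.star_eq] using congrArg star h2
  have hw : Cor M e w := Cor.of_abs he hwM h3 h2
  have := (hφ.1 w hw.1 hw.2).1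
  rwa [hws, hww] at this

theorem tr_mono {x y : H →L[ℂ] H} (hx : Cor M e x) (hy : Cor M e y) (h : x ≤ y) :
    (φ x).re ≤ (φ y).re := by
  have := tr_nonneg he hφ (hy.sub hx) (sub_nonneg.2 h)
  rw [map_sub, Complex.sub_re] at this
  linarith

theorem n2_le_of_sq_le {a b : H →L[ℂ] H} (ha : Cor M e a) (hb : Cor M e b) {c : ℝ} (hc : 0 ≤ c)
    (h : star a * a ≤ c ^ 2 • (star b * b)) : n2 φ a ≤ c * n2 φ b := by
  refine (sq_le_sq₀ (n2_nonneg _) (mul_nonneg hc (n2_nonneg _))).1 ?_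
  rw [mul_pow, n2_sq he hφ ha, n2_sq he hφ hb, ← MKS.tr_rsmul]
  exact tr_mono he hφ ((ha.star' he).mul he ha) (((hb.star' he).mul he hb).rsmul _) h

theorem n2_mul_le {g y : H →L[ℂ] H} (hgy : Cor M e (g * y)) (hy : Cor M e y) :
    n2 φ (g * y) ≤ ‖g‖ * n2 φ y := by
  refine n2_le_of_sq_le he hφ hgy hy (norm_nonneg g) ?_
  have h1 : star g * g ≤ ‖g‖ ^ 2 • (1 : H →L[ℂ] H) := by
    refine (bounds_of_norm_le (IsSelfAdjoint.star_mul_self g) ?_).2
    rw [CStarRing.norm_star_mul_self, sq]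
  have h2 := conj_le h1 y
  rw [mul_smul_comm, smul_mul_assoc, mul_one] at h2
  refine le_trans (le_of_eq ?_) h2
  simp only [star_mul, mul_assoc]

theorem n2_limit_unique {T : ℕ → (H →L[ℂ] H)} {L L' : H →L[ℂ] H} (hT : ∀ n, Cor M e (T n))
    (hL : Cor M e L) (hL' : Cor M e L') (h : Tendsto (fun n => n2 φ (T n - L)) atTop (𝓝 0))
    (h' : Tendsto (fun n => n2 φ (T n - L')) atTop (𝓝 0)) : L = L' := by
  refine sub_eq_zero.1 (eq_zero_of_n2 he hφ (hL.sub hL') ?_)
  have hs := h.add h'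
  rw [add_zero] at hs
  refine ge_of_tendsto hs (Eventually.of_forall fun n => ?_)
  have h1 := n2_add_le he hφ (hL.sub (hT n)) ((hT n).sub hL')
  rw [sub_add_sub_cancel, n2_sub_comm L (T n)] at h1
  exact h1

theorem tr_tendsto_left {T : ℕ → (H →L[ℂ] H)} {L b : H →L[ℂ] H} (hT : ∀ n, Cor M e (T n))
    (hL : Cor M e L) (hb : Cor M e b) (h : Tendsto (fun n => n2 φ (T n - L)) atTop (𝓝 0)) :
    Tendsto (fun n => φ (star (T n) * b)) atTop (𝓝 (φ (star L * b))) := by
  rw [tendsto_iff_norm_sub_tendsto_zero]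
  refine squeeze_zero (fun n => norm_nonneg _) (fun n => ?_)
    (by simpa using h.mul_const (n2 φ b))
  rw [← map_sub, ← sub_mul, ← star_sub]
  exact tr_cs he hφ ((hT n).sub hL) hb

end Norm

section Masa

variable (hA : IsMASA M A) (he : IsPr A e) (hφ : IsState M A e φ)
include hA he hφ

omit hA he in
theorem tr_bcomm {b y : H →L[ℂ] H} (hb : b ∈ A) (hy : Cor M e y) : φ (b * y) = φ (y * b) :=
  hφ.2.2.1 b hb y hy.1 hy.2

theorem n2_bright {b y : H →L[ℂ] H} (hb : b ∈ A) (hy : Cor M e y) :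
    n2 φ (y * b) ≤ ‖b‖ * n2 φ y := by
  have hyb := (cor_bmul hA he hb hy).2
  refine (sq_le_sq₀ (n2_nonneg _) (mul_nonneg (norm_nonneg _) (n2_nonneg _))).1 ?_
  rw [mul_pow, n2_sq he.2 hφ hyb, n2_sq he.2 hφ hy]
  set Z := star y * y
  have hZ : Cor M e Z := (hy.star' he.2).mul he.2 hy
  set D : H →L[ℂ] H := ‖b‖ ^ 2 • (1 : H →L[ℂ] H) - b * star b
  have hD0 : 0 ≤ D := sub_nonneg.2 (bounds_of_norm_le (IsSelfAdjoint.mul_star_self b) (by
    rw [CStarRing.norm_self_mul_star, sq])).2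
  have hDA : D ∈ A := sub_mem (vn_smul A _ (one_mem A)) (mul_mem hb (star_mem hb))
  obtain ⟨w, hws, hww, hcomm⟩ := TraceFacts.exists_sqrt hD0
  have hwA : w ∈ A := mem_of_forall_commute A fun z hz =>
    ((hcomm z (commutant_commute hz hDA)).eq).symm
  have hwZ := (cor_bmul hA he hwA hZ).1
  have hc : Cor M e (w * Z * w) := (cor_bmul hA he hwA hwZ).2
  have h0 : 0 ≤ w * Z * w := by
    have := star_left_conjugate_nonneg (star_mul_self_nonneg y) w
    rwa [hws] at this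
  have h1 := tr_nonneg he.2 hφ hc h0
  rw [← tr_bcomm hφ hwA hwZ, ← mul_assoc, hww, sub_mul, map_sub, Complex.sub_re, smul_mul_assoc,
    one_mul, MKS.tr_rsmul] at h1
  have e1 : φ (star (y * b) * (y * b)) = φ (b * star b * Z) := by
    rw [show star (y * b) * (y * b) = star b * (Z * b) by simp only [Z, star_mul, mul_assoc],
      tr_bcomm hφ (star_mem hb) (cor_bmul hA he hb hZ).2, mul_assoc, tr_bcomm hφ
        (mul_mem hb (star_mem hb)) hZ]
  rw [e1]
  linarith

theorem IsExp.unique {x a a' : H →L[ℂ] H} (h : IsExp M A e φ x a) (h' : IsExp M A e φ x a') :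
    a = a' := by
  have hc := h.2.1.sub h'.2.1
  refine sub_eq_zero.1 (hφ.2.1 _ hc.1 hc.2 ?_)
  rw [mul_sub, map_sub, h.2.2 _ (star_mem (sub_mem h.1 h'.1)),
    h'.2.2 _ (star_mem (sub_mem h.1 h'.1)), sub_self]

theorem IsExp.star {x a : H →L[ℂ] H} (hx : Cor M e x) (h : IsExp M A e φ x a) :
    IsExp M A e φ (star x) (star a) := by
  refine ⟨star_mem h.1, h.2.1.star' he.2, fun b hb => ?_⟩
  have key : ∀ y : H →L[ℂ] H, Cor M e y →
      φ (b * Star.star y) = starRingEnd ℂ (φ (Star.star b * y)) := fun y hy => by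
    rw [← tr_star he.2 hφ (hA.1 e he.1) (cor_bmul hA he (star_mem hb) hy).1, star_mul, star_star,
      tr_bcomm hφ hb (hy.star' he.2)]
  rw [key a h.2.1, key x hx, h.2.2 _ (star_mem hb)]

theorem IsExp.nonneg {x a : H →L[ℂ] H} (hx : Cor M e x) (hx0 : 0 ≤ x)
    (h : IsExp M A e φ x a) : 0 ≤ a := by
  have hxs := IsSelfAdjoint.of_nonneg hx0
  have has : IsSelfAdjoint a := by
    have h' := IsExp.star hA he hφ hx h
    rw [hxs.star_eq] at h'
    exact IsExp.unique hA he hφ h' h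
  refine (StarOrderedRing.nonneg_iff_spectrum_nonneg (R := ℝ) a has).2 ?_
  have key : ∀ t : ℝ, 0 < t → -a ≤ t • (1 : H →L[ℂ] H) := by
    intro t ht
    obtain ⟨hpC, hp, hpl, -⟩ := cut_above he.2 h.2.1.neg has.neg ht
    set p := spProj (-a) t
    have hpA : p ∈ A := (isPr_spProj (neg_mem h.1) t).1
    have e1 : p * (-a) * p = -(p * a) := by
      rw [mul_neg, neg_mul, mul_assoc, hA.2.1 a h.1 p hpA, ← mul_assoc, hp.isIdempotentElem.eq]
    rw [e1] at hpl
    have h1 := tr_mono he.2 hφ (hpC.rsmul t) (hpC.mul he.2 h.2.1).neg hpl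
    rw [MKS.tr_rsmul, map_neg, Complex.neg_re, h.2.2 p hpA] at h1
    have h2 : 0 ≤ (φ (p * x)).re := by
      have hpx := (cor_bmul hA he hpA hx).1
      have h2' := tr_nonneg he.2 hφ (cor_bmul hA he hpA hpx).2
        (Singular.conj_proj_nonneg hp hx0)
      rwa [← tr_bcomm hφ hpA hpx, ← mul_assoc, hp.isIdempotentElem.eq] at h2'
    have h3 := tr_nonneg he.2 hφ hpC hp.nonneg
    have h4 : (φ p).re = 0 := by nlinarith
    have hp0 : p = 0 := by
      refine eq_zero_of_n2 he.2 hφ hpC ?_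
      rw [n2, hp.isSelfAdjoint.star_eq, hp.isIdempotentElem.eq, h4, Real.sqrt_zero]
    have h5 := (cut_above he.2 h.2.1.neg has.neg ht).2.2.2 e he.2 (by
      show e * p = 0
      rw [hp0, mul_zero])
    rw [mul_neg, neg_mul, h.2.1.2] at h5
    exact h5.trans (smul_le_smul_of_nonneg_left (proj_le_one he.2) ht.le)
  intro s hs
  by_contra hlt
  push Not at hlt
  have h1 := key (-s / 2) (by linarith)
  rw [neg_le, ← neg_smul, ← Algebra.algebraMap_eq_smul_one] at h1
  have := (algebraMap_le_iff_le_spectrum has).1 h1 s hs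
  linarith

theorem IsExp.mono {x a x' a' : H →L[ℂ] H} (hx : Cor M e x) (hx' : Cor M e x')
    (h : IsExp M A e φ x a) (h' : IsExp M A e φ x' a') (hle : x ≤ x') : a ≤ a' := by
  refine sub_nonneg.1 (IsExp.nonneg hA he hφ (hx'.sub hx) (sub_nonneg.2 hle) ?_)
  exact ⟨sub_mem h'.1 h.1, h'.2.1.sub h.2.1, fun b hb => by
    rw [mul_sub, mul_sub, map_sub, map_sub, h.2.2 b hb, h'.2.2 b hb]⟩

theorem cor_pinch {n : ℕ} {q : Fin n → (H →L[ℂ] H)} (hq : IsPartition A e q) {y : H →L[ℂ] H}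
    (hy : y ∈ M) : Cor M e (MKS.pinch q y) := by
  refine Cor.sum _ fun i _ => ⟨mul_mem (mul_mem (hA.1 _ (hq.1 i).1) hy) (hA.1 _ (hq.1 i).1), ?_⟩
  rw [← mul_assoc, ← mul_assoc, (hq.mul_e i).1, mul_assoc, (hq.mul_e i).2]

theorem tr_pinch {n : ℕ} {q : Fin n → (H →L[ℂ] H)} (hq : IsPartition A e q) {b x : H →L[ℂ] H}
    (hb : b ∈ A) (hx : Cor M e x) : φ (b * MKS.pinch q x) = φ (b * x) := by
  calc φ (b * MKS.pinch q x) = ∑ i, φ (q i * b * x) := by
        rw [MKS.pinch, Finset.mul_sum, map_sum]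
        refine Finset.sum_congr rfl fun i _ => ?_
        have hc := (cor_bmul hA he (mul_mem hb (hq.1 i).1) hx).1
        rw [← mul_assoc, ← mul_assoc, ← tr_bcomm hφ (hq.1 i).1 hc, ← mul_assoc, ← mul_assoc,
          mul_assoc (q i) b, hA.2.1 b hb _ (hq.1 i).1, ← mul_assoc, (hq.1 i).2.isIdempotentElem.eq]
    _ = φ (b * x) := by
        rw [← map_sum, ← Finset.sum_mul, ← Finset.sum_mul, hq.2.2, hA.2.1 e he.1 b hb, mul_assoc,
          hx.mul_left he.2]

theorem exists_exp (hD : DiagLimitStatement) {x : H →L[ℂ] H} (hx : Cor M e x) :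
    ∃ a, IsExp M A e φ x a ∧
      Tendsto (fun c : Cut A e => n2 φ (MKS.pinch c.q x - a)) (fine A e) (𝓝 0) := by
  obtain ⟨a, ha, hac, -, -, hb, hlim⟩ := hD H M A e φ hA he.1 he.2 hφ x hx
  exact ⟨a, ⟨ha, hac, hb⟩, hlim⟩

/-- Compressing by a projection of `A` costs one factor. -/
theorem tr_conj {q X : H →L[ℂ] H} (hq : Sub A e q) (hX : Cor M e X) :
    φ (q * X * q) = φ (q * X) := by
  have hqX := (cor_bmul hA he hq.1.1 hX).1
  rw [← tr_bcomm hφ hq.1.1 hqX, ← mul_assoc, hq.1.2.isIdempotentElem.eq]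

theorem n2_proj {P : H →L[ℂ] H} (hP : Sub A e P) : n2 φ P ^ 2 = (φ P).re := by
  rw [n2_sq he.2 hφ (sub_cor hA he hP), hP.1.2.isSelfAdjoint.star_eq,
    hP.1.2.isIdempotentElem.eq]

theorem n2_sub_mul {P Q : H →L[ℂ] H} (hP : Sub A e P) (hQ : IsPr A Q) :
    n2 φ (P - P * Q) ^ 2 = (φ P).re - (φ (P * Q)).re := by
  have hPc := sub_cor hA he hP
  have hd := hPc.sub (cor_bmul hA he hQ.1 hPc).2
  rw [n2_sq he.2 hφ hd]
  have hc : Q * P = P * Q := hA.2.1 Q hQ.1 P hP.1.1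
  have key : Star.star (P - P * Q) * (P - P * Q) = P - P * Q := by
    rw [star_sub, star_mul, hP.1.2.isSelfAdjoint.star_eq, hQ.2.isSelfAdjoint.star_eq, hc]
    simp only [sub_mul, mul_sub, ← mul_assoc, hP.1.2.isIdempotentElem.eq]
    rw [mul_assoc P Q P, hc, ← mul_assoc, hP.1.2.isIdempotentElem.eq, mul_assoc P Q Q,
      hQ.2.isIdempotentElem.eq]
    abel
  rw [key, map_sub, Complex.sub_re]

theorem lim_mem {T : ℕ → (H →L[ℂ] H)} {L : H →L[ℂ] H} (hT : ∀ n, T n ∈ A ∧ Cor M e (T n))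
    (hL : Cor M e L) (h : Tendsto (fun n => n2 φ (T n - L)) atTop (𝓝 0)) : L ∈ A := by
  refine hA.2.2 L hL.1 fun b hb => sub_eq_zero.1 (eq_zero_of_n2 he.2 hφ
    ((cor_bmul hA he hb hL).1.sub (cor_bmul hA he hb hL).2) ?_)
  refine ge_of_tendsto (by simpa using h.const_mul (2 * ‖b‖)) (Eventually.of_forall fun n => ?_)
  have hd := hL.sub (hT n).2
  have e1 : b * L - L * b = b * (L - T n) + -((L - T n) * b) := by
    rw [mul_sub, sub_mul, hA.2.1 b hb _ (hT n).1]; abel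
  rw [e1]
  refine (n2_add_le he.2 hφ (cor_bmul hA he hb hd).1 (cor_bmul hA he hb hd).2.neg).trans ?_
  rw [n2_neg]
  have h1 := n2_mul_le he.2 hφ (cor_bmul hA he hb hd).1 hd
  have h2 := n2_bright hA he hφ hb hd
  rw [n2_sub_comm L (T n)] at h1 h2
  linarith

end Masa

end Vale.Agent.P078.State.Atom
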