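import Vale.Agent.P078.State.So

/-!
Bounded sets of a corner with a state are complete in the 2-norm.
-/

namespace Vale.Agent.P078.State

open MKS MKS.TraceFacts Filter Topology in
/-- Bounded n2-Cauchy sequences converge. -/
theorem complete_ok : CompleteStatement := by
  intro H _ _ _ M A e φ hA heA he S T C hT hcau
  have hC : 0 ≤ C := (norm_nonneg _).trans (hT 0).2
  have hcv : ∀ v, CauchySeq fun n => T n v := by
    intro v
    rw [Metric.cauchySeq_iff]
    intro δ hδ
    obtain ⟨η, hη, hsm⟩ := (so_ok H M A e φ hA heA he S (2 * C)).1 {v} δ hδ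
    obtain ⟨N, hN⟩ := hcau η hη
    refine ⟨N, fun i hi j hj => ?_⟩
    rw [dist_eq_norm]
    exact hsm _ ((hT i).1.sub (hT j).1)
      ((norm_sub_le _ _).trans (by linarith [(hT i).2, (hT j).2])) (hN i hi j hj) v
      (Finset.mem_singleton_self v)
  choose f hf using fun v => cauchySeq_tendsto_of_complete (hcv v)
  set L := continuousLinearMapOfTendsto T (tendsto_pi_nhds.2 hf)
  have hL : Cor M e L := cor_limit (fun n => (hT n).1) hf
  have hLn : ‖L‖ ≤ C := ContinuousLinearMap.opNorm_le_bound _ hC fun v =>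
    le_of_tendsto (hf v).norm (Eventually.of_forall fun n => (T n).le_of_opNorm_le (hT n).2 v)
  refine ⟨L, hL, hLn, Metric.tendsto_nhds.2 fun ε hε => ?_, hf⟩
  obtain ⟨F, δ, hδ, hsm⟩ := (so_ok H M A e φ hA heA he S (2 * C)).2 (ε / 2) (half_pos hε)
  have hev : ∀ᶠ n in atTop, ∀ ξ ∈ F, ‖T n ξ - L ξ‖ < δ :=
    (Finset.eventually_all F).2 fun ξ _ => by
      rw [show L ξ = f ξ from rfl]
      simpa [dist_eq_norm] using Metric.tendsto_nhds.1 (hf ξ) δ hδ
  filter_upwards [hev] with n hn
  rw [dist_eq_norm, sub_zero, Real.norm_of_nonneg (n2_nonneg _)]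
  exact lt_of_le_of_lt (hsm _ ((hT n).1.sub hL)
    ((norm_sub_le _ _).trans (by linarith [(hT n).2])) hn) (half_lt_self hε)

end Vale.Agent.P078.State
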