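import Vale.Agent.P078.State.Basic
import Vale.Agent.P078.MKS.Trace

/-!
On bounded sets the 2-norm of a state and the strong topology control each other (`so_ok`), so
right multiplications are continuous (`right_ok`).
-/

namespace Vale.Agent.P078.State

namespace So

open Filter Topology MKS MKS.TraceFacts Singular
open scoped InnerProductSpace

variable {H : Type} [NormedAddCommGroup H] [InnerProductSpace ℂ H] [CompleteSpace H]
variable {M A : VonNeumannAlgebra H} {e : H →L[ℂ] H} {φ : (H →L[ℂ] H) →ₗ[ℂ] ℂ}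

theorem half_le_damp {x : H →L[ℂ] H} (hx : 0 ≤ x) (hn : ‖x‖ ≤ 1) :
    (2⁻¹ : ℝ) • x ≤ cfc damp x := by
  have hsa : IsSelfAdjoint x := .of_nonneg hx
  have hcont : ContinuousOn damp (spectrum ℝ x) := continuousOn_const.sub
    (ContinuousOn.inv₀ (by fun_prop) fun t ht => by
      linarith [spectrum_nonneg_of_nonneg hx ht])
  conv_lhs => rw [← cfc_id' ℝ x, ← cfc_smul (2⁻¹ : ℝ) (fun t : ℝ => t) x]
  refine cfc_mono (fun t ht => ?_) (by fun_prop) hcont
  have h0 := spectrum_nonneg_of_nonneg hx ht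
  have h1 : t ≤ 1 := by
    have := ((Real.norm_eq_abs t).symm.le.trans (spectrum.norm_le_norm_mul_of_mem ht)).trans
      ((mul_le_of_le_one_right (norm_nonneg _) ContinuousLinearMap.norm_id_le).trans hn)
    exact (abs_le.1 this).2
  rw [smul_eq_mul, damp, le_sub_iff_add_le, ← le_sub_iff_add_le', inv_le_iff_one_le_mul₀
    (by linarith)]
  nlinarith

theorem tr_tendsto (S : IsState M A e φ) {T : ℕ → (H →L[ℂ] H)} (hT : ∀ n, Cor M e (T n))
    (hb : ∀ n, ‖T n‖ ≤ 1) {L : H →L[ℂ] H} (hLb : ‖L‖ ≤ 1)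
    (hL : ∀ v, Tendsto (fun n => T n v) atTop (𝓝 (L v))) :
    Tendsto (fun n => (φ (T n)).re) atTop (𝓝 (φ L).re) := by
  refine (Complex.continuous_re.tendsto _).comp (Metric.tendsto_nhds.2 fun ε hε => ?_)
  obtain ⟨F, δ, hδ, h⟩ := S.2.2.2 (ε / 2) (by positivity)
  have hev : ∀ᶠ n in atTop, ∀ ξ ∈ F, ‖T n ξ - L ξ‖ < δ :=
    (Finset.eventually_all F).2 fun ξ _ => by
      simpa [dist_eq_norm] using Metric.tendsto_nhds.1 (hL ξ) δ hδ
  filter_upwards [hev] with n hn
  have hc : Cor M e ((2⁻¹ : ℂ) • (T n - L)) := ((hT n).sub (cor_limit hT hL)).csmul _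
  have h1 := h _ hc.1 hc.2
    (by rw [norm_smul, norm_inv, RCLike.norm_ofNat]
        linarith [norm_sub_le (T n) L, hb n, hLb])
    (fun ξ hξ => by
      rw [smul_apply, sub_apply, norm_smul, norm_inv, RCLike.norm_ofNat]
      linarith [hn ξ hξ, norm_nonneg (T n ξ - L ξ)])
  rw [map_smul, map_sub, norm_smul, norm_inv, RCLike.norm_ofNat] at h1
  rw [dist_eq_norm]
  linarith

theorem exists_tail (S : IsState M A e φ) (he : IsStarProjection e) (b : ℕ → (H →L[ℂ] H))
    (hb : ∀ n, 0 ≤ b n ∧ ‖b n‖ ≤ 1 ∧ Cor M e (b n) ∧ (φ (b n)).re ≤ (1 / 2) ^ n) :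
    ∃ U : ℕ → (H →L[ℂ] H), Antitone U ∧ ∀ n, Cor M e (U n) ∧ 0 ≤ U n ∧ ‖U n‖ ≤ 1 ∧
      (2⁻¹ : ℝ) • b n ≤ U n ∧ (φ (U n)).re ≤ 2 * (1 / 2) ^ n := by
  set x : ℕ → ℕ → (H →L[ℂ] H) := fun n N => ∑ k ∈ Finset.Ico n N, b k with hx
  have hx0 : ∀ n N, 0 ≤ x n N := fun n N => Finset.sum_nonneg fun k _ => (hb k).1
  have hxc : ∀ n N, Cor M e (x n N) := fun n N => Cor.sum _ fun k _ => (hb k).2.2.1
  have hxm : ∀ n n' N N', n' ≤ n → N ≤ N' → x n N ≤ x n' N' := fun n n' N N' h h' =>
    Finset.sum_le_sum_of_subset_of_nonneg (Finset.Ico_subset_Ico h h') fun k _ _ => (hb k).1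
  have hm : ∀ n, Monotone fun N => cfc damp (x n N) := fun n N N' h =>
    damp_mono (hx0 _ _) (hxm n n N N' le_rfl h)
  choose U hUb hUle hUlim using fun n =>
    exists_mono_limit _ (hm n) fun N => (damp_props (M := M) (e := e) (hx0 n N)).2.1
  have hU0 : ∀ n, 0 ≤ U n := fun n => ((damp_props (M := M) (e := e) (hx0 n 0)).1).trans (hUle n 0)
  refine ⟨U, fun n' n h => ?_, fun n => ?_⟩
  · rw [← sub_nonneg, ContinuousLinearMap.nonneg_iff_isPositive,
      ContinuousLinearMap.isPositive_iff_complex]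
    intro v
    have hsa : IsSelfAdjoint (U n' - U n) := (IsSelfAdjoint.of_nonneg (hU0 n')).sub
      (IsSelfAdjoint.of_nonneg (hU0 n))
    refine ⟨(hsa.isSymmetric.coe_re_inner_apply_self v), ?_⟩
    have hlim := ((hUlim n' v).sub (hUlim n v)).inner (tendsto_const_nhds (x := v)) (𝕜 := ℂ)
    refine ge_of_tendsto ((Complex.continuous_re.tendsto _).comp hlim) (Eventually.of_forall
      fun N => ?_)
    have h1 := Singular.re_inner_nonneg (sub_nonneg.2 (damp_mono (hx0 n N) (hxm n n' N N h le_rfl))) v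
    rw [← inner_conj_symm, Complex.conj_re] at h1
    exact h1
  · have hc := cor_limit (fun N => (damp_props (hx0 n N)).2.2.2 he (hxc n N)) (hUlim n)
    refine ⟨hc, hU0 n, hUb n, ?_, ?_⟩
    · refine le_trans (le_trans (half_le_damp (hb n).1 (hb n).2.1) (le_of_eq ?_)) (hUle n (n + 1))
      simp [hx]
    · refine le_of_tendsto (tr_tendsto S
        (fun N => (damp_props (hx0 n N)).2.2.2 he (hxc n N))
        (fun N => (damp_props (M := M) (e := e) (hx0 n N)).2.1) (hUb n) (hUlim n))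
        (Eventually.of_forall fun N => ?_)
      have h1 := tr_mono S he ((damp_props (hx0 n N)).2.2.2 he (hxc n N)) (hxc n N)
        (damp_props (M := M) (e := e) (hx0 n N)).2.2.1
      refine h1.trans ?_
      simp only [hx, map_sum, Complex.re_sum]
      refine (Finset.sum_le_sum fun k _ => (hb k).2.2.2).trans ?_
      have hs : ∑ k ∈ Finset.Ico n N, (1 / 2 : ℝ) ^ k =
          (1 / 2) ^ n * ∑ k ∈ Finset.range (N - n), (1 / 2 : ℝ) ^ k := by
        rw [Finset.sum_Ico_eq_sum_range, Finset.mul_sum]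
        exact Finset.sum_congr rfl fun k _ => pow_add _ _ _
      rw [hs, mul_comm]
      exact mul_le_mul_of_nonneg_right (sum_geometric_two_le _) (by positivity)

/-- Small in the state implies small at finitely many vectors, for positive contractions. -/
theorem exists_small (S : IsState M A e φ) (he : IsStarProjection e) (F : Finset H) {δ : ℝ}
    (hδ : 0 < δ) : ∃ η : ℝ, 0 < η ∧ ∀ b, Cor M e b → 0 ≤ b → ‖b‖ ≤ 1 → (φ b).re < η →
      ∀ ξ ∈ F, (⟪ξ, b ξ⟫_ℂ).re < δ := by
  by_contra! hcon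
  choose b hbc hb0 hbn hbφ ξ hξF hξ using fun n : ℕ => hcon ((1 / 2) ^ n) (by positivity)
  obtain ⟨U, hUa, hU⟩ := exists_tail S he b fun n => ⟨hb0 n, hbn n, hbc n, (hbφ n).le⟩
  obtain ⟨L, hLb, -, hLlim⟩ := exists_mono_limit (fun n => -U n)
    (fun a b h => neg_le_neg (hUa h)) fun n => by rw [norm_neg]; exact (hU n).2.2.1
  set V := -L with hV
  have hVlim : ∀ v, Tendsto (fun n => U n v) atTop (𝓝 (V v)) := fun v => by
    simpa [hV] using (hLlim v).neg
  have hVc : Cor M e V := cor_limit (fun n => (hU n).1) hVlim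
  have hV0 : 0 ≤ V := by
    rw [ContinuousLinearMap.nonneg_iff_isPositive, ContinuousLinearMap.isPositive_iff_complex]
    intro v
    have hlim := (hVlim v).inner (tendsto_const_nhds (x := v)) (𝕜 := ℂ)
    have hpos : ∀ n, 0 ≤ (⟪U n v, v⟫_ℂ).re ∧ (⟪U n v, v⟫_ℂ).im = 0 := fun n => by
      have h := (ContinuousLinearMap.isPositive_iff_complex _).1
        ((ContinuousLinearMap.nonneg_iff_isPositive _).1 (hU n).2.1) v
      exact ⟨h.2, by rw [← h.1]; simp⟩
    refine ⟨Complex.ext (by simp) ?_, ge_of_tendsto ((Complex.continuous_re.tendsto _).comp hlim)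
      (Eventually.of_forall fun n => (hpos n).1)⟩
    have : (⟪V v, v⟫_ℂ).im = 0 := tendsto_nhds_unique
      ((Complex.continuous_im.tendsto _).comp hlim)
      (tendsto_const_nhds.congr fun n => (hpos n).2.symm)
    simpa using this.symm
  have hφV : (φ V).re ≤ 0 := by
    have h1 := tr_tendsto S (fun n => (hU n).1) (fun n => (hU n).2.2.1)
      (by rwa [hV, norm_neg]) hVlim
    have h2 : Tendsto (fun n : ℕ => 2 * (1 / 2 : ℝ) ^ n) atTop (𝓝 0) := by
      simpa using (tendsto_pow_atTop_nhds_zero_of_lt_one (by norm_num : (0:ℝ) ≤ 1 / 2)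
        (by norm_num)).const_mul 2
    exact le_of_tendsto_of_tendsto' h1 h2 fun n => (hU n).2.2.2.2
  have hV00 : V = 0 := by
    obtain ⟨s, hs, hss, hsc⟩ := exists_sqrt hV0
    have hsM : s ∈ M := mem_of_forall_commute M fun y hy =>
      ((hsc y (commutant_commute hy hVc.1)).eq).symm
    have hse : s * (1 - e) = 0 := by
      rw [← CStarRing.star_mul_self_eq_zero_iff, star_mul, hs,
        he.one_sub.isSelfAdjoint.star_eq, mul_assoc, ← mul_assoc s, hss, sub_mul, one_mul,
        ← mul_assoc, hVc.mul_left he, sub_self]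
    have h2 : s * e = s := by rw [mul_sub, mul_one, sub_eq_zero] at hse; exact hse.symm
    have h3 : e * s = s := by
      simpa [star_mul, hs, he.isSelfAdjoint.star_eq] using congrArg star h2
    have hsc' : Cor M e s := Cor.of_abs he hsM h3 h2
    have h4 := S.1 s hsc'.1 hsc'.2
    have h5 : φ (star s * s) = 0 := by
      refine Complex.ext (le_antisymm ?_ h4.1) h4.2
      rw [hs, hss]; exact hφV
    rw [← hss, S.2.1 s hsc'.1 hsc'.2 h5, zero_mul]
  have hlow : ∀ n, δ / 2 ≤ ∑ v ∈ F, (⟪v, U n v⟫_ℂ).re := by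
    intro n
    have h1 := Singular.re_inner_nonneg (sub_nonneg.2 (hU n).2.2.2.1) (ξ n)
    simp only [sub_apply, inner_sub_right, Complex.sub_re, smul_apply,
      RCLike.real_smul_eq_coe_smul (K := ℂ), inner_smul_right] at h1
    simp at h1
    have h4 := Finset.single_le_sum (f := fun v => (⟪v, U n v⟫_ℂ).re)
      (fun v _ => Singular.re_inner_nonneg (hU n).2.1 v) (hξF n)
    linarith [hξ n]
  have hlim : Tendsto (fun n => ∑ v ∈ F, (⟪v, U n v⟫_ℂ).re) atTop (𝓝 0) := by
    have : ∀ v ∈ F, Tendsto (fun n => (⟪v, U n v⟫_ℂ).re) atTop (𝓝 0) := fun v _ => by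
      have h := (Complex.continuous_re.tendsto _).comp
        ((tendsto_const_nhds (x := v)).inner (hVlim v) (𝕜 := ℂ))
      simpa [hV00, Function.comp_def] using h
    simpa using tendsto_finsetSum F this
  exact absurd (ge_of_tendsto hlim (Eventually.of_forall hlow)) (by linarith)

end So

open So MKS Filter in
open scoped InnerProductSpace in
/-- The 2-norm and the strong topology control each other on bounded sets. -/
theorem so_ok : SoStatement := by
  intro H _ _ _ M A e φ hA heA he S C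
  refine ⟨fun F δ hδ => ?_, fun η hη => ?_⟩
  · obtain ⟨η, hη, hsm⟩ :=
      So.exists_small S he F (show 0 < δ ^ 2 / (C ^ 2 + 1) by positivity)
    refine ⟨Real.sqrt (η * (C ^ 2 + 1) / 2), by positivity, fun y hy hyC hyη ξ hξ => ?_⟩
    set b := (C ^ 2 + 1)⁻¹ • (star y * y) with hb
    have hbc : Cor M e b := ((hy.star' he).mul he hy).rsmul _
    have hb0 : 0 ≤ b := smul_nonneg (by positivity) (star_mul_self_nonneg y)
    have hbn : ‖b‖ ≤ 1 := by
      rw [hb, norm_smul, CStarRing.norm_star_mul_self, Real.norm_of_nonneg (by positivity),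
        inv_mul_le_iff₀ (by positivity), mul_one]
      nlinarith [norm_nonneg y]
    have hbφ : (φ b).re < η := by
      rw [hb, tr_rsmul, ← n2_sq S he hy, inv_mul_lt_iff₀ (by positivity)]
      have := pow_le_pow_left₀ (n2_nonneg _) hyη 2
      rw [Real.sq_sqrt (by positivity)] at this
      nlinarith [show (0:ℝ) < η * (C ^ 2 + 1) by positivity]
    have h := hsm b hbc hb0 hbn hbφ ξ hξ
    have e2 : (⟪ξ, b ξ⟫_ℂ).re = (C ^ 2 + 1)⁻¹ * ‖y ξ‖ ^ 2 := by
      rw [hb, smul_apply, RCLike.real_smul_eq_coe_smul (K := ℂ), inner_smul_right,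
        mul_apply_eq_comp, ContinuousLinearMap.star_eq_adjoint,
        ContinuousLinearMap.adjoint_inner_right]
      rw [← RCLike.re_to_complex, RCLike.re_ofReal_mul, inner_self_eq_norm_sq]
    rw [e2, div_eq_inv_mul, mul_lt_mul_iff_right₀ (by positivity)] at h
    exact lt_of_pow_lt_pow_left₀ 2 hδ.le h
  · obtain ⟨F, δ, hδ, h⟩ := S.2.2.2 (η ^ 2 / (C ^ 2 + 1)) (by positivity)
    refine ⟨F, δ, hδ, fun y hy hyC hyF => ?_⟩
    set c : ℝ := (C ^ 2 + 1)⁻¹ with hc
    have hc0 : 0 < c := by positivity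
    have hcc : Cor M e (c • (star y * y)) := ((hy.star' he).mul he hy).rsmul _
    have hC : 0 ≤ C := (norm_nonneg _).trans hyC
    have h1 := h _ hcc.1 hcc.2 (by
        rw [norm_smul, CStarRing.norm_star_mul_self, Real.norm_of_nonneg hc0.le, hc,
          inv_mul_le_iff₀ (by positivity), mul_one]
        nlinarith [norm_nonneg y])
      (fun v hv => by
        rw [smul_apply, norm_smul, Real.norm_of_nonneg hc0.le, mul_apply_eq_comp]
        have h2 : ‖star y (y v)‖ ≤ C * ‖y v‖ :=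
          (star y).le_of_opNorm_le (by rwa [norm_star]) _
        have h3 : c * C ≤ 1 := by
          rw [hc, inv_mul_le_iff₀ (by positivity), mul_one]; nlinarith [sq_nonneg (C - 1)]
        calc c * ‖star y (y v)‖ ≤ c * (C * ‖y v‖) := mul_le_mul_of_nonneg_left h2 hc0.le
          _ ≤ ‖y v‖ := by rw [← mul_assoc]; exact mul_le_of_le_one_left (norm_nonneg _) h3
          _ < δ := hyF v hv)
    have h4 := lt_of_le_of_lt (Complex.re_le_norm _) h1
    rw [tr_rsmul, ← n2_sq S he hy, hc, div_eq_inv_mul, mul_lt_mul_iff_right₀ (by positivity)] at h4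
    exact (lt_of_pow_lt_pow_left₀ 2 hη.le h4).le

open MKS in
/-- Right multiplication is continuous on bounded sets. -/
theorem right_ok : RightStatement := by
  classical
  intro H _ _ _ M A e φ hA heA he S z hz C η hη
  obtain ⟨F, δ₁, hδ₁, h1⟩ := (so_ok H M A e φ hA heA he S (C * ‖z‖)).2 η hη
  obtain ⟨δ, hδ, h2⟩ := (so_ok H M A e φ hA heA he S C).1 (F.image z) δ₁ hδ₁
  refine ⟨δ, hδ, fun y hy hyC hyδ => h1 _ (hy.mul he hz)
    ((norm_mul_le _ _).trans (mul_le_mul_of_nonneg_right hyC (norm_nonneg _))) fun ξ hξ => ?_⟩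
  rw [mul_apply_eq_comp]
  exact h2 y hy hyC hyδ _ (Finset.mem_image_of_mem z hξ)

end Vale.Agent.P078.State
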