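import Vale.Agent.P078.State.AssemblyTools
import Vale.Agent.P078.State.SpanNear
import Vale.Agent.P078.Twist.DensCut
import Vale.Agent.P078.Orth.Basic
import Vale.Agent.P078.MKS.Cells
import Vale.Agent.P078.MKS.Assembly.Pad

/-!
Paving in a corner with a central state: one random partition paves the part in the algebra of the
normaliser for every outcome and the orthogonal part for some outcome.
-/

namespace Vale.Agent.P078.State

open MKS Singular Filter

variable {H : Type} [NormedAddCommGroup H] [InnerProductSpace ℂ H] [CompleteSpace H]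
variable {M A : VonNeumannAlgebra H} {e : H →L[ℂ] H} {φ : (H →L[ℂ] H) →ₗ[ℂ] ℂ}

/-- Self-adjoint contractions of a corner with a central state are paved by `r ≥ C ε⁻²` pieces
outside a projection missing finitely many vectors by little. -/
def StageStatement : Prop :=
  ∃ C : ℕ, ∀ (H : Type) [NormedAddCommGroup H] [InnerProductSpace ℂ H] [CompleteSpace H]
    (M A : VonNeumannAlgebra H) (e : H →L[ℂ] H) (φ : (H →L[ℂ] H) →ₗ[ℂ] ℂ),
    IsMASA M A → e ∈ A → IsStarProjection e → IsState M A e φ →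
    ∀ z : H →L[ℂ] H, Cor M e z → IsSelfAdjoint z → ‖z‖ ≤ 1 →
    ∀ (ε : ℝ) (r : ℕ), 0 < ε → ε < 1 → (C : ℝ) ≤ ε ^ 2 * r →
    ∀ (F : Finset H) (δ : ℝ), 0 < δ → ∃ (R : Fin r → (H →L[ℂ] H)) (a q : H →L[ℂ] H),
      IsPartition A e R ∧ a ∈ A ∧ IsSelfAdjoint a ∧ Cor M e a ∧ ‖a‖ ≤ 1 ∧
      Cor M e q ∧ IsStarProjection q ∧ (∀ ξ ∈ F, ‖(e - q) ξ‖ < δ) ∧
      ‖q * (MKS.pinch R z - a) * q‖ ≤ ε

/-- A contraction of the algebra of the normaliser is, up to a small 2-norm, an element of `A`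
plus twice a contraction of the normaliser span with zero diagonal. -/
theorem split_diag (hA : IsMASA M A) (heA : e ∈ A) (he : IsStarProjection e)
    (S : IsState M A e φ) {y : H →L[ℂ] H} (hy : Cor M e y) (hys : IsSelfAdjoint y)
    (hyn : ‖y‖ ≤ 1)
    (hyb : y ∈ Set.centralizer (Set.centralizer (normStar hA : Set (H →L[ℂ] H))))
    {η : ℝ} (hη : 0 < η) :
    ∃ (a w : H →L[ℂ] H) (n : ℕ) (E : Fin n → (H →L[ℂ] H)),
      a ∈ A ∧ IsSelfAdjoint a ∧ Cor M e a ∧ ‖a‖ ≤ 1 ∧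
      w ∈ normSpan M A e ∧ IsSelfAdjoint w ∧ ‖w‖ ≤ 1 ∧
      IsPartition A e E ∧ (∀ i, E i * w * E i = 0) ∧
      ‖y - ((2 : ℝ) • w + a)‖ ≤ 2 ∧ n2 φ (y - ((2 : ℝ) • w + a)) ≤ η := by
  obtain ⟨y₀, hy₀m, hy₀s, hy₀n, hy₀x⟩ := span_near_sa so_ok hA heA he S hy hys hyb hη
  have hy₀c : Cor M e y₀ := normSpan_cor hA hy₀m
  obtain ⟨n, E, hE, hEy⟩ := Op.diagonal_ok H M A hA e heA he y₀ hy₀m
  set a := MKS.pinch E y₀ with hadef
  have haA : a ∈ A := sum_mem fun i _ => hEy i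
  have hac : Cor M e a := cor_pinch hA hE hy₀c.1
  have has : IsSelfAdjoint a := pinch_selfAdjoint' hE hy₀s
  have h1 : ‖y₀‖ ≤ 1 := hy₀n.trans hyn
  have han : ‖a‖ ≤ 1 := norm_pinch_le he hE hy₀c hy₀s h1
  have e2 : (2 : ℝ) • (1 / 2 : ℝ) • (y₀ - a) + a = y₀ := by
    rw [smul_smul, show (2 : ℝ) * (1 / 2) = 1 by norm_num, one_smul, sub_add_cancel]
  refine ⟨a, (1 / 2 : ℝ) • (y₀ - a), n, E, haA, has, hac, han,
    Submodule.smul_of_tower_mem _ _ (sub_mem hy₀m (pinch_mem_normSpan hA hE hy₀m)),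
    (IsSelfAdjoint.all _).smul (hy₀s.sub has), ?_, hE, fun i => ?_, ?_, ?_⟩
  · rw [norm_smul, Real.norm_of_nonneg (by norm_num : (0 : ℝ) ≤ 1 / 2)]
    linarith [norm_sub_le y₀ a]
  · rw [mul_smul_comm, smul_mul_assoc, mul_sub, sub_mul, hadef, piece_pinch hE, sub_self,
      smul_zero]
  · rw [e2]; linarith [norm_sub_le y y₀]
  · rw [e2]; exact hy₀x

/-- The stage from the random statements. -/
theorem stage_of (hTw : Twist.TwistedPavingStatement) (hS : SplitStatement)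
    (hN : GeneralNoiseStatement) : StageStatement := by
  classical
  obtain ⟨C₀, hC₀, hTw⟩ := hTw
  refine ⟨⌈6400 * (C₀ ^ 2 + C₀)⌉₊ + 2, ?_⟩
  intro H _ _ _ M A e φ hA heA he S z hz hzs hzn ε r hε hε1 hr F δ hδ
  push_cast at hr
  have hceil := Nat.le_ceil (6400 * (C₀ ^ 2 + C₀))
  have hr0 : (0 : ℝ) < r := by nlinarith [sq_nonneg ε, sq_nonneg C₀]
  have hr2 : 2 ≤ r := by
    by_contra hcon
    have : (r : ℝ) ≤ 1 := by exact_mod_cast (by omega : r ≤ 1)
    nlinarith [sq_nonneg C₀]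
  set u := ε / 20 with hu
  have hu0 : 0 < u := by positivity
  have hb : C₀ / Real.sqrt r ≤ u / 2 := by
    rw [div_le_iff₀ (Real.sqrt_pos.2 hr0)]
    refine le_of_sq_le_sq ?_ (by positivity)
    rw [mul_pow, Real.sq_sqrt hr0.le, hu]
    nlinarith
  obtain ⟨η, δ₁, hη, hδ₁, hcut⟩ := exists_cut_three hA heA he S hε F hδ
  -- the two parts
  obtain ⟨y, hyc, hys, hyn, hyb, hm⟩ := hS H M A e φ hA heA he S z hz hzs
  have hms : IsSelfAdjoint (z - y) := hzs.sub hys
  have hmn : ‖z - y‖ ≤ 2 := (norm_sub_le _ _).trans (by linarith [hyn.trans hzn])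
  obtain ⟨a, w, n, E, haA, has, hac, han, hwm, hws, hwn, hE, hEw, herr2, herr⟩ :=
    split_diag hA heA he S hyc hys (hyn.trans hzn) hyb (Real.sqrt_pos.2 hη)
  have hwc : Cor M e w := normSpan_cor hA hwm
  have hec : Cor M e e := cor_proj (hA.1 e heA) he
  -- the cut which bounds the densities
  obtain ⟨f, hfA, hfe, hfF, D, hD, hDop⟩ :=
    Twist.dens_cut_ok H M A e φ hA ⟨heA, he⟩ S w hwm F δ₁ hδ₁
  have hef : e * f = f := by rw [hA.2.1 e heA f hfA.1, hfe]
  have hfc : Cor M e f := Cor.of_abs he (hA.1 f hfA.1) hef hfe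
  have hfn := hfA.2.norm_le
  have hvc : Cor M e D.op := hDop ▸ (hfc.mul he hwc).mul he hfc
  have hvs : IsSelfAdjoint D.op := by
    rw [hDop, IsSelfAdjoint, star_mul, star_mul, hfA.2.isSelfAdjoint.star_eq, hws.star_eq,
      mul_assoc]
  have hvn : ‖D.op‖ ≤ 1 := by
    rw [hDop]
    exact (norm_mul_le _ _).trans (mul_le_one₀ ((norm_mul_le _ _).trans
      (mul_le_one₀ hfn (norm_nonneg _) hwn)) (norm_nonneg _) hfn)
  obtain ⟨b1, b2⟩ := bounds_of_norm_le hvs hvn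
  obtain ⟨v1, v2⟩ := conj_bounds he b1 b2
  rw [hvc.2] at v1 v2
  rw [one_smul] at v2
  have hcomm : ∀ {m : ℕ} {R : Fin m → (H →L[ℂ] H)}, IsPartition A e R → ∀ (i : Fin m)
      (X : H →L[ℂ] H), R i * (f * X * f) * R i = f * (R i * X * R i) * f := by
    intro m R hR i X
    calc R i * (f * X * f) * R i = R i * f * X * (f * R i) := by simp only [mul_assoc]
      _ = f * R i * X * (R i * f) := by rw [hA.2.1 _ (hR.1 i).1 f hfA.1]
      _ = f * (R i * X * R i) * f := by simp only [mul_assoc]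
  have hEv : ∀ i, E i * D.op * E i = 0 := fun i => by
    rw [hDop, hcomm hE i w, hEw i, mul_zero, zero_mul]
  -- the exponent
  have hφe : 0 ≤ (φ e).re := tr_nonneg S he hec he.nonneg
  obtain ⟨k₀, hk₀⟩ := exists_pow_lt_of_lt_one (show 0 < η / (2 * (u ^ 2 * (φ e).re + 1)) by
    positivity) (by norm_num : (1 / 4 : ℝ) < 1)
  set k := k₀ + 1 with hk
  have hk4 : (1 / 4 : ℝ) ^ k * (u ^ 2 * (φ e).re) ≤ η / 2 := by
    rw [lt_div_iff₀ (by positivity)] at hk₀
    have h1 : (1 / 4 : ℝ) ^ k ≤ (1 / 4) ^ k₀ :=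
      pow_le_pow_of_le_one (by norm_num) (by norm_num) (by omega)
    have h2 : 0 ≤ (1 / 4 : ℝ) ^ k₀ := by positivity
    calc (1 / 4 : ℝ) ^ k * (u ^ 2 * (φ e).re) ≤ (1 / 4) ^ k₀ * (u ^ 2 * (φ e).re) :=
          mul_le_mul_of_nonneg_right h1 (by positivity)
      _ ≤ η / 2 := by nlinarith
  set δ' := η / 2 * u ^ (2 * k - 2) with hδ'
  obtain ⟨L, hL, μ, P, hμ0, hμ1, hP, hfield, hmean, hout⟩ :=
    hTw H M A e φ hA ⟨heA, he⟩ S D hD hvs v1 v2 n E hE hEv r k δ' hr2 (by positivity)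
  have hu2 : 2 * Real.sqrt (C₀ / r) * ‖z - y‖ < u := by
    have h1 : Real.sqrt (C₀ / r) < ε / 80 := by
      rw [Real.sqrt_lt' (by positivity), div_pow, div_lt_div_iff₀ hr0 (by norm_num)]
      nlinarith
    have h2 := Real.sqrt_nonneg (C₀ / r)
    rw [hu]
    nlinarith
  have := Orth.fine_neBot hA heA he
  obtain ⟨c, hc⟩ := (hN H M A e φ hA heA he S L μ hμ0 hμ1 r (C₀ / r) P (by positivity) hP
    hfield (Eventually.of_forall hmean) (z - y) hm hms u η hu2 hη).exists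
  obtain ⟨ω, hω⟩ := exists_le_avg hμ0 hμ1 hc
  set Q := P c ω with hQdef
  have hQ : IsPartition A e Q := hP c ω
  set X := MKS.pinch Q D.op with hXdef
  set T := MKS.pinch Q (z - y) with hTdef
  set err := MKS.pinch Q (y - ((2 : ℝ) • w + a)) with herrdef
  have hd : Cor M e (y - ((2 : ℝ) • w + a)) := hyc.sub ((hwc.rsmul 2).add hac)
  have hds : IsSelfAdjoint (y - ((2 : ℝ) • w + a)) :=
    hys.sub (((IsSelfAdjoint.all _).smul hws).add has)
  have hXc : Cor M e X := cor_pinch hA hQ hvc.1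
  have hXs : IsSelfAdjoint X := pinch_selfAdjoint' hQ hvs
  have hTc : Cor M e T := cor_pinch hA hQ hm.1.1
  have hTs : IsSelfAdjoint T := pinch_selfAdjoint' hQ hms
  have herrc : Cor M e err := cor_pinch hA hQ hd.1
  have herrs : IsSelfAdjoint err := pinch_selfAdjoint' hQ hds
  have hpowX : (φ (e * X ^ (2 * k) * e)).re ≤ (u / 2) ^ (2 * k) * (φ e).re + δ' :=
    (hout c ω).trans (add_le_add (mul_le_mul_of_nonneg_right
      (pow_le_pow_left₀ (by positivity) hb _) hφe) le_rfl)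
  have hXsmall : ((u / 2) ^ (2 * k) * (φ e).re + δ') / u ^ (2 * k - 2) ≤ η := by
    rw [div_le_iff₀ (by positivity)]
    have e1 : (u / 2) ^ (2 * k) = (1 / 4) ^ k * u ^ 2 * u ^ (2 * k - 2) := by
      rw [mul_assoc, ← pow_add, Nat.add_sub_cancel' (by omega), pow_mul, pow_mul, ← mul_pow]
      ring
    have h3 := mul_le_mul_of_nonneg_right hk4 (pow_nonneg hu0.le (2 * k - 2))
    rw [e1, hδ']
    linarith
  obtain ⟨hX₁, hX₂⟩ := excess_small he S hXc hXs hu0 (by omega) hpowX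
  obtain ⟨hR₁, hR₂⟩ : (φ (excess u err * excess u err)).re ≤ η ∧
      (φ (excess u (-err) * excess u (-err))).re ≤ η := by
    have h : (φ (e * err ^ (2 * 1) * e)).re ≤ η := by
      rw [mul_one, pow_two, (herrc.mul he herrc).2]
      have h1 := n2_sq S he herrc
      rw [herrs.star_eq] at h1
      rw [← h1]
      refine (pow_le_pow_left₀ (n2_nonneg _) ((n2_pinch_le S he hA heA hQ hd).trans herr) 2).trans ?_
      rw [Real.sq_sqrt hη.le]
    simpa using excess_small he S herrc herrs hu0 le_rfl h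
  have hnn : ∀ g : H →L[ℂ] H, Cor M e g → IsSelfAdjoint g → 0 ≤ (φ (g * g)).re := fun g hg hgs => by
    have := (S.1 g hg.1 hg.2).1
    rwa [hgs.star_eq] at this
  have hT₁ := hnn _ (cor_excess he hTc hu0 hTs) (isSelfAdjoint_excess _ _)
  have hT₂ := hnn _ (cor_excess he hTc.neg hu0 hTs.neg) (isSelfAdjoint_excess _ _)
  obtain ⟨q, hqc, hqp, hqf, hfq, hq₁, hq₂, hq₃, hqF⟩ := hcut f X T err hfc hfA.2 hfF (by
    intro Z hZ
    simp only [List.mem_cons, List.not_mem_nil, or_false] at hZ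
    rcases hZ with rfl | rfl | rfl
    · exact ⟨hXc, hXs, (norm_pinch_le he hQ hvc hvs hvn).trans one_le_two,
        hX₁.trans hXsmall, hX₂.trans hXsmall⟩
    · exact ⟨hTc, hTs, norm_pinch_le he hQ hm.1 hms hmn, by linarith, by linarith⟩
    · exact ⟨herrc, herrs, norm_pinch_le he hQ hd hds herr2, hR₁, hR₂⟩)
  refine ⟨Q, a, q, hQ, haA, has, hac, han, hqc, hqp, hqF, ?_⟩
  have hW : MKS.pinch Q z - a = (2 : ℝ) • MKS.pinch Q w + T + err := by
    have e1 : MKS.pinch Q z = MKS.pinch Q ((2 : ℝ) • w) + MKS.pinch Q a + err + T := by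
      rw [herrdef, hTdef, ← MKS.pinch_add, ← MKS.pinch_add, ← MKS.pinch_add]
      congr 1
      abel
    rw [e1, MKS.pinch_smul, pinch_fix hA hQ haA (hac.mul_right he)]
    abel
  have hfX : X = f * MKS.pinch Q w * f := by
    simp only [hXdef, hDop, MKS.pinch, Finset.mul_sum, Finset.sum_mul]
    exact Finset.sum_congr rfl fun i _ => hcomm hQ i w
  have hqX : q * X * q = q * MKS.pinch Q w * q := by
    rw [hfX, show q * (f * MKS.pinch Q w * f) * q = q * f * MKS.pinch Q w * (f * q) by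
      simp only [mul_assoc], hqf, hfq]
  rw [hW, mul_add, mul_add, add_mul, add_mul, mul_smul_comm, smul_mul_assoc, ← hqX]
  refine (norm_add₃_le).trans ?_
  rw [norm_smul, Real.norm_of_nonneg two_pos.le]
  linarith

end Vale.Agent.P078.State
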