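import Vale.Agent.P078.State.Common
import Vale.Agent.P078.State.So
import Vale.Agent.P078.Twist.Cut
import Vale.Agent.P078.Orth.Defs

/-!
Tools for the assembly of so-paving against states: cuts from small excesses, combining cuts, and
choosing one outcome of a random partition.
-/

namespace Vale.Agent.P078.State

open MKS Singular

variable {H : Type} [NormedAddCommGroup H] [InnerProductSpace ℂ H] [CompleteSpace H]
variable {M A : VonNeumannAlgebra H} {e : H →L[ℂ] H} {φ : (H →L[ℂ] H) →ₗ[ℂ] ℂ}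

/-- Pinchings of self-adjoint elements of the corner decrease the norm. -/
theorem norm_pinch_le (he : IsStarProjection e) {r : ℕ} {P : Fin r → (H →L[ℂ] H)}
    (hP : IsPartition A e P) {x : H →L[ℂ] H} (hx : Cor M e x) (hxs : IsSelfAdjoint x) {c : ℝ}
    (h : ‖x‖ ≤ c) : ‖MKS.pinch P x‖ ≤ c := by
  have hc := (norm_nonneg x).trans h
  obtain ⟨b1, b2⟩ := bounds_of_norm_le hxs h
  obtain ⟨c1, c2⟩ := conj_bounds he b1 b2
  rw [hx.2] at c1 c2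
  obtain ⟨d1, d2⟩ := pinch_bounds hP c1 c2
  refine norm_le_of_bounds (pinch_selfAdjoint' hP hxs) hc (le_trans ?_ d1) (d2.trans ?_)
  · rw [neg_smul, neg_smul, neg_le_neg_iff]
    exact smul_le_smul_of_nonneg_left (proj_le_one he) hc
  · exact smul_le_smul_of_nonneg_left (proj_le_one he) hc

/-- The excess is no larger than the operator. -/
theorem norm_excess_le {u : ℝ} (hu : 0 ≤ u) (W : H →L[ℂ] H) : ‖excess u W‖ ≤ ‖W‖ := by
  refine norm_cfc_le (norm_nonneg _) fun t ht => ?_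
  have h := ((Real.norm_eq_abs t).symm.le.trans (spectrum.norm_le_norm_mul_of_mem ht)).trans
    (mul_le_of_le_one_right (norm_nonneg _) ContinuousLinearMap.norm_id_le)
  rw [Real.norm_eq_abs, abs_of_nonneg (le_max_right _ _)]
  exact max_le (by linarith [le_abs_self t]) (norm_nonneg _)

/-- Small excesses on both sides give a cut close to `e`. -/
theorem exists_cut (hA : IsMASA M A) (heA : e ∈ A) (he : IsStarProjection e)
    (S : IsState M A e φ) (C : ℝ) {u c : ℝ} (hu : 0 < u) (huc : u < c) (F : Finset H) {δ : ℝ}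
    (hδ : 0 < δ) :
    ∃ η : ℝ, 0 < η ∧ ∀ Z : H →L[ℂ] H, Cor M e Z → IsSelfAdjoint Z → ‖Z‖ ≤ C →
      (φ (excess u Z * excess u Z)).re ≤ η → (φ (excess u (-Z) * excess u (-Z))).re ≤ η →
      ∃ q, Cor M e q ∧ IsStarProjection q ∧ ‖q * Z * q‖ ≤ c ∧ ∀ ξ ∈ F, ‖(e - q) ξ‖ < δ := by
  have hcu : 0 < c - u := sub_pos.2 huc
  obtain ⟨η, hη, hs⟩ := (so_ok H M A e φ hA heA he S C).1 F ((c - u) * δ / 2) (by positivity)
  refine ⟨η ^ 2, by positivity, fun Z hZ hZs hZn h₁ h₂ => ?_⟩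
  have key : ∀ W : H →L[ℂ] H, Cor M e W → IsSelfAdjoint W → ‖W‖ ≤ C →
      (φ (excess u W * excess u W)).re ≤ η ^ 2 → ∀ ξ ∈ F, ‖excess u W ξ‖ < (c - u) * δ / 2 := by
    intro W hW hWs hWn h
    refine hs _ (cor_excess he hW hu hWs) ((norm_excess_le hu.le W).trans hWn) ?_
    rw [n2, (isSelfAdjoint_excess u W).star_eq]
    exact Real.sqrt_le_iff.2 ⟨hη.le, h⟩
  obtain ⟨q, hqc, hqp, hqn, hqF⟩ := cut_excess he (hA.1 e heA) hZ hZs hu.le huc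
  refine ⟨q, hqc, hqp, hqn, fun ξ hξ => ?_⟩
  have k₁ := key Z hZ hZs hZn h₁ ξ hξ
  have k₂ := key (-Z) hZ.neg hZs.neg (by rwa [norm_neg]) h₂ ξ hξ
  refine lt_of_mul_lt_mul_left ?_ hcu.le
  linarith [hqF ξ]

/-- Below one cut, a second cut still works up to an error in norm. -/
theorem exists_combine (he : IsStarProjection e) (heM : e ∈ M) (F : Finset H) {δ η : ℝ}
    (hδ : 0 < δ) (hη : 0 < η) :
    ∃ δ' : ℝ, 0 < δ' ∧ ∀ q₁ q₂ : H →L[ℂ] H, Cor M e q₁ → Cor M e q₂ → IsStarProjection q₁ →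
      IsStarProjection q₂ → (∀ ξ ∈ F, ‖(e - q₁) ξ‖ < δ') → (∀ ξ ∈ F, ‖(e - q₂) ξ‖ < δ') →
      ∃ q, Cor M e q ∧ IsStarProjection q ∧ q * q₁ = q ∧ q₁ * q = q ∧
        (∀ (X : H →L[ℂ] H) (C c : ℝ), ‖X‖ ≤ C → ‖q₂ * X * q₂‖ ≤ c →
          ‖q * X * q‖ ≤ c + 2 * C * η) ∧
        ∀ ξ ∈ F, ‖(e - q) ξ‖ < δ := by
  obtain ⟨δ', hδ', h⟩ := common_ok H M e heM he F δ η hδ hη
  refine ⟨δ', hδ', fun q₁ q₂ h₁ h₂ hp₁ hp₂ hF₁ hF₂ => ?_⟩
  obtain ⟨q, hqc, hqp, hq₁, hn, hqF⟩ := h q₁ q₂ h₁ h₂ hp₁ hp₂ fun ξ hξ => ⟨hF₁ ξ hξ, hF₂ ξ hξ⟩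
  have hq₁' : q₁ * q = q := by
    simpa [star_mul, hp₁.isSelfAdjoint.star_eq, hqp.isSelfAdjoint.star_eq] using congrArg star hq₁
  refine ⟨q, hqc, hqp, hq₁, hq₁', fun X C c hX hc => ?_, hqF⟩
  have hn' : ‖q - q * q₂‖ ≤ η := by
    rw [← norm_star, star_sub, star_mul, hp₂.isSelfAdjoint.star_eq, hqp.isSelfAdjoint.star_eq,
      norm_sub_rev]
    exact hn
  have hn'' : ‖q - q₂ * q‖ ≤ η := by rwa [norm_sub_rev]
  have hC : 0 ≤ C := (norm_nonneg X).trans hX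
  have e1 : q * X * q = q * (q₂ * X * q₂) * q + (q - q * q₂) * X * q +
      q * q₂ * X * (q - q₂ * q) := by
    simp only [sub_mul, mul_sub, mul_assoc]; abel
  have hqn := hqp.norm_le
  have a1 : ‖q * (q₂ * X * q₂) * q‖ ≤ c :=
    (norm_mul_le _ _).trans ((mul_le_of_le_one_right (norm_nonneg _) hqn).trans
      ((norm_mul_le _ _).trans ((mul_le_of_le_one_left (norm_nonneg _) hqn).trans hc)))
  have a2 : ‖(q - q * q₂) * X * q‖ ≤ η * C :=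
    (norm_mul_le _ _).trans ((mul_le_of_le_one_right (norm_nonneg _) hqn).trans
      ((norm_mul_le _ _).trans (mul_le_mul hn' hX (norm_nonneg _) hη.le)))
  have a3 : ‖q * q₂ * X * (q - q₂ * q)‖ ≤ C * η := by
    refine (norm_mul_le _ _).trans (mul_le_mul ?_ hn'' (norm_nonneg _) hC)
    exact (norm_mul_le _ _).trans ((mul_le_of_le_one_left (norm_nonneg _)
      ((norm_mul_le _ _).trans (mul_le_one₀ hqn (norm_nonneg _) hp₂.norm_le))).trans hX)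
  rw [e1]
  refine (norm_add₃_le).trans ?_
  linarith

/-- One projection below a given one cuts three operators with small excesses. -/
theorem exists_cut_three (hA : IsMASA M A) (heA : e ∈ A) (he : IsStarProjection e)
    (S : IsState M A e φ) {ε : ℝ} (hε : 0 < ε) (F : Finset H) {δ : ℝ} (hδ : 0 < δ) :
    ∃ η δ₁ : ℝ, 0 < η ∧ 0 < δ₁ ∧ ∀ f Z₁ Z₂ Z₃ : H →L[ℂ] H,
      Cor M e f → IsStarProjection f → (∀ ξ ∈ F, ‖(e - f) ξ‖ < δ₁) →
      (∀ Z ∈ [Z₁, Z₂, Z₃], Cor M e Z ∧ IsSelfAdjoint Z ∧ ‖Z‖ ≤ 2 ∧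
        (φ (excess (ε / 20) Z * excess (ε / 20) Z)).re ≤ η ∧
        (φ (excess (ε / 20) (-Z) * excess (ε / 20) (-Z))).re ≤ η) →
      ∃ q, Cor M e q ∧ IsStarProjection q ∧ q * f = q ∧ f * q = q ∧
        ‖q * Z₁ * q‖ ≤ ε / 5 ∧ ‖q * Z₂ * q‖ ≤ ε / 5 ∧ ‖q * Z₃ * q‖ ≤ ε / 5 ∧
        ∀ ξ ∈ F, ‖(e - q) ξ‖ < δ := by
  have heM := hA.1 e heA
  have hη' : 0 < ε / 100 := by positivity
  obtain ⟨δ₃, hδ₃, h₃⟩ := exists_combine he heM F hδ hη'
  obtain ⟨δ₂, hδ₂, h₂⟩ := exists_combine he heM F hδ₃ hη'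
  obtain ⟨δ₁, hδ₁, h₁⟩ := exists_combine he heM F hδ₂ hη'
  set m := min δ₁ (min δ₂ δ₃) with hm
  have hm0 : 0 < m := lt_min hδ₁ (lt_min hδ₂ hδ₃)
  obtain ⟨η, hη, hcut⟩ := exists_cut hA heA he S 2 (u := ε / 20) (c := ε / 10) (by positivity)
    (by linarith) F hm0
  refine ⟨η, δ₁, hη, hδ₁, fun f Z₁ Z₂ Z₃ hf hfp hfF hZ => ?_⟩
  obtain ⟨z1, s1, n1, p1, p1'⟩ := hZ Z₁ (by simp)
  obtain ⟨z2, s2, n2', p2, p2'⟩ := hZ Z₂ (by simp)
  obtain ⟨z3, s3, n3, p3, p3'⟩ := hZ Z₃ (by simp)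
  obtain ⟨r₁, hr₁, hr₁p, hr₁n, hr₁F⟩ := hcut Z₁ z1 s1 n1 p1 p1'
  obtain ⟨r₂, hr₂, hr₂p, hr₂n, hr₂F⟩ := hcut Z₂ z2 s2 n2' p2 p2'
  obtain ⟨r₃, hr₃, hr₃p, hr₃n, hr₃F⟩ := hcut Z₃ z3 s3 n3 p3 p3'
  obtain ⟨a, hac, hap, haf, hfa, haX, haF⟩ := h₁ f r₁ hf hr₁ hfp hr₁p hfF
    fun ξ hξ => (hr₁F ξ hξ).trans_le (min_le_left _ _)
  obtain ⟨b, hbc, hbp, hba, hab, hbX, hbF⟩ := h₂ a r₂ hac hr₂ hap hr₂p haF
    fun ξ hξ => (hr₂F ξ hξ).trans_le ((min_le_right _ _).trans (min_le_left _ _))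
  obtain ⟨q, hqc, hqp, hqb, hbq, hqX, hqF⟩ := h₃ b r₃ hbc hr₃ hbp hr₃p hbF
    fun ξ hξ => (hr₃F ξ hξ).trans_le ((min_le_right _ _).trans (min_le_right _ _))
  have hqa : q * a = q := by rw [← hqb, mul_assoc, hba]
  have haq : a * q = q := by rw [← hbq, ← mul_assoc, hab]
  have below : ∀ g X : H →L[ℂ] H, q * g = q → g * q = q → ‖q * X * q‖ ≤ ‖g * X * g‖ := by
    intro g X hqg hgq
    calc ‖q * X * q‖ = ‖q * (g * X * g) * q‖ := by
          rw [show q * (g * X * g) * q = q * g * X * (g * q) by simp only [mul_assoc], hqg, hgq]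
      _ ≤ ‖g * X * g‖ := (norm_mul_le _ _).trans ((mul_le_of_le_one_right (norm_nonneg _)
          hqp.norm_le).trans ((norm_mul_le _ _).trans
            (mul_le_of_le_one_left (norm_nonneg _) hqp.norm_le)))
  refine ⟨q, hqc, hqp, by rw [← hqa, mul_assoc, haf], by rw [← haq, ← mul_assoc, hfa], ?_, ?_, ?_,
    hqF⟩
  · refine (below a Z₁ hqa haq).trans ((haX Z₁ 2 _ n1 hr₁n).trans ?_)
    linarith
  · refine (below b Z₂ hqb hbq).trans ((hbX Z₂ 2 _ n2' hr₂n).trans ?_)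
    linarith
  · exact (hqX Z₃ 2 _ n3 hr₃n).trans (by linarith)

/-- Some outcome is no worse than the average. -/
theorem exists_le_avg {L : Type} [Fintype L] {μ : L → ℝ} (hμ0 : ∀ l, 0 ≤ μ l)
    (hμ1 : ∑ l, μ l = 1) {n : ℕ} {g : (Fin n → L) → ℝ} {K : ℝ} (h : Orth.avg μ g ≤ K) :
    ∃ ω, g ω ≤ K := by
  classical
  by_contra hcon
  push Not at hcon
  have h1 : ∑ ω : Fin n → L, ∏ i, μ (ω i) = 1 := by
    rw [← Fintype.prod_sum fun (_ : Fin n) l => μ l]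
    simp [hμ1]
  obtain ⟨ω, hω, hne⟩ := Finset.exists_ne_zero_of_sum_ne_zero (h1.symm ▸ one_ne_zero :
    ∑ ω : Fin n → L, ∏ i, μ (ω i) ≠ 0)
  have hw : ∀ ω : Fin n → L, 0 ≤ ∏ i, μ (ω i) := fun ω => Finset.prod_nonneg fun i _ => hμ0 _
  have h2 : ∑ ω : Fin n → L, (∏ i, μ (ω i)) * K < Orth.avg μ g := by
    refine Finset.sum_lt_sum (fun ω _ => ?_) ⟨ω, hω, ?_⟩
    · exact mul_le_mul_of_nonneg_left (hcon ω).le (hw ω)
    · exact mul_lt_mul_of_pos_left (hcon ω) (lt_of_le_of_ne (hw ω) (Ne.symm hne))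
  rw [← Finset.sum_mul, h1, one_mul] at h2
  linarith

/-- A small even power makes both excesses small. -/
theorem excess_small (he : IsStarProjection e) (S : IsState M A e φ) {Z : H →L[ℂ] H}
    (hZ : Cor M e Z) (hZs : IsSelfAdjoint Z) {u B : ℝ} (hu : 0 < u) {k : ℕ} (hk : 1 ≤ k)
    (h : (φ (e * Z ^ (2 * k) * e)).re ≤ B) :
    (φ (excess u Z * excess u Z)).re ≤ B / u ^ (2 * k - 2) ∧
      (φ (excess u (-Z) * excess u (-Z))).re ≤ B / u ^ (2 * k - 2) := by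
  refine ⟨(Twist.excess_le_pow he S hZ hZs hu hk).trans ?_,
    (Twist.excess_le_pow he S hZ.neg hZs.neg hu hk).trans ?_⟩
  · exact div_le_div_of_nonneg_right h (pow_nonneg hu.le _)
  · rw [(even_two_mul k).neg_pow]
    exact div_le_div_of_nonneg_right h (pow_nonneg hu.le _)

end Vale.Agent.P078.State
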