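import Vale.Agent.P078.State.AtomSide
import Vale.Agent.P078.Orth.DiagLimit

/-!
The atom lemma for a state with the MASA in its centraliser: operators orthogonal to the
normaliser have no atoms (`atom_ok`).
-/

namespace Vale.Agent.P078.State.Atom

open Filter Topology MKS Singular Orth
open Vale.Agent.P078.Orth.Atom (Sub IsExp cor_bmul cor_alg isExp_self sub_cor sub_mul' Dens cut_sub
  sel)

variable {H : Type} [NormedAddCommGroup H] [InnerProductSpace ℂ H] [CompleteSpace H]
variable {M A : VonNeumannAlgebra H} {e : H →L[ℂ] H} {φ : (H →L[ℂ] H) →ₗ[ℂ] ℂ}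
variable (hA : IsMASA M A) (he : IsPr A e) (hφ : IsState M A e φ)
include hA he hφ

/-- Operators orthogonal to `A` times the normaliser are orthogonal to every operator which
conjugates `A` into itself from both sides. -/
theorem perp_two_sided {m v : H →L[ℂ] H} (hm : Perp M A e φ m) (hv : Cor M e v)
    (h1 : ∀ a ∈ A, v * a * star v ∈ A) (h2 : ∀ a ∈ A, star v * a * v ∈ A) :
    φ (star v * m) = 0 := by
  refine norm_le_zero_iff.1 (le_of_forall_gt_imp_ge_of_dense fun ρ hρ => ?_)
  set T := (φ e).re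
  have hT : 0 ≤ T := tr_nonneg he.2 hφ (cor_proj (hA.1 e he.1) he.2) he.2.nonneg
  obtain ⟨δ, hδ, hδ'⟩ : ∃ δ : ℝ, 0 < δ ∧ Real.sqrt (δ * T) * n2 φ m ≤ ρ := by
    refine ⟨ρ ^ 2 / ((T + 1) * (n2 φ m + 1) ^ 2),
      div_pos (pow_pos hρ 2) (mul_pos (by linarith) (pow_pos (by linarith [n2_nonneg (τ := φ) m]) 2)),
      ?_⟩
    have hn := n2_nonneg (τ := φ) m
    calc Real.sqrt (ρ ^ 2 / ((T + 1) * (n2 φ m + 1) ^ 2) * T) * n2 φ m
        ≤ Real.sqrt ((ρ / (n2 φ m + 1)) ^ 2) * n2 φ m := by
          refine mul_le_mul_of_nonneg_right (Real.sqrt_le_sqrt ?_) hn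
          rw [div_pow, div_mul_eq_mul_div, div_le_div_iff₀ (by positivity) (by positivity)]
          nlinarith [mul_nonneg (sq_nonneg ρ) (sq_nonneg (n2 φ m + 1))]
      _ ≤ ρ := by
          rw [Real.sqrt_sq (by positivity), div_mul_eq_mul_div, div_le_iff₀ (by positivity)]
          nlinarith
  set k := star v * v with hkdef
  have hkA : k ∈ A := by
    have := h2 e he.1
    rwa [mul_assoc, hv.mul_left he.2] at this
  have hkc : Cor M e k := (hv.star' he.2).mul he.2 hv
  have hks : IsSelfAdjoint k := IsSelfAdjoint.star_mul_self v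
  obtain ⟨hpC, hp, -, hph⟩ := cut_above he.2 hkc hks hδ
  set p := spProj k δ with hpdef
  have hpA : p ∈ A := (isPr_spProj hkA δ).1
  have hpe : p * e = p := hpC.mul_right he.2
  set g : ℝ → ℝ := fun t => (Real.sqrt (max t δ))⁻¹ with hg
  set r : ℝ → ℝ := fun t => Real.sqrt (max t δ) with hr
  have hr0 : ∀ t, r t ≠ 0 := fun t => (Real.sqrt_pos.2 (lt_max_of_lt_right hδ)).ne'
  have hgc : Continuous g := Continuous.inv₀ (by fun_prop) hr0
  have hrc : Continuous r := by fun_prop
  set h := cfc g k with hhdef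
  set c := cfc r k with hcdef
  have hhA : h ∈ A := cfc_mem hkA g
  have hcA : c ∈ A := cfc_mem hkA r
  have hhs : star h = h := (cfc_predicate _ _ : IsSelfAdjoint (cfc g k)).star_eq
  have hhc : h * c = 1 := by
    rw [hhdef, hcdef, ← cfc_mul g r k hgc.continuousOn hrc.continuousOn, ← cfc_const_one ℝ k]
    exact cfc_congr fun t _ => inv_mul_cancel₀ (hr0 t)
  have hhkh : h * k * h * p = p := by
    set u := cfc (fun t : ℝ => max (δ - t) 0) k
    have hu : u * p = 0 := by
      refine mul_spProj_eq_zero ?_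
      rw [← cfc_mul _ _ k]
      conv_rhs => rw [← cfc_const_zero ℝ k]
      refine cfc_congr fun x _ => ?_
      rcases le_total x δ with h' | h' <;> simp [h']
    have hid : h * k * h = 1 - δ⁻¹ • u := by
      conv_lhs => arg 1; arg 2; rw [← cfc_id' ℝ k]
      rw [hhdef, ← cfc_mul g (fun t : ℝ => t) k hgc.continuousOn (by fun_prop),
        ← cfc_mul (fun t => g t * t) g k (hgc.continuousOn.mul continuousOn_id) hgc.continuousOn,
        ← cfc_smul δ⁻¹ (fun t : ℝ => max (δ - t) 0) k, ← cfc_const_one ℝ k,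
        ← cfc_sub _ _ k]
      refine cfc_congr fun t ht => ?_
      have ht0 : 0 ≤ t := spectrum_nonneg_of_nonneg (star_mul_self_nonneg v) ht
      have hsq : Real.sqrt (max t δ) * Real.sqrt (max t δ) = max t δ :=
        Real.mul_self_sqrt (ht0.trans (le_max_left _ _))
      show (Real.sqrt (max t δ))⁻¹ * t * (Real.sqrt (max t δ))⁻¹ = 1 - δ⁻¹ • max (δ - t) 0
      rw [mul_right_comm, ← mul_inv, hsq, smul_eq_mul]
      rcases le_total t δ with h' | h'
      · rw [max_eq_right h', max_eq_left (sub_nonneg.2 h'), mul_sub, inv_mul_cancel₀ hδ.ne']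
        ring
      · rw [max_eq_left h', max_eq_right (by linarith : δ - t ≤ 0),
          inv_mul_cancel₀ (hδ.trans_le h').ne']
        ring
    rw [hid, sub_mul, smul_mul_assoc, hu, smul_zero, sub_zero, one_mul]
  set w := v * (h * p) with hwdef
  have hhp : h * p ∈ A := mul_mem hhA hpA
  have hsw : star (h * p) = h * p := by
    rw [star_mul, hp.isSelfAdjoint.star_eq, hhs, hA.2.1 p hpA h hhA]
  have hww : star w * w = p := by
    rw [hwdef, star_mul, hsw]
    calc h * p * star v * (v * (h * p)) = h * (p * (k * h)) * p := by simp only [hkdef, mul_assoc]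
      _ = h * k * h * (p * p) := by
          rw [hA.2.1 p hpA _ (mul_mem hkA hhA)]
          simp only [mul_assoc]
      _ = p := by rw [hp.isIdempotentElem.eq, hhkh]
  have hwN : w ∈ normaliser M A := by
    refine ⟨mul_mem hv.1 (hA.1 _ hhp), ?_, fun a ha => ?_⟩
    · rw [mul_assoc, hww, hwdef, mul_assoc, mul_assoc h, hp.isIdempotentElem.eq]
    · rw [hwdef, star_mul, hsw]
      constructor
      · have := h1 _ (mul_mem (mul_mem hhp ha) hhp)
        simpa [mul_assoc] using this
      · have := mul_mem (mul_mem hhp (h2 a ha)) hhp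
        simpa [mul_assoc] using this
  have hcp : c * p ∈ A := mul_mem hcA hpA
  have hdec : w * (c * p) * star w * w = v * p := by
    rw [mul_assoc, hww, hwdef]
    calc v * (h * p) * (c * p) * p = v * (h * (p * c) * (p * p)) := by simp only [mul_assoc]
      _ = v * (h * c * (p * p)) := by
          rw [hA.2.1 p hpA c hcA, hp.isIdempotentElem.eq]
          simp only [mul_assoc, hp.isIdempotentElem.eq]
      _ = v * p := by rw [hhc, hp.isIdempotentElem.eq, one_mul]
  have hvp : Cor M e (v * p) := hv.mul he.2 hpC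
  have hmem : v * p ∈ normSpan M A e := Submodule.subset_span
    ⟨hvp.2, w * (c * p) * star w, (hwN.2.2 _ hcp).1, w, hwN, hdec.symm⟩
  have hq : IsStarProjection (e - p) := sub_proj he.2 hp hpe
  have hqp : (e - p) * p = 0 := by
    rw [sub_mul, hpC.mul_left he.2, hp.isIdempotentElem.eq, sub_self]
  have hd : Cor M e (v - v * p) := hv.sub hvp
  have hn : n2 φ (v - v * p) ≤ Real.sqrt (δ * T) := by
    refine Real.sqrt_le_sqrt ?_
    have e1 : v - v * p = v * (e - p) := by rw [mul_sub, hv.mul_right he.2]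
    rw [e1, star_mul, hq.isSelfAdjoint.star_eq,
      show (e - p) * star v * (v * (e - p)) = (e - p) * k * (e - p) by simp only [hkdef, mul_assoc]]
    have hqc : Cor M e (e - p) := (cor_proj (hA.1 e he.1) he.2).sub hpC
    have h3 := tr_mono he.2 hφ ((hqc.mul he.2 hkc).mul he.2 hqc) (hqc.rsmul δ) (hph _ hq hqp)
    rw [tr_rsmul, map_sub, Complex.sub_re] at h3
    nlinarith [tr_nonneg he.2 hφ hpC hp.nonneg]
  have e2 : φ (star v * m) = φ (star (v - v * p) * m) := by
    rw [star_sub, sub_mul, map_sub, hm.2 _ hmem, sub_zero]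
  rw [e2]
  exact (tr_cs he.2 hφ hd hm.1).trans
    ((mul_le_mul_of_nonneg_right hn (n2_nonneg _)).trans hδ')

variable (hC : State.CompleteStatement) (hD : State.DiagLimitStatement) (hR : RightStatement)
include hD

theorem exists_dens {m : H →L[ℂ] H} (hm : Cor M e m) : ∃ Φ, Dens M A e φ m Φ := by
  have h : ∀ B, ∃ a, Sub A e B → IsExp M A e φ (star m * B * m) a := fun B => by
    by_cases hB : Sub A e B
    · obtain ⟨a, ha, -⟩ := exists_exp hA he hφ hD
        (((hm.star' he.2).mul he.2 (sub_cor hA he hB)).mul he.2 hm)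
      exact ⟨a, fun _ => ha⟩
    · exact ⟨0, fun h => absurd h hB⟩
  choose Φ hΦ using h
  exact ⟨Φ, hm, hΦ⟩

include hC hR

/-- Orthogonality to the normaliser leaves no mass for the weighted densities. -/
theorem exists_small {m : H →L[ℂ] H} (hm : Orth.Perp M A e φ m)
    {Φ : (H →L[ℂ] H) → (H →L[ℂ] H)} (hΦ : Dens M A e φ (star m) Φ) {f₀ : ℝ} (hf₀ : 0 < f₀) :
    ∃ c : Cut A e, ∑ i, (φ (c.q i * (star m * Φ (c.q i) * m) * c.q i)).re < f₀ := by
  by_contra hno
  push Not at hno
  obtain ⟨ζ, c, p, hζ, hζA, hζθ, hζm, hp, hpn, hlim⟩ :=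
    one_side hA he hφ hC hR hΦ hf₀ fun c => by simpa using hno c
  have hζs := hζ.star' he.2
  obtain ⟨Ψ, hΨ⟩ := exists_dens hA he hφ hD hζs
  obtain ⟨a, ha, -⟩ := exists_exp hA he hφ hD (hζs.mul he.2 hζ)
  have ha0 : 0 < n2 φ a := by
    refine lt_of_not_ge fun h => ?_
    have h0 := eq_zero_of_n2 he.2 hφ ha.2.1 h
    have h1 := ha.2.2 1 (one_mem A)
    rw [h0, mul_zero, map_zero, one_mul] at h1
    rw [hφ.2.1 ζ hζ.1 hζ.2 h1.symm, star_zero, zero_mul, map_zero, Complex.zero_re] at hζm
    exact lt_irrefl _ hζm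
  have hlow : ∀ d : Cut A e, n2 φ a ^ 2 ≤
      ∑ i, (φ (d.q i * (star ζ * Ψ (d.q i) * star (star ζ)) * d.q i)).re := by
    intro d
    have haa := (ha.2.1.star' he.2).mul he.2 ha.2.1
    calc n2 φ a ^ 2 = ∑ i, n2 φ (d.q i * a) ^ 2 := by
          have key : ∀ i, n2 φ (d.q i * a) ^ 2 = (φ (d.q i * (star a * a))).re := fun i => by
            rw [n2_sq he.2 hφ (cor_bmul hA he (d.part.1 i).1 ha.2.1).1, star_mul, cut_star,
              mul_assoc, ← mul_assoc (d.q i), (d.part.1 i).2.isIdempotentElem.eq, ← mul_assoc,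
              ← hA.2.1 _ (d.part.1 i).1 _ (star_mem ha.1), mul_assoc]
          simp only [key]
          rw [← Complex.re_sum, ← map_sum, ← Finset.sum_mul, d.part.2.2, haa.mul_left he.2,
            n2_sq he.2 hφ ha.2.1]
      _ ≤ _ := Finset.sum_le_sum fun i _ => ?_
    set q := d.q i with hqdef
    have hqs : Sub A e q := cut_sub d i
    have hqA := hqs.1.1
    have hqc := sub_cor hA he hqs
    have hqq : q * q = q := hqs.1.2.isIdempotentElem.eq
    have hqstar : star q = q := hqs.1.2.isSelfAdjoint.star_eq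
    have hx : Cor M e (ζ * q * star ζ) := (hζ.mul he.2 hqc).mul he.2 hζs
    have hΨq : Ψ q = ζ * q * star ζ := by
      refine IsExp.unique hA he hφ (hΨ.exp q hqs) ?_
      rw [star_star]
      exact isExp_self hA he (hζA q hqA) hx
    set k := star ζ * ζ with hk
    have hkc : Cor M e k := hζs.mul he.2 hζ
    have hz : Cor M e (q * k * q) := (hqc.mul he.2 hkc).mul he.2 hqc
    have hqa : Cor M e (q * a) := (cor_bmul hA he hqA ha.2.1).1
    have hsize : n2 φ (q * k * q) ^ 2 = (φ (q * (star ζ * Ψ q * star (star ζ)) * q)).re := by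
      rw [n2_sq he.2 hφ hz, hΨq]
      congr 2
      simp only [hk, star_mul, star_star, hqstar, mul_assoc]
      simp only [← mul_assoc q q, hqq]
    rw [← hsize]
    have hinner : φ (star (q * a) * (q * k * q)) = φ (star (q * a) * (q * a)) := by
      have hsa : star a * q ∈ A := mul_mem (star_mem ha.1) hqA
      have el : φ (star (q * a) * (q * k * q)) = φ (q * (star a * q * k)) := by
        have hX := (cor_bmul hA he hsa hkc).1
        rw [tr_bcomm hφ hqA hX, star_mul, hqstar]
        congr 1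
        simp only [← mul_assoc]
        rw [mul_assoc (star a) q q, hqq]
      rw [el, ← mul_assoc, ← ha.2.2 _ (mul_mem hqA hsa), star_mul, hqstar]
      congr 1
      rw [← mul_assoc q (star a), hA.2.1 q hqA _ (star_mem ha.1), ← mul_assoc, mul_assoc (star a),
        hqq]
    have hcs := abs_re_cs he.2 hφ hqa hz
    rw [hinner, ← n2_sq he.2 hφ hqa, abs_of_nonneg (sq_nonneg _)] at hcs
    rcases (n2_nonneg (τ := φ) (q * a)).eq_or_lt with h | h
    · rw [← h]; simp only [ne_eq, OfNat.ofNat_ne_zero, not_false_eq_true, zero_pow]; positivity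
    · exact pow_le_pow_left₀ (n2_nonneg _) (by nlinarith) 2
  obtain ⟨η, d, p', hη, hηA, -, hηζ, hp', hpn', hlim'⟩ :=
    one_side hA he hφ hC hR hΨ (pow_pos ha0 2) hlow
  set S : ℕ → (H →L[ℂ] H) := fun n => sel (star ζ) (d n) (p' n) with hS
  have hSc : ∀ n, Cor M e (S n) := fun n => cor_sel hA he hζs _ (hp' n)
  -- the second operator intertwines on the other side as well
  have hright : ∀ R, Sub A e R → ∃ T, Sub A e T ∧ η * R = T * η := fun R hRs => by
    obtain ⟨T, hT, hTR⟩ := hζθ R hRs
    refine ⟨T, hT, ?_⟩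
    have hTR' : star ζ * R = T * star ζ := by
      simpa [star_mul, hRs.1.2.isSelfAdjoint.star_eq, hT.1.2.isSelfAdjoint.star_eq] using
        congrArg star hTR
    have heq : ∀ n, S n * R = T * S n := fun n => by
      simp only [hS, sel, Finset.sum_mul, Finset.mul_sum]
      refine Finset.sum_congr rfl fun i _ => ?_
      calc (d n).q i * star ζ * p' n i * R = (d n).q i * (star ζ * R) * p' n i := by
            rw [mul_assoc ((d n).q i * star ζ), hA.2.1 _ (hp' n i).1.1 R hRs.1.1]
            simp only [mul_assoc]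
        _ = T * ((d n).q i * star ζ * p' n i) := by
            rw [hTR', ← mul_assoc, hA.2.1 _ ((d n).part.1 i).1 T hT.1.1]
            simp only [mul_assoc]
    have hTc := sub_cor hA he hT
    have hRc := sub_cor hA he hRs
    refine n2_limit_unique he.2 hφ (T := fun n => S n * R) (fun n => (hSc n).mul he.2 hRc)
      (hη.mul he.2 hRc) (hTc.mul he.2 hη) ?_ ?_
    · refine squeeze_zero (fun n => n2_nonneg _) (fun n => ?_)
        (by simpa using hlim'.const_mul ‖R‖)
      rw [← sub_mul]
      exact n2_bright hA he hφ hRs.1.1 ((hSc n).sub hη)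
    · refine squeeze_zero (fun n => n2_nonneg _) (fun n => ?_)
        (by simpa using hlim'.const_mul ‖T‖)
      rw [heq n, ← mul_sub]
      exact n2_mul_le he.2 hφ (hTc.mul he.2 ((hSc n).sub hη)) ((hSc n).sub hη)
  have h1 : ∀ b ∈ A, star η * b * η ∈ A := by
    intro b hb
    have hX : Cor M e (star η * b * η) := by
      rw [mul_assoc]; exact (hη.star' he.2).mul he.2 (cor_bmul hA he hb hη).1
    refine hA.2.2 _ hX.1 fun z hz => commute_of_proj hA.2.1 (fun P hP => ?_) hz
    have hRs : Sub A e (P * e) := sub_mul' hA he hP ⟨he, he.2.isIdempotentElem.eq⟩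
    obtain ⟨T, hT, hk⟩ := hright _ hRs
    have hk' : P * e * star η = star η * T := by
      have h := congrArg star hk
      rw [star_mul η (P * e), star_mul T η, hRs.1.2.isSelfAdjoint.star_eq,
        hT.1.2.isSelfAdjoint.star_eq] at h
      exact h
    calc P * (star η * b * η) = P * e * (star η * b * η) := by
          rw [mul_assoc P e, hX.mul_left he.2]
      _ = star η * (T * b) * η := by rw [← mul_assoc, ← mul_assoc, hk', mul_assoc (star η)]
      _ = star η * (b * T) * η := by rw [hA.2.1 T hT.1.1 b hb]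
      _ = star η * b * η * (P * e) := by
          rw [mul_assoc (star η * b) η, hk]; simp only [mul_assoc]
      _ = star η * b * η * P := by
          rw [hA.2.1 P hP.1 e he.1, ← mul_assoc, hX.mul_right he.2]
  set T' : ℕ → (H →L[ℂ] H) := fun n => sel (star m) (c n) (p n) with hT'
  have hTc : ∀ n, Cor M e (T' n) := fun n => cor_sel hA he (hm.1.star' he.2) _ (hp n)
  have hzero : ∀ n, φ (T' n * η) = 0 := fun n => by
    simp only [hT', sel, Finset.sum_mul, map_sum]
    refine Finset.sum_eq_zero fun i _ => ?_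
    set q := (c n).q i
    set P := p n i
    have hqA : q ∈ A := ((c n).part.1 i).1
    have hPA : P ∈ A := (hp n i).1.1
    have hqs : star q = q := ((c n).part.1 i).2.isSelfAdjoint.star_eq
    have hPs : star P = P := (hp n i).1.2.isSelfAdjoint.star_eq
    set v := P * η * q with hv
    have hvc : Cor M e v := (cor_bmul hA he hqA (cor_bmul hA he hPA hη).1).2
    have hperp : φ (star v * m) = 0 := by
      refine perp_two_sided hA he hφ hm hvc (fun b hb => ?_) (fun b hb => ?_)
      · have := mul_mem (mul_mem hPA (hηA _ (mul_mem (mul_mem hqA hb) hqA))) hPA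
        simpa [hv, star_mul, hqs, hPs, mul_assoc] using this
      · have := mul_mem (mul_mem hqA (h1 _ (mul_mem (mul_mem hPA hb) hPA))) hqA
        simpa [hv, star_mul, hqs, hPs, mul_assoc] using this
    have hX : Cor M e (star m * (P * η)) := (hm.1.star' he.2).mul he.2 (cor_bmul hA he hPA hη).1
    have e1 : φ (q * star m * P * η) = φ (star m * v) := by
      rw [show q * star m * P * η = q * (star m * (P * η)) by simp only [mul_assoc],
        tr_bcomm hφ hqA hX, hv]
      simp only [mul_assoc]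
    have h2 := tr_star he.2 hφ (hA.1 e he.1) ((hvc.star' he.2).mul he.2 hm.1)
    rw [hperp, map_zero, star_mul, star_star] at h2
    rw [e1, h2]
  have hlimz : φ (ζ * η) = 0 := by
    refine norm_le_zero_iff.1 (le_of_forall_gt_imp_ge_of_dense fun ρ hρ => ?_)
    have hee := cor_proj (hA.1 e he.1) he.2
    obtain ⟨δ, hδ, hsmall⟩ := hR H M A e φ hA he.1 he.2 hφ η hη (‖star m‖ + ‖ζ‖)
      (ρ / (n2 φ e + 1)) (by have := n2_nonneg (τ := φ) e; positivity)
    obtain ⟨n, hn⟩ := (hlim.eventually_lt_const hδ).exists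
    have hd := (hTc n).sub hζ
    have hy := hsmall _ hd ((norm_sub_le _ _).trans (add_le_add (hpn n) le_rfl)) hn.le
    have hcs := tr_cs he.2 hφ hee (hd.mul he.2 hη)
    rw [he.2.isSelfAdjoint.star_eq, (hd.mul he.2 hη).mul_left he.2] at hcs
    have e1 : φ (ζ * η) = -φ ((T' n - ζ) * η) := by rw [sub_mul, map_sub, hzero n]; ring
    rw [e1, norm_neg]
    refine hcs.trans ((mul_le_mul_of_nonneg_left hy (n2_nonneg _)).trans ?_)
    have := n2_nonneg (τ := φ) e
    rw [mul_div_assoc', div_le_iff₀ (by positivity)]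
    nlinarith
  have hfin := tr_star he.2 hφ (hA.1 e he.1) (hζ.mul he.2 hη)
  rw [hlimz, map_zero, star_mul] at hfin
  rw [hfin, Complex.zero_re] at hηζ
  exact lt_irrefl _ hηζ

omit hC hD hR in
/-- The block sum of a cut is controlled by the pinched conjugates of the cells of any cut which it
refines. -/
theorem block4_le {m : H →L[ℂ] H} (hm : Cor M e m) {Q c : Cut A e} (h : Q.Refines c) :
    block4 φ m c ≤ ∑ B, (φ (Q.q B * (star m * MKS.pinch c.q (m * Q.q B * star m) * m))).re := by
  have hms := hm.star' he.2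
  have hq : ∀ i, Cor M e (c.q i) := fun i => sub_cor hA he (cut_sub c i)
  have hQc : ∀ B, Cor M e (Q.q B) := fun B => sub_cor hA he (cut_sub Q B)
  set Z : Fin Q.n → (H →L[ℂ] H) := fun B => star m * MKS.pinch c.q (m * Q.q B * star m) * m
    with hZdef
  have hZ : ∀ B, Cor M e (Z B) ∧ 0 ≤ Z B := fun B => by
    refine ⟨(hms.mul he.2 (cor_pinch hA he hφ c.part
      ((hm.mul he.2 (hQc B)).mul he.2 hms).1)).mul he.2 hm, ?_⟩
    refine star_left_conjugate_nonneg (Finset.sum_nonneg fun i _ => ?_) m
    refine Singular.conj_proj_nonneg (c.part.1 i).2 ?_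
    have := star_left_conjugate_nonneg (Q.part.1 B).2.nonneg (star m)
    rwa [star_star] at this
  have hb : block4 φ m c =
      ∑ j, (φ (∑ i, c.q j * star m * c.q i * m * c.q j * star m * c.q i * m * c.q j)).re := by
    rw [block4, ← Complex.re_sum, ← map_sum, Finset.sum_comm, map_sum, Complex.re_sum]
    refine Finset.sum_congr rfl fun i _ => ?_
    rw [n2_sq he.2 hφ (cor_pinch hA he hφ c.part ((hms.mul he.2 (hq i)).mul he.2 hm).1)]
    congr 2
    simp only [MKS.pinch, star_sum, star_mul, star_star, cut_star, Finset.sum_mul, Finset.mul_sum]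
    refine Finset.sum_congr rfl fun j _ => ?_
    rw [Finset.sum_eq_single j]
    · simp only [mul_assoc]
      simp only [← mul_assoc (c.q j) (c.q j), (c.part.1 j).2.isIdempotentElem.eq]
    · intro l _ hl
      simp only [mul_assoc]
      simp only [← mul_assoc (c.q l) (c.q j), c.part.2.1 l j hl, zero_mul, mul_zero]
    · simp
  have hterm : ∀ j, (φ (∑ i, c.q j * star m * c.q i * m * c.q j * star m * c.q i * m * c.q j)).re ≤
      ∑ B, (φ (c.q j * Q.q B * Z B)).re := by
    intro j
    have hpos : ∀ B, 0 ≤ (φ (c.q j * Q.q B * Z B)).re := fun B => by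
      have hs : Sub A e (c.q j * Q.q B) := sub_mul' hA he (c.part.1 j) (cut_sub Q B)
      rw [← tr_conj hA he hφ hs (hZ B).1]
      exact tr_nonneg he.2 hφ (((sub_cor hA he hs).mul he.2 (hZ B).1).mul he.2 (sub_cor hA he hs))
        (Singular.conj_proj_nonneg hs.1.2 (hZ B).2)
    rcases h j with h0 | ⟨B, hB⟩
    · simp only [h0, zero_mul, Finset.sum_const_zero, map_zero, Complex.zero_re]
      simp
    refine le_trans ?_ (Finset.single_le_sum (fun B' _ => hpos B') (Finset.mem_univ B))
    rw [hB, ← tr_conj hA he hφ (cut_sub c j) (hZ B).1]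
    refine tr_mono he.2 hφ (Cor.sum _ fun i _ =>
      (((((((hq j).mul he.2 hms).mul he.2 (hq i)).mul he.2 hm).mul he.2 (hq j)).mul he.2
        hms).mul he.2 (hq i)).mul he.2 hm |>.mul he.2 (hq j))
      (((hq j).mul he.2 (hZ B).1).mul he.2 (hq j)) ?_
    have hle : c.q j ≤ Q.q B := sub_nonneg.1 (sub_proj (Q.part.1 B).2 (c.part.1 j).2 hB).nonneg
    have e1 : c.q j * Z B * c.q j =
        ∑ i, star (c.q i * m * c.q j) * (m * Q.q B * star m) * (c.q i * m * c.q j) := by
      simp only [hZdef, MKS.pinch, Finset.mul_sum, Finset.sum_mul, star_mul, cut_star, mul_assoc]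
    rw [e1]
    refine Finset.sum_le_sum fun i _ => ?_
    have h2 := conj_le (conj_le hle (star m)) (c.q i * m * c.q j)
    rw [star_star] at h2
    refine le_trans (le_of_eq ?_) h2
    simp only [star_mul, cut_star, mul_assoc]
  rw [hb]
  refine (Finset.sum_le_sum fun j _ => hterm j).trans (le_of_eq ?_)
  rw [Finset.sum_comm]
  refine Finset.sum_congr rfl fun B _ => ?_
  rw [← Complex.re_sum, ← map_sum, ← Finset.sum_mul, ← Finset.sum_mul, c.part.2.2,
    (hQc B).mul_left he.2]

theorem diag_and_block {m : H →L[ℂ] H} (hm : Orth.Perp M A e φ m) :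
    Tendsto (fun c : Cut A e => diag2 φ m c) (fine A e) (𝓝 0) ∧
      Tendsto (fun c : Cut A e => block4 φ m c) (fine A e) (𝓝 0) := by
  constructor
  · obtain ⟨a, ha, hlim⟩ := exists_exp hA he hφ hD hm.1
    have h0 : a = 0 := by
      refine eq_zero_of_n2 he.2 hφ ha.2.1 ?_
      have h1 := ha.2.2 _ (star_mem ha.1)
      rw [hm.2 a (alg_mem_normSpan ha.1 ha.2.1.2)] at h1
      rw [n2, h1, Complex.zero_re, Real.sqrt_zero]
    rw [h0] at hlim
    simp only [sub_zero] at hlim
    have h2 := hlim.pow 2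
    rw [show (0 : ℝ) ^ 2 = 0 by norm_num] at h2
    exact h2
  · have hm' := hm.1.star' he.2
    obtain ⟨Φ, hΦ⟩ := exists_dens hA he hφ hD hm'
    refine Metric.tendsto_nhds.2 fun ρ hρ => ?_
    obtain ⟨Q, hQ⟩ := exists_small hA he hφ hC hD hR hm hΦ hρ
    have hj : ∀ B, Tendsto
        (fun c : Cut A e => (φ (Q.q B * (star m * MKS.pinch c.q (m * Q.q B * star m) * m))).re)
        (fine A e) (𝓝 (φ (Q.q B * (star m * Φ (Q.q B) * m) * Q.q B)).re) := fun B => by
      have hQs := cut_sub Q B
      have hQB := sub_cor hA he hQs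
      have hY : Cor M e (m * Q.q B * star m) := (hm.1.mul he.2 hQB).mul he.2 hm'
      obtain ⟨a, ha, hlim⟩ := exists_exp hA he hφ hD hY
      have hΦB : Φ (Q.q B) = a := by
        refine IsExp.unique hA he hφ (hΦ.exp _ hQs) ?_
        rwa [star_star]
      rw [hΦB, tr_conj hA he hφ hQs ((hm'.mul he.2 ha.2.1).mul he.2 hm.1)]
      refine (Complex.continuous_re.tendsto _).comp (Metric.tendsto_nhds.2 fun ε hε => ?_)
      set w := m * Q.q B with hw
      have hwc : Cor M e w := hm.1.mul he.2 hQB
      obtain ⟨δ, hδ, hsmall⟩ := hR H M A e φ hA he.1 he.2 hφ w hwc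
        (‖m * Q.q B * star m‖ + ‖a‖) (ε / (2 * (n2 φ w + 1)))
        (by have := n2_nonneg (τ := φ) w; positivity)
      filter_upwards [hlim.eventually_lt_const hδ] with c hc
      have hS : Cor M e (MKS.pinch c.q (m * Q.q B * star m)) := cor_pinch hA he hφ c.part hY.1
      have hd := hS.sub ha.2.1
      have hy := hsmall _ hd ((norm_sub_le _ _).trans
        (add_le_add (Orth.DiagLimit.norm_pinch_le he.1 he.2 c.part hY) le_rfl)) hc.le
      rw [dist_eq_norm, ← map_sub, ← mul_sub, ← sub_mul, ← mul_sub]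
      set D := MKS.pinch c.q (m * Q.q B * star m) - a
      rw [← tr_conj hA he hφ hQs ((hm'.mul he.2 hd).mul he.2 hm.1)]
      have e1 : Q.q B * (star m * D * m) * Q.q B = star w * (D * w) := by
        simp only [hw, star_mul, cut_star, mul_assoc]
      rw [e1]
      refine ((tr_cs he.2 hφ hwc (hd.mul he.2 hwc)).trans
        (mul_le_mul_of_nonneg_left hy (n2_nonneg _))).trans_lt ?_
      have := n2_nonneg (τ := φ) w
      rw [mul_div_assoc', div_lt_iff₀ (by positivity)]
      nlinarith
    have hev := (tendsto_finsetSum Finset.univ fun B _ => hj B).eventually_lt_const hQ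
    filter_upwards [hev, Orth.eventually_refines hA he.1 he.2 Q] with c hc hr
    rw [Real.dist_eq, sub_zero, abs_of_nonneg (Finset.sum_nonneg fun i _ => sq_nonneg _)]
    exact (block4_le hA he hφ hm.1 hr).trans_lt hc

end Atom

open Atom in
/-- Operators orthogonal to the normaliser have no atoms for a state. -/
theorem atom_ok (hC : CompleteStatement) (hD : DiagLimitStatement) (hR : RightStatement) :
    AtomStatement := by
  intro H _ _ _ M A e φ hA heA he hφ m hm
  exact diag_and_block hA ⟨heA, he⟩ hφ hC hD hR hm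

end Vale.Agent.P078.State
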