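import Vale.Agent.P078.Orth.Avg
import Vale.Agent.P078.State.So

/-!
Random operators in a corner with a state: the averaged 2-norm, random operators by which one may
multiply from the right, and approximation in the averaged 2-norm.
-/

namespace Vale.Agent.P078.State

open Filter Topology MKS Singular
open Orth (Rand cst Good nr etr Cut fine avg)

set_option linter.unusedSectionVars false

variable {H : Type} [NormedAddCommGroup H] [InnerProductSpace ℂ H] [CompleteSpace H]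
variable {M A : VonNeumannAlgebra H} {e : H →L[ℂ] H} {φ : (H →L[ℂ] H) →ₗ[ℂ] ℂ}
variable {L : Type} [Fintype L] {μ : L → ℝ}

/-- The standing hypotheses. -/
structure Setting (M A : VonNeumannAlgebra H) (e : H →L[ℂ] H)
    (φ : (H →L[ℂ] H) →ₗ[ℂ] ℂ) (μ : L → ℝ) : Prop where
  hA : IsMASA M A
  heA : e ∈ A
  he : IsStarProjection e
  hS : IsState M A e φ
  pos : ∀ l, 0 ≤ μ l
  sum : ∑ l, μ l = 1

theorem wt_nonneg (S : Setting M A e φ μ) {n : ℕ} (ω : Fin n → L) : 0 ≤ Orth.wt μ ω :=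
  Finset.prod_nonneg fun i _ => S.pos _

theorem sum_wt (S : Setting M A e φ μ) (n : ℕ) : ∑ ω : Fin n → L, Orth.wt μ ω = 1 := by
  classical
  simp only [Orth.wt]
  rw [← Fintype.prod_sum fun (_ : Fin n) l => μ l]
  simp [S.sum]

theorem cor_e (S : Setting M A e φ μ) : Cor M e e := cor_proj (S.hA.1 e S.heA) S.he

section Avg

variable {n : ℕ} {E : Type} [AddCommGroup E] [Module ℝ E]

theorem avg_const (S : Setting M A e φ μ) (x : E) : avg μ (fun _ : Fin n → L => x) = x := by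
  rw [Orth.avg_eq, ← Finset.sum_smul, sum_wt S, one_smul]

theorem avg_mono (S : Setting M A e φ μ) {g g' : (Fin n → L) → ℝ} (h : ∀ ω, g ω ≤ g' ω) :
    avg μ g ≤ avg μ g' := by
  simp only [Orth.avg_eq, smul_eq_mul]
  exact Finset.sum_le_sum fun ω _ => mul_le_mul_of_nonneg_left (h ω) (wt_nonneg S ω)

theorem avg_mul_le (S : Setting M A e φ μ) (a b : (Fin n → L) → ℝ) :
    (avg μ fun ω => a ω * b ω) ≤
      Real.sqrt (avg μ fun ω => a ω ^ 2) * Real.sqrt (avg μ fun ω => b ω ^ 2) := by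
  simp only [Orth.avg_eq, smul_eq_mul]
  have h : ∀ (u : (Fin n → L) → ℝ), ∑ ω, Orth.wt μ ω * u ω ^ 2 = ∑ ω, (Real.sqrt (Orth.wt μ ω) * u ω) ^ 2 :=
    fun u => Finset.sum_congr rfl fun ω _ => by rw [mul_pow, Real.sq_sqrt (wt_nonneg S ω)]
  have h' : ∑ ω, Orth.wt μ ω * (a ω * b ω) =
      ∑ ω, (Real.sqrt (Orth.wt μ ω) * a ω) * (Real.sqrt (Orth.wt μ ω) * b ω) :=
    Finset.sum_congr rfl fun ω _ => by
      rw [mul_mul_mul_comm, Real.mul_self_sqrt (wt_nonneg S ω)]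
  rw [h a, h b, h', ← Real.sqrt_mul (Finset.sum_nonneg fun _ _ => sq_nonneg _)]
  exact (le_abs_self _).trans (Real.abs_le_sqrt (Finset.sum_mul_sq_le_sq_mul_sq _ _ _))

end Avg

/-! ### The averaged 2-norm -/

theorem nr_sq (S : Setting M A e φ μ) (F : Rand A e L) (c : Cut A e) :
    nr φ μ F c ^ 2 = avg μ fun ω => n2 φ (F c ω) ^ 2 :=
  Real.sq_sqrt ((avg_mono S fun ω => sq_nonneg _).trans' (by rw [avg_const S]))

theorem nr_zero (c : Cut A e) : nr φ μ (0 : Rand A e L) c = 0 := by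
  simp [nr, n2, Orth.avg_eq]

theorem nr_neg (F : Rand A e L) (c : Cut A e) : nr φ μ (-F) c = nr φ μ F c := by
  simp [nr, n2, Orth.avg_eq]

theorem nr_sub_comm (F G : Rand A e L) (c : Cut A e) : nr φ μ (F - G) c = nr φ μ (G - F) c := by
  rw [← nr_neg, neg_sub]

theorem nr_cst (S : Setting M A e φ μ) (x : H →L[ℂ] H) (c : Cut A e) :
    nr φ μ (cst x) c = n2 φ x := by
  simp only [nr, cst, avg_const S, Real.sqrt_sq (n2_nonneg x)]

theorem nr_add_le (S : Setting M A e φ μ) {F G : Rand A e L} (hF : Good M F) (hG : Good M G)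
    (c : Cut A e) : nr φ μ (F + G) c ≤ nr φ μ F c + nr φ μ G c := by
  obtain ⟨_, _, hF⟩ := hF
  obtain ⟨_, _, hG⟩ := hG
  refine (sq_le_sq₀ (Orth.nr_nonneg _ _) (add_nonneg (Orth.nr_nonneg _ _) (Orth.nr_nonneg _ _))).1 ?_
  rw [nr_sq S, add_sq, nr_sq S, nr_sq S]
  refine (avg_mono S fun ω => pow_le_pow_left₀ (n2_nonneg _)
    (n2_add_le S.hS S.he (hF c ω).1 (hG c ω).1) 2).trans ?_
  simp only [add_sq, Orth.avg_add, mul_assoc]
  have h := avg_mul_le S (fun ω => n2 φ (F c ω)) fun ω => n2 φ (G c ω)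
  have h2 : (avg μ fun ω => 2 * (n2 φ (F c ω) * n2 φ (G c ω))) =
      2 * avg μ fun ω => n2 φ (F c ω) * n2 φ (G c ω) := by
    simp only [Orth.avg_eq, smul_eq_mul, Finset.mul_sum, mul_left_comm]
  rw [h2]
  simp only [nr]
  linarith

theorem nr_sum_le (S : Setting M A e φ μ) {ι : Type*} (s : Finset ι) {F : ι → Rand A e L}
    (h : ∀ i ∈ s, Good M (F i)) (c : Cut A e) :
    nr φ μ (∑ i ∈ s, F i) c ≤ ∑ i ∈ s, nr φ μ (F i) c := by
  classical
  induction s using Finset.induction_on with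
  | empty => simp [nr_zero]
  | insert i s hi ih =>
    rw [Finset.sum_insert hi, Finset.sum_insert hi]
    exact (nr_add_le S (h i (Finset.mem_insert_self i s))
      (Good.sum s fun j hj => h j (Finset.mem_insert_of_mem hj)) c).trans
      (add_le_add le_rfl (ih fun j hj => h j (Finset.mem_insert_of_mem hj)))

theorem nr_le_of (S : Setting M A e φ μ) {F G : Rand A e L} {C : ℝ} (hC : 0 ≤ C) (c : Cut A e)
    (h : ∀ ω, n2 φ (F c ω) ≤ C * n2 φ (G c ω)) : nr φ μ F c ≤ C * nr φ μ G c := by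
  refine (sq_le_sq₀ (Orth.nr_nonneg _ _) (mul_nonneg hC (Orth.nr_nonneg _ _))).1 ?_
  rw [nr_sq S, mul_pow, nr_sq S, Orth.avg_eq, Orth.avg_eq, Finset.mul_sum]
  refine Finset.sum_le_sum fun ω _ => ?_
  rw [smul_eq_mul, smul_eq_mul, ← mul_assoc (C ^ 2), mul_comm (C ^ 2), mul_assoc, ← mul_pow]
  exact mul_le_mul_of_nonneg_left (pow_le_pow_left₀ (n2_nonneg _) (h ω) 2) (wt_nonneg S ω)

theorem nr_mul_le (S : Setting M A e φ μ) {F G : Rand A e L} {C : ℝ} (hC : 0 ≤ C)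
    (hF : ∀ c ω, Cor M e (F c ω) ∧ ‖F c ω‖ ≤ C) (hG : Good M G) (c : Cut A e) :
    nr φ μ (F * G) c ≤ C * nr φ μ G c := by
  obtain ⟨_, _, hG⟩ := hG
  exact nr_le_of S hC c fun ω =>
    (n2_mul_le S.hS S.he ((hF c ω).1.mul S.he (hG c ω).1) (hG c ω).1).trans
      (mul_le_mul_of_nonneg_right (hF c ω).2 (n2_nonneg _))

/-- Right multiplication by bounded random elements of `A` is bounded. -/
theorem nr_mul_mem_le (S : Setting M A e φ μ) {F G : Rand A e L} {C : ℝ} (hC : 0 ≤ C)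
    (hF : Good M F) (hG : ∀ c ω, G c ω ∈ A ∧ ‖G c ω‖ ≤ C) (c : Cut A e) :
    nr φ μ (F * G) c ≤ C * nr φ μ F c := by
  obtain ⟨_, _, hF⟩ := hF
  exact nr_le_of S hC c fun ω =>
    (n2_mul_mem_le S.hS S.he S.hA S.heA (hF c ω).1 (hG c ω).1).trans
      (mul_le_mul_of_nonneg_right (hG c ω).2 (n2_nonneg _))

theorem n2_le_norm (S : Setting M A e φ μ) {x : H →L[ℂ] H} (hx : Cor M e x) :
    n2 φ x ≤ ‖x‖ * n2 φ e := by
  have h := n2_mul_le S.hS S.he (g := x) (by rwa [hx.mul_right S.he]) (cor_e S)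
  rwa [hx.mul_right S.he] at h

theorem nr_le_bound (S : Setting M A e φ μ) {F : Rand A e L} {C : ℝ} (hC : 0 ≤ C)
    (hF : ∀ c ω, Cor M e (F c ω) ∧ ‖F c ω‖ ≤ C) (c : Cut A e) : nr φ μ F c ≤ C * n2 φ e := by
  have h := nr_le_of S hC c (F := F) (G := cst e) fun ω => (n2_le_norm S (hF c ω).1).trans
    (mul_le_mul_of_nonneg_right (hF c ω).2 (n2_nonneg _))
  rwa [nr_cst S] at h

/-- The Cauchy–Schwarz inequality for averaged values. -/
theorem norm_etr_le (S : Setting M A e φ μ) {F G : Rand A e L} (hF : Good M F) (hG : Good M G)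
    (c : Cut A e) : ‖etr φ μ (star F * G) c‖ ≤ nr φ μ F c * nr φ μ G c := by
  obtain ⟨_, _, hF⟩ := hF
  obtain ⟨_, _, hG⟩ := hG
  refine le_trans ?_ (avg_mul_le S (fun ω => n2 φ (F c ω)) fun ω => n2 φ (G c ω))
  simp only [etr, Orth.avg_eq, smul_eq_mul, Pi.mul_apply, Pi.star_apply]
  refine (norm_sum_le _ _).trans (Finset.sum_le_sum fun ω _ => ?_)
  rw [norm_smul, Real.norm_of_nonneg (wt_nonneg S ω)]
  exact mul_le_mul_of_nonneg_left (norm_inner_le S.hS S.he (hF c ω).1 (hG c ω).1) (wt_nonneg S ω)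

theorem norm_etr_mul_le (S : Setting M A e φ μ) {F G : Rand A e L} (hF : Good M F) (hG : Good M G)
    (c : Cut A e) : ‖etr φ μ (F * G) c‖ ≤ nr φ μ (star F) c * nr φ μ G c := by
  simpa using norm_etr_le S (Good.star' S.he hF) hG c

theorem etr_star_self (S : Setting M A e φ μ) {F : Rand A e L} (hF : Good M F) (c : Cut A e) :
    (etr φ μ (star F * F) c).re = nr φ μ F c ^ 2 := by
  obtain ⟨_, _, hF⟩ := hF
  rw [nr_sq S]
  simp only [etr, Orth.avg_eq, Complex.re_sum, Complex.smul_re]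
  exact Finset.sum_congr rfl fun ω _ => by rw [n2_sq S.hS S.he (hF c ω).1]; rfl

theorem re_etr_comm (S : Setting M A e φ μ) {F G : Rand A e L} (hF : Good M F) (hG : Good M G)
    (c : Cut A e) : (etr φ μ (star G * F) c).re = (etr φ μ (star F * G) c).re := by
  obtain ⟨_, _, hF⟩ := hF
  obtain ⟨_, _, hG⟩ := hG
  simp only [etr, Orth.avg_eq, Complex.re_sum, Complex.smul_re, Pi.mul_apply, Pi.star_apply]
  exact Finset.sum_congr rfl fun ω _ => by rw [re_comm S.hS S.he (hF c ω).1 (hG c ω).1]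

theorem etr_star (S : Setting M A e φ μ) {F : Rand A e L} (hF : Good M F) (c : Cut A e) :
    etr φ μ (star F) c = star (etr φ μ F c) := by
  obtain ⟨_, _, hF⟩ := hF
  simp only [etr, Orth.avg_eq, star_sum, star_smul, star_trivial, Pi.star_apply]
  exact Finset.sum_congr rfl fun ω _ => by
    rw [tr_star S.hS S.he (S.hA.1 e S.heA) (hF c ω).1]

theorem norm_etr_le_one (S : Setting M A e φ μ) {G : Rand A e L} (hG : Good M G) (c : Cut A e) :
    ‖etr φ μ G c‖ ≤ n2 φ e * nr φ μ G c := by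
  have h := norm_etr_le S (Orth.good_cst (A := A) (L := L) (cor_e S)) hG c
  rw [nr_cst S] at h
  convert h using 3
  obtain ⟨_, _, hG⟩ := hG
  funext c ω
  simp only [Pi.mul_apply, Pi.star_apply, cst, S.he.isSelfAdjoint.star_eq,
    (hG c ω).1.mul_left S.he]

/-! ### Multipliers from the right -/

/-- Right multiplication by the values of `F` is continuous for the 2-norm on bounded sets,
uniformly in the cut and the labels. -/
def RC (M : VonNeumannAlgebra H) (φ : (H →L[ℂ] H) →ₗ[ℂ] ℂ) {A : VonNeumannAlgebra H}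
    {e : H →L[ℂ] H} {L : Type} (F : Rand A e L) : Prop :=
  ∀ C η : ℝ, 0 < η → ∃ δ : ℝ, 0 < δ ∧ ∀ c ω y,
    Cor M e y → ‖y‖ ≤ C → n2 φ y ≤ δ → n2 φ (y * F c ω) ≤ η

/-- Bounded random elements of the corner by which, and by whose adjoints, one may multiply from
the right. -/
def GoodR (M : VonNeumannAlgebra H) (φ : (H →L[ℂ] H) →ₗ[ℂ] ℂ) {A : VonNeumannAlgebra H}
    {e : H →L[ℂ] H} {L : Type} (F : Rand A e L) : Prop :=
  Good M F ∧ RC M φ F ∧ RC M φ (star F)

theorem GoodR.good {F : Rand A e L} (h : GoodR M φ F) : Good M F := h.1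

theorem rc_zero : RC M φ (0 : Rand A e L) := fun _ η hη =>
  ⟨1, one_pos, fun _ _ y _ _ _ => by simpa [n2] using hη.le⟩

theorem GoodR.zero : GoodR M φ (0 : Rand A e L) :=
  ⟨Good.zero, rc_zero, by rw [star_zero]; exact rc_zero⟩

theorem rc_add (S : Setting M A e φ μ) {F G : Rand A e L} (hF : Good M F) (hG : Good M G)
    (h : RC M φ F) (h' : RC M φ G) : RC M φ (F + G) := by
  obtain ⟨_, _, hF⟩ := hF
  obtain ⟨_, _, hG⟩ := hG
  intro C η hη
  obtain ⟨δ, hδ, h⟩ := h C (η / 2) (half_pos hη)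
  obtain ⟨δ', hδ', h'⟩ := h' C (η / 2) (half_pos hη)
  refine ⟨min δ δ', lt_min hδ hδ', fun c ω y hy hC hn => ?_⟩
  rw [Pi.add_apply, Pi.add_apply, mul_add]
  refine (n2_add_le S.hS S.he (hy.mul S.he (hF c ω).1) (hy.mul S.he (hG c ω).1)).trans ?_
  have := h c ω y hy hC (hn.trans (min_le_left _ _))
  have := h' c ω y hy hC (hn.trans (min_le_right _ _))
  linarith

theorem rc_mul (S : Setting M A e φ μ) {F G : Rand A e L} (hF : Good M F) (h : RC M φ F)
    (h' : RC M φ G) : RC M φ (F * G) := by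
  obtain ⟨D, hD, hF⟩ := hF
  intro C η hη
  obtain ⟨δ', hδ', h'⟩ := h' (max C 0 * D) η hη
  obtain ⟨δ, hδ, h⟩ := h C δ' hδ'
  refine ⟨δ, hδ, fun c ω y hy hC hn => ?_⟩
  rw [Pi.mul_apply, Pi.mul_apply, ← mul_assoc]
  exact h' c ω _ (hy.mul S.he (hF c ω).1) ((norm_mul_le _ _).trans
    (mul_le_mul (hC.trans (le_max_left _ _)) (hF c ω).2 (norm_nonneg _) (le_max_right _ _)))
    (h c ω y hy hC hn)

theorem rc_smul (S : Setting M A e φ μ) (t : ℂ) {F : Rand A e L} (h : RC M φ F) :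
    RC M φ (t • F) := by
  intro C η hη
  obtain ⟨δ, hδ, h⟩ := h C (η / (‖t‖ + 1)) (by positivity)
  refine ⟨δ, hδ, fun c ω y hy hC hn => ?_⟩
  rw [Pi.smul_apply, Pi.smul_apply, mul_smul_comm, n2_csmul]
  calc ‖t‖ * n2 φ (y * F c ω) ≤ (‖t‖ + 1) * (η / (‖t‖ + 1)) :=
        mul_le_mul (by linarith) (h c ω y hy hC hn) (n2_nonneg _) (by positivity)
    _ = η := by field_simp

theorem GoodR.add (S : Setting M A e φ μ) {F G : Rand A e L} (hF : GoodR M φ F)
    (hG : GoodR M φ G) : GoodR M φ (F + G) :=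
  ⟨hF.1.add hG.1, rc_add S hF.1 hG.1 hF.2.1 hG.2.1, by
    rw [star_add]; exact rc_add S (hF.1.star' S.he) (hG.1.star' S.he) hF.2.2 hG.2.2⟩

theorem GoodR.mul (S : Setting M A e φ μ) {F G : Rand A e L} (hF : GoodR M φ F)
    (hG : GoodR M φ G) : GoodR M φ (F * G) :=
  ⟨hF.1.mul S.he hG.1, rc_mul S hF.1 hF.2.1 hG.2.1, by
    rw [star_mul]; exact rc_mul S (hG.1.star' S.he) hG.2.2 hF.2.2⟩

theorem GoodR.star' (S : Setting M A e φ μ) {F : Rand A e L} (hF : GoodR M φ F) :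
    GoodR M φ (star F) :=
  ⟨hF.1.star' S.he, hF.2.2, by rw [star_star]; exact hF.2.1⟩

theorem GoodR.smul (S : Setting M A e φ μ) (t : ℂ) {F : Rand A e L} (hF : GoodR M φ F) :
    GoodR M φ (t • F) :=
  ⟨hF.1.smul t, rc_smul S t hF.2.1, by rw [star_smul]; exact rc_smul S _ hF.2.2⟩

theorem GoodR.sub (S : Setting M A e φ μ) {F G : Rand A e L} (hF : GoodR M φ F)
    (hG : GoodR M φ G) : GoodR M φ (F - G) := by
  simpa [sub_eq_add_neg, neg_one_smul] using hF.add S (hG.smul S (-1))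

theorem GoodR.sum (S : Setting M A e φ μ) {ι : Type*} (s : Finset ι) {F : ι → Rand A e L}
    (h : ∀ i ∈ s, GoodR M φ (F i)) : GoodR M φ (∑ i ∈ s, F i) :=
  Finset.sum_induction _ (GoodR M φ) (fun _ _ a b => GoodR.add S a b) GoodR.zero h

theorem goodR_cst (S : Setting M A e φ μ) {x : H →L[ℂ] H} (hx : Cor M e x) :
    GoodR M φ (cst x : Rand A e L) := by
  refine ⟨Orth.good_cst hx, fun C η hη => ?_, fun C η hη => ?_⟩
  · obtain ⟨δ, hδ, h⟩ := right_ok H M A e φ S.hA S.heA S.he S.hS x hx C η hη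
    exact ⟨δ, hδ, fun _ _ y hy hC hn => h y hy hC hn⟩
  · obtain ⟨δ, hδ, h⟩ := right_ok H M A e φ S.hA S.heA S.he S.hS (star x) (hx.star' S.he) C η hη
    exact ⟨δ, hδ, fun _ _ y hy hC hn => h y hy hC hn⟩

/-- Bounded random elements of `A` are multipliers. -/
theorem goodR_mem (S : Setting M A e φ μ) {F : Rand A e L} (hF : Good M F)
    (hFA : ∀ c ω, F c ω ∈ A) : GoodR M φ F := by
  refine ⟨hF, ?_, ?_⟩ <;>
  · obtain ⟨D, hD, hFb⟩ := hF
    intro C η hη
    refine ⟨η / (D + 1), by positivity, fun c ω y hy _ hn => ?_⟩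
    have hm : ∀ a : H →L[ℂ] H, a ∈ A → ‖a‖ ≤ D → n2 φ (y * a) ≤ η := fun a ha haD =>
      (n2_mul_mem_le S.hS S.he S.hA S.heA hy ha).trans <| by
        calc ‖a‖ * n2 φ y ≤ (D + 1) * (η / (D + 1)) :=
              mul_le_mul (by linarith) hn (n2_nonneg _) (by positivity)
          _ = η := by field_simp
    first
      | exact hm _ (hFA c ω) (hFb c ω).2
      | exact hm _ (star_mem (hFA c ω)) ((norm_star _).trans_le (hFb c ω).2)

/-- A small bounded factor stays small against a fixed multiplier on its right. -/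
theorem nr_right (S : Setting M A e φ μ) {G : Rand A e L} (hG : GoodR M φ G) (C : ℝ) {η : ℝ}
    (hη : 0 < η) : ∃ δ : ℝ, 0 < δ ∧ ∀ F : Rand A e L,
      (∀ c ω, Cor M e (F c ω) ∧ ‖F c ω‖ ≤ C) →
      ∀ c, nr φ μ F c ≤ δ → nr φ μ (F * G) c ≤ η := by
  obtain ⟨D, hD, hGb⟩ := hG.1
  obtain ⟨δ, hδ, h⟩ := hG.2.1 C (η / 2) (half_pos hη)
  set K := |C| * D * n2 φ e
  have hK : 0 ≤ K := by have := n2_nonneg (τ := φ) e; positivity
  refine ⟨min δ (δ * η / (2 * (K + 1))), lt_min hδ (by positivity), fun F hF c hn => ?_⟩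
  refine (sq_le_sq₀ (Orth.nr_nonneg _ _) hη.le).1 ?_
  have hpt : ∀ ω, n2 φ ((F * G) c ω) ^ 2 ≤ (η / 2) ^ 2 + K ^ 2 / δ ^ 2 * n2 φ (F c ω) ^ 2 := by
    intro ω
    rcases le_or_gt (n2 φ (F c ω)) δ with hle | hlt
    · exact (pow_le_pow_left₀ (n2_nonneg _) (h c ω _ (hF c ω).1 (hF c ω).2 hle) 2).trans
        (le_add_of_nonneg_right (by positivity))
    · have h1 : n2 φ ((F * G) c ω) ≤ K := (n2_le_norm S ((hF c ω).1.mul S.he (hGb c ω).1)).trans
        (mul_le_mul_of_nonneg_right ((norm_mul_le _ _).trans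
          (mul_le_mul ((hF c ω).2.trans (le_abs_self C)) (hGb c ω).2 (norm_nonneg _) (abs_nonneg C)))
          (n2_nonneg _))
      have h2 : K ^ 2 ≤ K ^ 2 / δ ^ 2 * n2 φ (F c ω) ^ 2 := by
        rw [div_mul_eq_mul_div, le_div_iff₀ (by positivity)]
        exact mul_le_mul_of_nonneg_left (pow_le_pow_left₀ hδ.le hlt.le 2) (sq_nonneg K)
      exact (pow_le_pow_left₀ (n2_nonneg _) h1 2).trans (h2.trans (le_add_of_nonneg_left (by positivity)))
  rw [nr_sq S]
  refine (avg_mono S hpt).trans ?_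
  rw [Orth.avg_add, avg_const S, show (avg μ fun ω => K ^ 2 / δ ^ 2 * n2 φ (F c ω) ^ 2) =
    K ^ 2 / δ ^ 2 * nr φ μ F c ^ 2 by
      rw [nr_sq S]; simp only [Orth.avg_eq, smul_eq_mul, Finset.mul_sum, mul_left_comm]]
  have h3 : K / δ * nr φ μ F c ≤ η / 2 := by
    calc K / δ * nr φ μ F c ≤ (K + 1) / δ * (δ * η / (2 * (K + 1))) :=
          mul_le_mul (by gcongr; linarith) (hn.trans (min_le_right _ _)) (Orth.nr_nonneg _ _)
            (by positivity)
      _ = η / 2 := by field_simp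
  have h4 := pow_le_pow_left₀ (mul_nonneg (by positivity) (Orth.nr_nonneg _ _)) h3 2
  rw [mul_pow, div_pow] at h4
  nlinarith

theorem tendsto_mul_right (S : Setting M A e φ μ) {F G : Rand A e L} (hF : Good M F)
    (hG : GoodR M φ G) (h : Tendsto (nr φ μ F) (fine A e) (𝓝 0)) :
    Tendsto (nr φ μ (F * G)) (fine A e) (𝓝 0) := by
  obtain ⟨C, hC, hF⟩ := hF
  refine Metric.tendsto_nhds.2 fun ε hε => ?_
  obtain ⟨δ, hδ, hd⟩ := nr_right S hG C (half_pos hε)
  filter_upwards [h.eventually (eventually_le_nhds hδ)] with c hc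
  rw [dist_zero_right, Real.norm_of_nonneg (Orth.nr_nonneg _ _)]
  linarith [hd F hF c hc]

theorem tendsto_mul_left (S : Setting M A e φ μ) {F G : Rand A e L} (hF : Good M F)
    (hG : Good M G) (h : Tendsto (nr φ μ G) (fine A e) (𝓝 0)) :
    Tendsto (nr φ μ (F * G)) (fine A e) (𝓝 0) := by
  obtain ⟨C, hC, hF⟩ := hF
  exact squeeze_zero (fun c => Orth.nr_nonneg _ _) (fun c => nr_mul_le S hC hF hG c)
    (by simpa using h.const_mul C)

/-! ### Approximation -/

/-- `F` is, along fine cuts, equal to a member of `P`. -/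
def Lim (M : VonNeumannAlgebra H) (φ : (H →L[ℂ] H) →ₗ[ℂ] ℂ) (μ : L → ℝ)
    (P : Rand A e L → Prop) (F : Rand A e L) : Prop :=
  ∃ G, P G ∧ GoodR M φ G ∧ Tendsto (nr φ μ (F - G)) (fine A e) (𝓝 0)

/-- `F` is approximated by members of `P`, eventually along fine cuts. -/
def Near (M : VonNeumannAlgebra H) (φ : (H →L[ℂ] H) →ₗ[ℂ] ℂ) (μ : L → ℝ)
    (P : Rand A e L → Prop) (F : Rand A e L) : Prop :=
  ∀ η : ℝ, 0 < η → ∃ G, P G ∧ GoodR M φ G ∧ ∀ᶠ c in fine A e, nr φ μ (F - G) c ≤ η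

variable {P Q R : Rand A e L → Prop} {F G K : Rand A e L}

theorem Lim.self (hP : P F) (hF : GoodR M φ F) : Lim M φ μ P F :=
  ⟨F, hP, hF, tendsto_const_nhds.congr fun c => by rw [sub_self, nr_zero]⟩

theorem Lim.mono (h : Lim M φ μ P F) (hPQ : ∀ G, P G → Q G) : Lim M φ μ Q F := by
  obtain ⟨G, hG, hGr, ht⟩ := h
  exact ⟨G, hPQ G hG, hGr, ht⟩

theorem Lim.near (h : Lim M φ μ P F) : Near M φ μ P F := fun _ hη => by
  obtain ⟨G, hG, hGr, ht⟩ := h
  exact ⟨G, hG, hGr, ht.eventually (eventually_le_nhds hη)⟩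

theorem Near.self (hP : P F) (hF : GoodR M φ F) : Near M φ μ P F := (Lim.self hP hF).near

theorem Near.mono (h : Near M φ μ P F) (hPQ : ∀ G, P G → Q G) : Near M φ μ Q F := fun η hη => by
  obtain ⟨G, hG, hGg, h'⟩ := h η hη
  exact ⟨G, hPQ G hG, hGg, h'⟩

theorem tendsto_trans (S : Setting M A e φ μ) (hF : Good M F) (hG : Good M G) (hK : Good M K)
    (h : Tendsto (nr φ μ (F - G)) (fine A e) (𝓝 0))
    (h' : Tendsto (nr φ μ (G - K)) (fine A e) (𝓝 0)) :
    Tendsto (nr φ μ (F - K)) (fine A e) (𝓝 0) :=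
  squeeze_zero (fun c => Orth.nr_nonneg _ _) (fun c => by
    simpa [sub_add_sub_cancel] using nr_add_le S (hF.sub hG) (hG.sub hK) c)
    (by simpa using h.add h')

theorem Lim.bind (S : Setting M A e φ μ) (hF : Good M F) (h : Lim M φ μ P F)
    (hPQ : ∀ G, P G → GoodR M φ G → Lim M φ μ Q G) : Lim M φ μ Q F := by
  obtain ⟨G, hG, hGr, ht⟩ := h
  obtain ⟨G', hG', hG'r, ht'⟩ := hPQ G hG hGr
  exact ⟨G', hG', hG'r, tendsto_trans S hF hGr.1 hG'r.1 ht ht'⟩

theorem Near.bind (S : Setting M A e φ μ) (hF : Good M F) (h : Near M φ μ P F)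
    (hPQ : ∀ G, P G → GoodR M φ G → Near M φ μ Q G) : Near M φ μ Q F := by
  intro η hη
  obtain ⟨G, hG, hGg, h1⟩ := h (η / 2) (half_pos hη)
  obtain ⟨G', hG', hG'g, h2⟩ := hPQ G hG hGg (η / 2) (half_pos hη)
  refine ⟨G', hG', hG'g, ?_⟩
  filter_upwards [h1, h2] with c a b
  have := nr_add_le S (hF.sub hGg.1) (hGg.1.sub hG'g.1) c
  rw [sub_add_sub_cancel] at this
  linarith

theorem Lim.add (S : Setting M A e φ μ) (hF : Good M F) (hG : Good M G) (h : Lim M φ μ P F)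
    (h' : Lim M φ μ Q G) (hR : ∀ a b, P a → Q b → R (a + b)) : Lim M φ μ R (F + G) := by
  obtain ⟨a, ha, har, hta⟩ := h
  obtain ⟨b, hb, hbr, htb⟩ := h'
  refine ⟨a + b, hR a b ha hb, har.add S hbr, squeeze_zero (fun c => Orth.nr_nonneg _ _)
    (fun c => ?_) (by simpa using hta.add htb)⟩
  rw [show F + G - (a + b) = F - a + (G - b) by abel]
  exact nr_add_le S (hF.sub har.1) (hG.sub hbr.1) c

theorem Near.add (S : Setting M A e φ μ) (hF : Good M F) (hG : Good M G) (h : Near M φ μ P F)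
    (h' : Near M φ μ Q G) (hR : ∀ a b, P a → Q b → R (a + b)) : Near M φ μ R (F + G) := by
  intro η hη
  obtain ⟨a, ha, hag, h1⟩ := h (η / 2) (half_pos hη)
  obtain ⟨b, hb, hbg, h2⟩ := h' (η / 2) (half_pos hη)
  refine ⟨a + b, hR a b ha hb, hag.add S hbg, ?_⟩
  filter_upwards [h1, h2] with c x y
  have := nr_add_le S (hF.sub hag.1) (hG.sub hbg.1) c
  rw [show F - a + (G - b) = F + G - (a + b) by abel] at this
  linarith

theorem Lim.sum (S : Setting M A e φ μ) {ι : Type*} (s : Finset ι) {F : ι → Rand A e L}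
    (hadd : ∀ a b, P a → P b → P (a + b)) (h0 : P 0) (hF : ∀ i ∈ s, Good M (F i))
    (h : ∀ i ∈ s, Lim M φ μ P (F i)) : Lim M φ μ P (∑ i ∈ s, F i) := by
  classical
  induction s using Finset.induction_on with
  | empty => simpa using Lim.self (μ := μ) h0 (GoodR.zero (M := M) (φ := φ))
  | insert i s hi ih =>
    rw [Finset.sum_insert hi]
    exact Lim.add S (hF i (Finset.mem_insert_self i s))
      (Good.sum s fun j hj => hF j (Finset.mem_insert_of_mem hj))
      (h i (Finset.mem_insert_self i s))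
      (ih (fun j hj => hF j (Finset.mem_insert_of_mem hj))
        fun j hj => h j (Finset.mem_insert_of_mem hj)) hadd

theorem Near.sum (S : Setting M A e φ μ) {ι : Type*} (s : Finset ι) {F : ι → Rand A e L}
    (hadd : ∀ a b, P a → P b → P (a + b)) (h0 : P 0) (hF : ∀ i ∈ s, Good M (F i))
    (h : ∀ i ∈ s, Near M φ μ P (F i)) : Near M φ μ P (∑ i ∈ s, F i) := by
  classical
  induction s using Finset.induction_on with
  | empty => simpa using Near.self (μ := μ) h0 (GoodR.zero (M := M) (φ := φ))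
  | insert i s hi ih =>
    rw [Finset.sum_insert hi]
    exact Near.add S (hF i (Finset.mem_insert_self i s))
      (Good.sum s fun j hj => hF j (Finset.mem_insert_of_mem hj))
      (h i (Finset.mem_insert_self i s))
      (ih (fun j hj => hF j (Finset.mem_insert_of_mem hj))
        fun j hj => h j (Finset.mem_insert_of_mem hj)) hadd

theorem Lim.mul_left (S : Setting M A e φ μ) (hK : Good M K) (hF : Good M F)
    (h : Lim M φ μ P F) (hPQ : ∀ G, P G → GoodR M φ G → Lim M φ μ Q (K * G)) :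
    Lim M φ μ Q (K * F) := by
  obtain ⟨G, hG, hGr, ht⟩ := h
  obtain ⟨G', hG', hG'r, ht'⟩ := hPQ G hG hGr
  refine ⟨G', hG', hG'r, tendsto_trans S (hK.mul S.he hF) (hK.mul S.he hGr.1) hG'r.1 ?_ ht'⟩
  rw [← mul_sub]
  exact tendsto_mul_left S hK (hF.sub hGr.1) ht

theorem Lim.mul_right (S : Setting M A e φ μ) (hK : GoodR M φ K) (hF : Good M F)
    (h : Lim M φ μ P F) (hPQ : ∀ G, P G → GoodR M φ G → Lim M φ μ Q (G * K)) :
    Lim M φ μ Q (F * K) := by
  obtain ⟨G, hG, hGr, ht⟩ := h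
  obtain ⟨G', hG', hG'r, ht'⟩ := hPQ G hG hGr
  refine ⟨G', hG', hG'r, tendsto_trans S (hF.mul S.he hK.1) (hGr.1.mul S.he hK.1) hG'r.1 ?_ ht'⟩
  rw [← sub_mul]
  exact tendsto_mul_right S (hF.sub hGr.1) hK ht

theorem Near.mul_left (S : Setting M A e φ μ) (hK : GoodR M φ K) (hF : Good M F)
    (h : Near M φ μ P F) (hPQ : ∀ G, P G → GoodR M φ G → Near M φ μ Q (K * G)) :
    Near M φ μ Q (K * F) := by
  have : Near M φ μ (fun G => Near M φ μ Q G) (K * F) := by
    intro η hη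
    obtain ⟨C, hC, hK'⟩ := hK.1
    obtain ⟨G, hG, hGg, h'⟩ := h (η / (C + 1)) (by positivity)
    refine ⟨K * G, hPQ G hG hGg, hK.mul S hGg, ?_⟩
    filter_upwards [h'] with c hc
    rw [← mul_sub]
    calc nr φ μ (K * (F - G)) c ≤ C * nr φ μ (F - G) c := nr_mul_le S hC hK' (hF.sub hGg.1) c
      _ ≤ C * (η / (C + 1)) := mul_le_mul_of_nonneg_left hc hC
      _ ≤ (C + 1) * (η / (C + 1)) := by gcongr; linarith
      _ = η := by field_simp
  exact this.bind S (hK.1.mul S.he hF) fun G hG _ => hG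

/-- Approximants with a common bound may be multiplied from the right. -/
theorem Near.mul_right (S : Setting M A e φ μ) (hK : GoodR M φ K) (hF : Good M F) {C : ℝ}
    (h : Near M φ μ (fun G => P G ∧ ∀ c ω, ‖G c ω‖ ≤ C) F)
    (hPQ : ∀ G, P G → GoodR M φ G → Near M φ μ Q (G * K)) :
    Near M φ μ Q (F * K) := by
  have : Near M φ μ (fun G => Near M φ μ Q G) (F * K) := by
    intro η hη
    obtain ⟨D, hD, hF'⟩ := hF
    obtain ⟨δ, hδ, hd⟩ := nr_right S hK (D + C) hη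
    obtain ⟨G, hG, hGg, h'⟩ := h δ hδ
    refine ⟨G * K, hPQ G hG.1 hGg, hGg.mul S hK, ?_⟩
    filter_upwards [h'] with c hc
    rw [← sub_mul]
    obtain ⟨_, _, hG'⟩ := hGg.1
    exact hd (F - G) (fun c ω => ⟨(hF' c ω).1.sub (hG' c ω).1,
      (norm_sub_le _ _).trans (add_le_add (hF' c ω).2 (hG.2 c ω))⟩) c hc
  exact this.bind S (hF.mul S.he hK.1) fun G hG _ => hG

theorem tendsto_etr_add (hF : Tendsto (etr φ μ F) (fine A e) (𝓝 0))
    (hG : Tendsto (etr φ μ G) (fine A e) (𝓝 0)) :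
    Tendsto (etr φ μ (F + G)) (fine A e) (𝓝 0) := by
  simpa using (hF.add hG).congr fun c => (Orth.etr_add F G c).symm

theorem tendsto_etr_zero : Tendsto (etr φ μ (0 : Rand A e L)) (fine A e) (𝓝 0) :=
  tendsto_const_nhds.congr fun c => by simp [etr, avg]

theorem tendsto_etr_congr (S : Setting M A e φ μ) (hF : Good M F) (hG : Good M G)
    (h : Tendsto (nr φ μ (F - G)) (fine A e) (𝓝 0))
    (hG0 : Tendsto (etr φ μ G) (fine A e) (𝓝 0)) : Tendsto (etr φ μ F) (fine A e) (𝓝 0) := by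
  have h1 : Tendsto (etr φ μ (F - G)) (fine A e) (𝓝 0) :=
    squeeze_zero_norm (fun c => norm_etr_le_one S (hF.sub hG) c)
      (by simpa using h.const_mul (n2 φ e))
  simpa using tendsto_etr_add h1 hG0

/-- `F` is approximated in the averaged 2-norm by bounded elements with vanishing value. -/
theorem tendsto_etr_of_approx (S : Setting M A e φ μ) (hF : Good M F)
    (h : ∀ η : ℝ, 0 < η → ∃ G : Rand A e L, Good M G ∧
      (∀ᶠ c in fine A e, nr φ μ (F - G) c ≤ η) ∧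
      Tendsto (etr φ μ G) (fine A e) (𝓝 0)) :
    Tendsto (etr φ μ F) (fine A e) (𝓝 0) := by
  refine Metric.tendsto_nhds.2 fun ε hε => ?_
  set K := n2 φ e + 1
  have hK : 0 < K := by have := n2_nonneg (τ := φ) e; positivity
  obtain ⟨G, hG, hd, ht⟩ := h (ε / (2 * K)) (by positivity)
  filter_upwards [hd, Metric.tendsto_nhds.1 ht (ε / 2) (half_pos hε)] with c h1 h2
  rw [dist_zero_right] at h2 ⊢
  have h3 := norm_etr_le_one S (hF.sub hG) c
  rw [Orth.etr_sub] at h3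
  have h4 : n2 φ e * nr φ μ (F - G) c ≤ ε / 2 := by
    refine (mul_le_mul (show n2 φ e ≤ K by simp [K]) h1 (Orth.nr_nonneg _ _) hK.le).trans
      (le_of_eq ?_)
    field_simp
  have := norm_sub_norm_le (etr φ μ F c) (etr φ μ G c)
  linarith

end Vale.Agent.P078.State
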