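import Vale.Agent.P078.Orth.Reduce
import Vale.Agent.P078.State.Avg

/-!
A field of projections of a MASA is approximated by uniformly bounded polynomials in translated
functions of the labels.
-/

namespace Vale.Agent.P078.State

open Filter Topology MKS Singular
open Orth (Rand cst Good nr Cut fine avg IsField vee veeR cell VPoly NorC)

set_option linter.unusedSectionVars false

variable {H : Type} [NormedAddCommGroup H] [InnerProductSpace ℂ H] [CompleteSpace H]
variable {M A : VonNeumannAlgebra H} {e : H →L[ℂ] H} {φ : (H →L[ℂ] H) →ₗ[ℂ] ℂ}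
variable {L : Type} [Fintype L] {μ : L → ℝ}

section

variable (S : Setting M A e φ μ)
include S

theorem field_vee_mem {k : H →L[ℂ] H} (kn : NorC M A e k) (g : L → ℝ) :
    (∀ c ω, (veeR k g : Rand A e L) c ω ∈ A ∧ star ((veeR k g : Rand A e L) c ω) = veeR k g c ω) ∧
      Good M (veeR k g : Rand A e L) := by
  refine ⟨fun c ω => ⟨?_, ?_⟩,
    ⟨∑ l, |g l|, Finset.sum_nonneg fun l _ => abs_nonneg _, fun c ω => ⟨?_, ?_⟩⟩⟩ <;>
    simp only [veeR, vee]
  · exact sum_mem fun i _ => vn_smul A _ (Orth.cell_mem kn.1 c i)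
  · simp only [star_sum, star_smul, star_trivial]
    exact Finset.sum_congr rfl fun i _ => by
      rw [(Orth.cell_proj S.hA kn.1 c i).2.isSelfAdjoint.star_eq]
  · exact Cor.sum _ fun i _ =>
      ((kn.cor.mul S.he (Orth.cut_cor S.hA S.he c i)).mul S.he (kn.cor.star' S.he)).rsmul _
  · exact Orth.norm_sum_proj_le S.hA S.heA S.he _ (fun i _ => Orth.cell_proj S.hA kn.1 c i)
      (fun i _ j _ h => by rw [Orth.cell_mul S.hA kn.1, if_neg h])
      (Finset.sum_nonneg fun l _ => abs_nonneg _) fun i _ =>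
      Finset.single_le_sum (f := fun l => |g l|) (fun l _ => abs_nonneg _) (Finset.mem_univ _)

theorem field_poly_mem {G : Rand A e L} (h : VPoly M A e G) :
    (∀ c ω, G c ω ∈ A) ∧ Good M G := by
  induction h with
  | base a ha hc => exact ⟨fun _ _ => ha, Orth.good_cst hc⟩
  | vee G k g kn _ ih =>
    exact ⟨fun c ω => mul_mem (ih.1 c ω) ((field_vee_mem S kn g).1 c ω).1,
      ih.2.mul S.he (field_vee_mem S kn g).2⟩
  | add G G' _ _ h h' => exact ⟨fun c ω => add_mem (h.1 c ω) (h'.1 c ω), h.2.add h'.2⟩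

theorem field_goodR_poly {G : Rand A e L} (h : VPoly M A e G) : GoodR M φ G :=
  goodR_mem S (field_poly_mem S h).2 (field_poly_mem S h).1

theorem field_poly_cmul {b : H →L[ℂ] H} (hb : b ∈ A) (bc : Cor M e b) {G : Rand A e L}
    (h : VPoly M A e G) : VPoly M A e (cst b * G) := by
  induction h with
  | base a ha hc => exact VPoly.base (b * a) (mul_mem hb ha) (bc.mul S.he hc)
  | vee G k g kn _ ih => rw [← mul_assoc]; exact ih.vee _ k g kn
  | add G G' _ _ h h' => rw [mul_add]; exact h.add _ _ h'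

theorem field_poly_mul {F G : Rand A e L} (hF : VPoly M A e F) (hG : VPoly M A e G) :
    VPoly M A e (F * G) := by
  induction hG with
  | base a ha hc =>
    rw [show F * cst a = cst a * F from funext fun c => funext fun ω =>
      S.hA.2.1 _ ((field_poly_mem S hF).1 c ω) _ ha]
    exact field_poly_cmul S ha hc hF
  | vee G k g kn _ ih => rw [← mul_assoc]; exact ih.vee _ k g kn
  | add G G' _ _ h h' => rw [mul_add]; exact h.add _ _ h'

theorem field_poly_star {G : Rand A e L} (h : VPoly M A e G) : VPoly M A e (star G) := by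
  induction h with
  | base a ha hc => exact VPoly.base (star a) (star_mem ha) (hc.star' S.he)
  | vee G k g kn hG ih =>
    rw [show star (G * veeR k g) = star G * veeR k g from funext fun c => funext fun ω => by
      show star (G c ω * veeR k g c ω) = star (G c ω) * veeR k g c ω
      rw [star_mul, ((field_vee_mem S kn g).1 c ω).2, S.hA.2.1 _
        ((field_vee_mem S kn g).1 c ω).1 _ (star_mem ((field_poly_mem S hG).1 c ω))]]
    exact ih.vee _ k g kn
  | add G G' _ _ h h' => rw [star_add]; exact h.add _ _ h'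

theorem field_poly_prod {a : H →L[ℂ] H} (ha : a ∈ A) (hc : Cor M e a) :
    ∀ {d : ℕ} (h : Fin d → (H →L[ℂ] H)) (_ : ∀ t, NorC M A e (h t)) (f : Fin d → L → ℝ),
      VPoly M A e (fun c ω => a * (List.ofFn fun t => vee (h t) (f t) c ω).prod : Rand A e L)
  | 0, h, _, f => by
    convert (VPoly.base a ha hc : VPoly M A e (cst a : Rand A e L)) using 1
    funext c ω
    simp [cst]
  | d + 1, h, hn, f => by
    have h1 := (field_poly_prod ha hc (fun t => h t.castSucc) (fun t => hn t.castSucc)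
      fun t => f t.castSucc).vee _ (h (Fin.last d)) (f (Fin.last d)) (hn _)
    convert h1 using 1
    funext c ω
    simp only [List.ofFn_succ', List.prod_concat, Pi.mul_apply, veeR, mul_assoc]

theorem n2_star_mem {x : H →L[ℂ] H} (hx : x ∈ A) : n2 φ (star x) = n2 φ x := by
  simp only [n2, star_star, S.hA.2.1 x hx (star x) (star_mem hx)]

end

/-- The clamp to `[-1, 1]`. -/
noncomputable def clamp (t : ℝ) : ℝ := (max 1 |t|)⁻¹ * t

theorem continuous_clampFactor : Continuous fun t : ℝ => (max 1 |t|)⁻¹ :=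
  Continuous.inv₀ (by fun_prop) fun t => ne_of_gt (lt_max_of_lt_left one_pos)

theorem continuous_clamp : Continuous clamp := continuous_clampFactor.mul continuous_id

theorem clamp_spec (t : ℝ) :
    |clamp t| ≤ 1 ∧ clamp t * clamp t ≤ t * t ∧ (clamp t - 1) * (clamp t - 1) ≤ (t - 1) * (t - 1) := by
  simp only [clamp]
  rcases le_total |t| 1 with h | h
  · rw [max_eq_left h, inv_one, one_mul]; exact ⟨h, le_rfl, le_rfl⟩
  · have h0 : 0 < |t| := one_pos.trans_le h
    rw [max_eq_right h]
    rcases le_total 0 t with ht | ht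
    · rw [abs_of_nonneg ht] at h h0 ⊢
      rw [inv_mul_cancel₀ h0.ne', abs_one]
      exact ⟨le_rfl, by nlinarith, by nlinarith⟩
    · rw [abs_of_nonpos ht] at h h0 ⊢
      rw [show (-t)⁻¹ * t = -1 by rw [inv_neg, neg_mul, inv_mul_cancel₀ (by linarith)], abs_neg, abs_one]
      exact ⟨le_rfl, by nlinarith, by nlinarith⟩

/-- The clamp of an element of `A` near a projection of `A` is nearer to it. -/
theorem clamp_near (hA : IsMASA M A) (he : IsStarProjection e) (hS : IsState M A e φ)
    {x p : H →L[ℂ] H} (hx : x ∈ A) (hxc : Cor M e x) (hxs : IsSelfAdjoint x) (hp : p ∈ A)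
    (hpc : Cor M e p) (hpp : IsStarProjection p) :
    Cor M e (cfc clamp x) ∧ n2 φ (cfc clamp x - p) ≤ n2 φ (x - p) := by
  set F := cfc clamp x with hF
  have hFs : IsSelfAdjoint F := cfc_predicate _ _
  have hg : F = cfc (fun t : ℝ => (max 1 |t|)⁻¹) x * x := by
    conv_rhs => arg 2; rw [← cfc_id' ℝ x]
    rw [← cfc_mul (fun t : ℝ => (max 1 |t|)⁻¹) (fun t => t) x
      continuous_clampFactor.continuousOn continuous_id.continuousOn]
    rfl
  have hFe : F * e = F := by rw [hg, mul_assoc, hxc.mul_right he]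
  have hFc : Cor M e F := Cor.of_abs he (cfc_mem hxc.1 _)
    (by simpa [star_mul, he.isSelfAdjoint.star_eq, hFs.star_eq] using congrArg star hFe) hFe
  refine ⟨hFc, ?_⟩
  have hFA : F ∈ A := cfc_mem hx _
  have hq : ∀ y ∈ A, (y - p) * (y - p) =
      p * ((y - 1) * (y - 1)) * p + (1 - p) * (y * y) * (1 - p) := by
    intro y hy
    have hc : ∀ z : H →L[ℂ] H, p * (y * z) = y * (p * z) := fun z => by
      rw [← mul_assoc, hA.2.1 p hp y hy, mul_assoc]
    have hp2 : ∀ z : H →L[ℂ] H, p * (p * z) = p * z := fun z => by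
      rw [← mul_assoc, hpp.isIdempotentElem.eq]
    simp only [mul_sub, sub_mul, mul_one, one_mul, mul_assoc, hc, hp2,
      hA.2.1 p hp y hy, hpp.isIdempotentElem.eq]
    abel
  have hle : ∀ k : ℝ, (∀ t, (clamp t - k) * (clamp t - k) ≤ (t - k) * (t - k)) →
      (F - k • 1) * (F - k • 1) ≤ (x - k • 1) * (x - k • 1) := by
    intro k hk
    have h1 : ∀ f : ℝ → ℝ, Continuous f → cfc f x - k • 1 = cfc (fun t => f t - k) x := by
      intro f hf
      rw [cfc_sub f (fun _ => k) x hf.continuousOn continuousOn_const, cfc_const k x,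
        Algebra.algebraMap_eq_smul_one]
    rw [hF, h1 _ continuous_clamp]
    conv_rhs => rw [← cfc_id' ℝ x, h1 (fun t => t) continuous_id]
    have := continuous_clamp
    rw [← cfc_mul (fun t => clamp t - k) (fun t => clamp t - k) x (by fun_prop) (by fun_prop),
      ← cfc_mul (fun t => t - k) (fun t => t - k) x (by fun_prop) (by fun_prop)]
    exact cfc_mono (fun t _ => hk t) (by fun_prop) (by fun_prop)
  have hsq : (F - p) * (F - p) ≤ (x - p) * (x - p) := by
    rw [hq F hFA, hq x hx]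
    refine add_le_add ?_ ?_
    · have := conj_le (hle 1 fun t => (clamp_spec t).2.2) p
      rwa [one_smul, hpp.isSelfAdjoint.star_eq] at this
    · have := conj_le (hle 0 fun t => by simpa using (clamp_spec t).2.1) (1 - p)
      rwa [zero_smul, sub_zero, sub_zero, hpp.one_sub.isSelfAdjoint.star_eq] at this
  refine Real.sqrt_le_sqrt ?_
  rw [(hFs.sub hpp.isSelfAdjoint).star_eq, (hxs.sub hpp.isSelfAdjoint).star_eq]
  exact tr_mono hS he ((hFc.sub hpc).mul he (hFc.sub hpc)) ((hxc.sub hpc).mul he (hxc.sub hpc)) hsq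

variable (S : Setting M A e φ μ)
include S

/-- A field of projections of `A` is approximated by uniformly bounded polynomials in translated
functions of the labels. -/
theorem field_near_poly {p : Rand A e L}
    (hp : ∀ c ω, Cor M e (p c ω) ∧ IsStarProjection (p c ω)) (hpA : ∀ c ω, p c ω ∈ A)
    (h : IsField M A e φ μ p) :
    Near M φ μ (fun V => VPoly M A e V ∧ ∀ c ω, ‖V c ω‖ ≤ 3) p := by
  intro η hη
  have hp1 : Good M p := ⟨1, zero_le_one, fun c ω => ⟨(hp c ω).1, (hp c ω).2.norm_le⟩⟩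
  obtain ⟨N, a, d, hh, f, ha, hn, hev⟩ := h ((η / 2) ^ 2) (by positivity)
  set G : Rand A e L := ∑ j, fun c ω => a j * (List.ofFn fun t => vee (hh j t) (f j t) c ω).prod
    with hGdef
  have hP : VPoly M A e G := Finset.sum_induction _ (VPoly M A e) (fun x y => VPoly.add x y)
    (VPoly.base 0 (zero_mem A) Cor.zero)
    fun j _ => field_poly_prod S (ha j).1 ⟨S.hA.1 _ (ha j).1, (ha j).2⟩ _ (hn j) _
  have h1 : ∀ᶠ c in fine A e, nr φ μ (p - G) c ≤ η / 2 := by
    filter_upwards [hev] with c hc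
    rw [nr, Real.sqrt_le_iff]
    refine ⟨(half_pos hη).le, le_trans (le_of_eq ?_) hc⟩
    simp [hGdef, Finset.sum_apply]
  -- the real part
  have hec : Cor M e ((2 : ℝ)⁻¹ • e) := (cor_e S).rsmul _
  set G₁ : Rand A e L := cst ((2 : ℝ)⁻¹ • e) * (G + star G) with hG₁
  have hP₁ : VPoly M A e G₁ :=
    field_poly_cmul S (vn_smul A _ S.heA) hec (VPoly.add _ _ hP (field_poly_star S hP))
  obtain ⟨hA₁, hgood₁⟩ := field_poly_mem S hP₁
  obtain ⟨hGA, C₀, hC₀, hGb⟩ := field_poly_mem S hP
  have hG₁v : ∀ c ω, G₁ c ω = (2 : ℝ)⁻¹ • (G c ω + star (G c ω)) := fun c ω => by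
    show (2 : ℝ)⁻¹ • e * (G c ω + star (G c ω)) = _
    rw [smul_mul_assoc, ((hGb c ω).1.add ((hGb c ω).1.star' S.he)).mul_left S.he]
  have hs₁ : ∀ c ω, IsSelfAdjoint (G₁ c ω) := fun c ω => by
    rw [hG₁v, IsSelfAdjoint, star_smul, star_add, star_star, star_trivial, add_comm]
  have h2 : ∀ᶠ c in fine A e, nr φ μ (p - G₁) c ≤ η / 2 := by
    filter_upwards [h1] with c hc
    refine le_trans ((nr_le_of S zero_le_one c fun ω => ?_).trans (le_of_eq (one_mul _))) hc
    set D := p c ω - G c ω with hD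
    have hDc : Cor M e D := (hp c ω).1.sub (hGb c ω).1
    show n2 φ (p c ω - G₁ c ω) ≤ 1 * n2 φ (p c ω - G c ω)
    rw [show p c ω - G₁ c ω = (2 : ℝ)⁻¹ • D + (2 : ℝ)⁻¹ • star D by
      rw [hG₁v, hD, star_sub, (hp c ω).2.isSelfAdjoint.star_eq]; module]
    refine (n2_add_le S.hS S.he (hDc.rsmul _) ((hDc.star' S.he).rsmul _)).trans ?_
    rw [n2_rsmul (by positivity), n2_rsmul (by positivity),
      n2_star_mem S (sub_mem (hpA c ω) (hGA c ω))]
    linarith
  -- a polynomial close to the clamp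
  obtain ⟨R, hR, hGb₁⟩ := hgood₁
  set θ := min 1 (η / (4 * (n2 φ e + 1)))
  have hN := n2_nonneg (τ := φ) e
  have hθ : 0 < θ := lt_min one_pos (by positivity)
  obtain ⟨q, hq⟩ := exists_polynomial_near_of_continuousOn (-R) R clamp
    continuous_clamp.continuousOn θ hθ
  set V : Rand A e L := ∑ n ∈ Finset.range q.natDegree, cst (q.coeff (n + 1) • e) * G₁ ^ (n + 1)
    with hV
  have hpow : ∀ n : ℕ, VPoly M A e (G₁ ^ (n + 1)) := fun n => by
    induction n with
    | zero => simpa using hP₁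
    | succ n ih => rw [pow_succ]; exact field_poly_mul S ih hP₁
  have hVP : VPoly M A e V := Finset.sum_induction _ (VPoly M A e) (fun x y => VPoly.add x y)
    (VPoly.base 0 (zero_mem A) Cor.zero)
    fun n _ => field_poly_cmul S (vn_smul A _ S.heA) ((cor_e S).rsmul _) (hpow n)
  have hVv : ∀ c ω, V c ω = cfc (fun t => q.eval t - q.eval 0) (G₁ c ω) := by
    intro c ω
    have hc : ∀ n, Cor M e (G₁ c ω ^ (n + 1)) := fun n => by
      induction n with
      | zero => simpa using (hGb₁ c ω).1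
      | succ n ih => rw [pow_succ]; exact ih.mul S.he (hGb₁ c ω).1
    rw [cfc_sub (fun t => q.eval t) (fun _ => q.eval 0) _ q.continuous.continuousOn
      continuousOn_const, cfc_polynomial q _ (hs₁ c ω), cfc_const _ _ (hs₁ c ω),
      Polynomial.aeval_eq_sum_range, Finset.sum_range_succ', pow_zero,
      Algebra.algebraMap_eq_smul_one, Polynomial.coeff_zero_eq_eval_zero, add_sub_cancel_right]
    simp only [hV, Finset.sum_apply, Pi.mul_apply, cst, Pi.pow_apply]
    exact Finset.sum_congr rfl fun n _ => by rw [smul_mul_assoc, (hc n).mul_left S.he]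
  have hclose : ∀ c ω, ∀ t ∈ spectrum ℝ (G₁ c ω), |q.eval t - q.eval 0 - clamp t| ≤ 2 * θ := by
    intro c ω t ht
    have htR : |t| ≤ R := (((Real.norm_eq_abs t).symm.le.trans
      (spectrum.norm_le_norm_mul_of_mem ht)).trans
      (mul_le_of_le_one_right (norm_nonneg _) ContinuousLinearMap.norm_id_le)).trans (hGb₁ c ω).2
    have k1 := abs_lt.1 (hq t (Set.mem_Icc.2 (abs_le.1 htR)))
    have k2 := abs_lt.1 (hq 0 (Set.mem_Icc.2 ⟨by linarith, hR⟩))
    simp only [clamp, mul_zero, sub_zero] at k2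
    rw [abs_le]
    constructor <;> linarith [k1.1, k1.2, k2.1, k2.2]
  refine ⟨V, ⟨hVP, fun c ω => ?_⟩, field_goodR_poly S hVP, ?_⟩
  · rw [hVv]
    refine norm_cfc_le (by norm_num) fun t ht => ?_
    rw [Real.norm_eq_abs]
    have := abs_le.1 (hclose c ω t ht)
    have := abs_le.1 (clamp_spec t).1
    have := min_le_left 1 (η / (4 * (n2 φ e + 1)))
    rw [abs_le]
    constructor <;> linarith
  filter_upwards [h2] with c hc
  have hcl := fun ω => clamp_near S.hA S.he S.hS (hA₁ c ω) (hGb₁ c ω).1 (hs₁ c ω) (hpA c ω)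
    (hp c ω).1 (hp c ω).2
  set F : Rand A e L := fun c ω => cfc clamp (G₁ c ω) with hF
  have hFg : Good M F := ⟨1, zero_le_one, fun c ω =>
    ⟨(clamp_near S.hA S.he S.hS (hA₁ c ω) (hGb₁ c ω).1 (hs₁ c ω) (hpA c ω) (hp c ω).1
      (hp c ω).2).1, norm_cfc_le zero_le_one fun t _ => (clamp_spec t).1⟩⟩
  have hVg := (field_poly_mem S hVP).2
  rw [← sub_add_sub_cancel p F V]
  refine (nr_add_le S (hp1.sub hFg) (hFg.sub hVg) c).trans ?_
  have e1 : nr φ μ (p - F) c ≤ η / 2 := by
    refine le_trans ((nr_le_of S zero_le_one c fun ω => ?_).trans (le_of_eq (one_mul _))) hc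
    show n2 φ (p c ω - F c ω) ≤ 1 * n2 φ (p c ω - G₁ c ω)
    rw [one_mul, ← n2_neg (p c ω - _), ← n2_neg (p c ω - G₁ c ω), neg_sub, neg_sub]
    exact (hcl ω).2
  have e2 : nr φ μ (F - V) c ≤ η / 2 := by
    refine (nr_le_bound S (C := 2 * θ) (by positivity) (fun c ω => ?_) c).trans ?_
    · obtain ⟨_, _, hFb⟩ := hFg.sub hVg
      refine ⟨(hFb c ω).1, ?_⟩
      show ‖cfc clamp (G₁ c ω) - V c ω‖ ≤ 2 * θ
      rw [hVv, ← cfc_sub clamp (fun t => q.eval t - q.eval 0) _ continuous_clamp.continuousOn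
        (q.continuous.sub continuous_const).continuousOn]
      refine norm_cfc_le (by positivity) fun t ht => ?_
      rw [Real.norm_eq_abs, abs_sub_comm]
      exact hclose c ω t ht
    · calc 2 * θ * n2 φ e ≤ 2 * (η / (4 * (n2 φ e + 1))) * (n2 φ e + 1) :=
            mul_le_mul (by gcongr; exact min_le_right _ _) (by linarith) hN (by positivity)
        _ = η / 2 := by field_simp; norm_num
  linarith

end Vale.Agent.P078.State
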