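import Vale.Agent.P078.Orth.Bound
import Vale.Agent.P078.State.Field
import Vale.Agent.P078.State.Excess

/-!
Random fields with small mean pave operators orthogonal to the normaliser: the bound for states,
from the properties of the alternating words.
-/

namespace Vale.Agent.P078.State

open Filter Topology MKS Singular
open Orth (Rand cst Good nr etr Cut fine avg IsField Perp Lin PiW KW Dec Sums Centred val VPoly NorC
  real_lemma step_arith)

set_option linter.unusedSectionVars false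

variable {H : Type} [NormedAddCommGroup H] [InnerProductSpace ℂ H] [CompleteSpace H]
variable {M A : VonNeumannAlgebra H} {e : H →L[ℂ] H} {φ : (H →L[ℂ] H) →ₗ[ℂ] ℂ}
variable {L : Type} [Fintype L] {μ : L → ℝ}

/-- The properties of the alternating words which the bound uses. -/
structure WordFacts (M A : VonNeumannAlgebra H) (e : H →L[ℂ] H) (φ : (H →L[ℂ] H) →ₗ[ℂ] ℂ)
    (μ : L → ℝ) : Prop where
  inner : ∀ (G K : Rand A e L), PiW M A e φ μ G → KW M A e φ μ K →
    Tendsto (etr φ μ (star G * K)) (fine A e) (𝓝 0)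
  piW_goodR : ∀ G : Rand A e L, PiW M A e φ μ G → GoodR M φ G
  kw_goodR : ∀ G : Rand A e L, KW M A e φ μ G → GoodR M φ G
  piW_kw : ∀ m : H →L[ℂ] H, Perp M A e φ m → ∀ K : Rand A e L, KW M A e φ μ K →
    PiW M A e φ μ (cst m * K)
  cmul_kw : ∀ a : H →L[ℂ] H, a ∈ A → Cor M e a → ∀ K : Rand A e L, KW M A e φ μ K →
    KW M A e φ μ (cst a * K)
  dec_cmul : ∀ x : H →L[ℂ] H, Cor M e x → ∀ G : Rand A e L, Dec M A e φ μ G →
    Near M φ μ (Dec M A e φ μ) (cst x * G)
  dec_lin : ∀ R : Rand A e L, Lin M A e μ R → ∀ G : Rand A e L, Dec M A e φ μ G →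
    Near M φ μ (Dec M A e φ μ) (R * G)
  lin_of_poly : ∀ G : Rand A e L, VPoly M A e G → Lim M φ μ (Lin M A e μ) G
  avg_val : ∀ (d : ℕ) (h : Fin (d + 1) → (H →L[ℂ] H)) (f : Fin (d + 1) → L → ℝ), Centred μ f →
    ∀ c : Cut A e, avg μ (fun ω => val h f c ω) = 0

section

variable (S : Setting M A e φ μ) (W : WordFacts M A e φ μ)
include S W

theorem field_near_lin {p : Rand A e L} (hp : ∀ c ω, Cor M e (p c ω) ∧ IsStarProjection (p c ω))
    (hpA : ∀ c ω, p c ω ∈ A) (h : IsField M A e φ μ p) :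
    Near M φ μ (fun V => Lim M φ μ (Lin M A e μ) V ∧ ∀ c ω, ‖V c ω‖ ≤ 3) p :=
  (field_near_poly S hp hpA h).mono fun V hV => ⟨W.lin_of_poly V hV.1, hV.2⟩

theorem sums_goodR {P : Rand A e L → Prop} (hP : ∀ G, P G → GoodR M φ G) {F : Rand A e L}
    (h : Sums P F) : GoodR M φ F := by
  induction h with
  | zero => exact GoodR.zero
  | cons G K hG _ ih => exact (hP G hG).add S ih

/-- A combination of tuple sums is a constant plus a part with mean zero which turns words of the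
second kind into words of the first kind. -/
theorem lin_parts {G : Rand A e L} (hG : Lin M A e μ G) :
    ∃ a R, a ∈ A ∧ Cor M e a ∧ G = cst a + R ∧ (∀ c, avg μ (R c) = 0) ∧
      ∀ Q, PiW M A e φ μ Q → Sums (KW M A e φ μ) (R * Q) := by
  induction hG with
  | base a ha hc =>
    refine ⟨a, 0, ha, hc, (add_zero _).symm, fun c => by simp [avg], fun Q _ => ?_⟩
    rw [zero_mul]; exact Sums.zero
  | val a ha hc h hn f hf =>
    refine ⟨0, _, zero_mem A, Cor.zero,
      (by rw [show (cst (0 : H →L[ℂ] H) : Rand A e L) = 0 from rfl, zero_add]), fun c => ?_,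
      fun Q hQ => ?_⟩
    · have h0 := W.avg_val _ h f hf c
      have h1 := (Orth.avg_map (μ := μ) (LinearMap.mulLeft ℝ a) fun ω => val h f c ω).symm
      simp only [LinearMap.mulLeft_apply, h0, mul_zero] at h1
      exact h1
    · rw [mul_assoc]
      exact Sums.single (W.cmul_kw a ha hc _ (Or.inr (Orth.FW.step ⟨_, h, f⟩ ⟨hn, hf⟩ Q hQ)))
  | add G G' _ _ h h' =>
    obtain ⟨a, R, ha, hac, rfl, hR0, hRQ⟩ := h
    obtain ⟨a', R', ha', hac', rfl, hR0', hRQ'⟩ := h'
    refine ⟨a + a', R + R', add_mem ha ha', hac.add hac', ?_, fun c => ?_, fun Q hQ => ?_⟩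
    · rw [show (cst (a + a') : Rand A e L) = cst a + cst a' from rfl]; abel
    · rw [show (R + R') c = fun ω => R c ω + R' c ω from rfl, Orth.avg_add, hR0, hR0', add_zero]
    · rw [add_mul]; exact (hRQ Q hQ).add (hRQ' Q hQ)

theorem tendsto_inner_sums {Q K : Rand A e L}
    (hQ : Sums (PiW M A e φ μ) Q) (hK : Sums (KW M A e φ μ) K) :
    Tendsto (etr φ μ (star Q * K)) (fine A e) (𝓝 0) := by
  induction hQ with
  | zero => rw [star_zero, zero_mul]; exact tendsto_etr_zero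
  | cons G G' hG _ ih =>
    rw [star_add, add_mul]
    refine tendsto_etr_add ?_ ih
    clear ih
    induction hK with
    | zero => rw [mul_zero]; exact tendsto_etr_zero
    | cons K K' hK _ ih => rw [mul_add]; exact tendsto_etr_add (W.inner _ _ hG hK) ih

omit W in
theorem cor_avg {F : Rand A e L} (hF : Good M F) (c : Cut A e) : Cor M e (avg μ (F c)) := by
  obtain ⟨_, _, hF⟩ := hF
  rw [Orth.avg_eq]
  exact Cor.sum _ fun ω _ => (hF c ω).1.rsmul _

omit W in
theorem norm_avg_le {F : Rand A e L} {C : ℝ} (hF : ∀ c ω, ‖F c ω‖ ≤ C) (c : Cut A e) :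
    ‖avg μ (F c)‖ ≤ C := by
  rw [Orth.avg_eq]
  refine (norm_sum_le _ _).trans ((Finset.sum_le_sum fun ω _ => ?_).trans
    (by rw [← Finset.sum_mul, sum_wt S, one_mul] : ∑ ω, Orth.wt μ ω * C ≤ C))
  rw [norm_smul, Real.norm_of_nonneg (wt_nonneg S ω)]
  exact mul_le_mul_of_nonneg_left (hF c ω) (wt_nonneg S ω)

omit W in
theorem n2_avg_le {F : Rand A e L} (hF : Good M F) (c : Cut A e) :
    n2 φ (avg μ (F c)) ≤ nr φ μ F c := by
  obtain ⟨_, _, hF⟩ := hF
  have hsum : ∀ s : Finset (Fin c.n → L),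
      n2 φ (∑ ω ∈ s, Orth.wt μ ω • F c ω) ≤ ∑ ω ∈ s, Orth.wt μ ω * n2 φ (F c ω) := by
    classical
    intro s
    induction s using Finset.induction_on with
    | empty => simp [n2]
    | insert i s hi ih =>
      rw [Finset.sum_insert hi, Finset.sum_insert hi]
      exact (n2_add_le S.hS S.he ((hF c i).1.rsmul _)
        (Cor.sum _ fun j _ => (hF c j).1.rsmul _)).trans
        (add_le_add (n2_rsmul (wt_nonneg S i) _).le ih)
  rw [Orth.avg_eq]
  refine (hsum _).trans ?_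
  have h := avg_mul_le S (fun _ : Fin c.n → L => (1 : ℝ)) fun ω => n2 φ (F c ω)
  simp only [one_mul, one_pow, avg_const S, Real.sqrt_one, Orth.avg_eq, smul_eq_mul] at h
  exact h

/-- A random field with mean at most `κ` is small on words starting with an orthogonal operator. -/
theorem field_on_pi {p : Rand A e L}
    (hp : ∀ c ω, Cor M e (p c ω) ∧ IsStarProjection (p c ω))
    (hpF : Near M φ μ (fun V => Lim M φ μ (Lin M A e μ) V ∧ ∀ c ω, ‖V c ω‖ ≤ 3) p)
    {κ : ℝ} (hκ : ∀ᶠ c in fine A e, avg μ (p c) ≤ κ • e) {Q : Rand A e L}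
    (hQ : Sums (PiW M A e φ μ) Q) {η : ℝ} (hη : 0 < η) :
    ∀ᶠ c in fine A e, nr φ μ (p * Q) c ^ 2 ≤ κ * nr φ μ Q c ^ 2 + η := by
  have hQr := sums_goodR S W W.piW_goodR hQ
  obtain ⟨C, hC, hQb⟩ := hQr.1
  have hQg : Good M Q := ⟨C, hC, hQb⟩
  set N := C * n2 φ e + 1 with hN
  have hN0 : 0 < N := by have := n2_nonneg (τ := φ) e; positivity
  set θ := η / (5 * N)
  have hθ : 0 < θ := by positivity
  obtain ⟨δ, hδ, hright⟩ := nr_right S hQr 4 hθ
  obtain ⟨V, ⟨⟨G, hG, hGr, hVG⟩, hV3⟩, hVr, hd⟩ := hpF δ hδ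
  obtain ⟨a, R, ha, hac, rfl, hR0, hRQ⟩ := lin_parts S W hG
  obtain ⟨_, _, hVb⟩ := hVr.1
  have hpg : Good M p := ⟨1, zero_le_one, fun c ω => ⟨(hp c ω).1, (hp c ω).2.norm_le⟩⟩
  -- the five small parts
  set T₁ : Rand A e L := p - V with hT₁
  set T₂ : Rand A e L := V - (cst a + R) with hT₂
  set T₃ : Rand A e L := fun c _ => a - avg μ (V c) with hT₃
  set T₄ : Rand A e L := fun c _ => avg μ (V c) - avg μ (p c) with hT₄
  have hT₁b : ∀ c ω, Cor M e (T₁ c ω) ∧ ‖T₁ c ω‖ ≤ 4 := fun c ω => ⟨(hp c ω).1.sub (hVb c ω).1,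
    (norm_sub_le _ _).trans (by linarith [(hp c ω).2.norm_le, hV3 c ω])⟩
  have hT₄b : ∀ c ω, Cor M e (T₄ c ω) ∧ ‖T₄ c ω‖ ≤ 4 := fun c ω =>
    ⟨(cor_avg S hVr.1 c).sub (cor_avg S hpg c), (norm_sub_le _ _).trans (by
      linarith [norm_avg_le S hV3 c, norm_avg_le S (fun c ω => (hp c ω).2.norm_le) c])⟩
  have hT₂g : Good M T₂ := hVr.1.sub hGr.1
  have hT₃g : Good M T₃ := ⟨‖a‖ + 3, by positivity, fun c ω => ⟨hac.sub (cor_avg S hVr.1 c),
    (norm_sub_le _ _).trans (add_le_add le_rfl (norm_avg_le S hV3 c))⟩⟩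
  have hT₃0 : Tendsto (nr φ μ T₃) (fine A e) (𝓝 0) := by
    refine squeeze_zero (fun c => Orth.nr_nonneg _ _) (fun c => ?_) hVG
    have hn : nr φ μ T₃ c = n2 φ (a - avg μ (V c)) := by
      simp only [nr, hT₃, avg_const S, Real.sqrt_sq (n2_nonneg _)]
    rw [hn, ← n2_neg, neg_sub]
    refine le_trans (le_of_eq ?_) (n2_avg_le S hT₂g c)
    congr 1
    show avg μ (V c) - a = avg μ fun ω => V c ω - (a + R c ω)
    rw [Orth.avg_sub, Orth.avg_add, avg_const S, hR0, add_zero]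
  have hRQ' : Sums (KW M A e φ μ) (R * Q) := hQ.map R fun Q' hQ' => hRQ Q' hQ'
  filter_upwards [hd, hκ,
    (tendsto_mul_right S hT₂g hQr hVG).eventually (eventually_le_nhds hθ),
    (tendsto_mul_right S hT₃g hQr hT₃0).eventually (eventually_le_nhds hθ),
    Metric.tendsto_nhds.1 (tendsto_inner_sums S W hQ hRQ') (η / 5) (by positivity)]
    with c hdc hkc h2 h3 hRc
  rw [dist_zero_right] at hRc
  have h1 : nr φ μ (T₁ * Q) c ≤ θ := hright T₁ hT₁b c hdc
  have h4 : nr φ μ (T₄ * Q) c ≤ θ := by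
    refine hright T₄ hT₄b c (le_trans ?_ hdc)
    have hn : nr φ μ T₄ c = n2 φ (avg μ (V c) - avg μ (p c)) := by
      simp only [nr, hT₄, avg_const S, Real.sqrt_sq (n2_nonneg _)]
    rw [hn, ← n2_neg, neg_sub]
    refine le_trans (le_of_eq ?_) (n2_avg_le S (hpg.sub hVr.1) c)
    congr 1
    exact (Orth.avg_sub _ _).symm
  -- the projection
  have hsq : nr φ μ (p * Q) c ^ 2 = (etr φ μ (star Q * (p * Q)) c).re := by
    rw [← etr_star_self S (hpg.mul S.he hQg)]
    congr 2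
    funext c ω
    simp only [Pi.mul_apply, Pi.star_apply, star_mul, (hp c ω).2.isSelfAdjoint.star_eq]
    calc star (Q c ω) * p c ω * (p c ω * Q c ω) = star (Q c ω) * (p c ω * p c ω) * Q c ω := by
          simp only [mul_assoc]
      _ = star (Q c ω) * (p c ω * Q c ω) := by
          rw [(hp c ω).2.isIdempotentElem.eq, mul_assoc]
  have hQn : nr φ μ Q c ≤ N := (nr_le_bound S hC hQb c).trans (by simp [hN])
  have hsmall : ∀ T : Rand A e L, Good M T → nr φ μ (T * Q) c ≤ θ →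
      ‖etr φ μ (star Q * (T * Q)) c‖ ≤ η / 5 := by
    intro T hT hn
    refine (norm_etr_le S hQg (hT.mul S.he hQg) c).trans
      ((mul_le_mul hQn hn (Orth.nr_nonneg _ _) hN0.le).trans (le_of_eq ?_))
    simp only [θ]
    field_simp
  set B := avg μ (p c)
  set Bc : Rand A e L := fun c' _ => avg μ (p c') with hBcdef
  have hsplit : star Q * (p * Q) = star Q * (T₁ * Q) + (star Q * (T₂ * Q) + (star Q * (T₃ * Q) +
      (star Q * (T₄ * Q) + (star Q * (R * Q) + star Q * (Bc * Q))))) := by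
    have hDB : (cst a : Rand A e L) = T₃ + (T₄ + Bc) := by
      funext c' ω; simp [hT₃, hT₄, hBcdef, cst]
    rw [← mul_add, ← mul_add, ← mul_add, ← mul_add, ← mul_add, ← add_mul, ← add_mul, ← add_mul,
      ← add_mul, ← add_mul]
    congr 2
    rw [hT₁, hT₂, hDB]
    abel
  have hB : (etr φ μ (star Q * (Bc * Q)) c).re ≤ κ * nr φ μ Q c ^ 2 := by
    rw [← etr_star_self S hQg]
    simp only [etr, Orth.avg_eq, Complex.re_sum, Complex.smul_re, Pi.mul_apply, Pi.star_apply,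
      hBcdef]
    rw [Finset.mul_sum]
    refine Finset.sum_le_sum fun ω _ => ?_
    rw [smul_eq_mul, smul_eq_mul, mul_left_comm]
    refine mul_le_mul_of_nonneg_left ?_ (wt_nonneg S ω)
    have hq := (hQb c ω).1
    have hc1 : Cor M e (star (Q c ω) * (B * Q c ω)) :=
      (hq.star' S.he).mul S.he ((cor_avg S hpg c).mul S.he hq)
    rw [← tr_rsmul]
    refine tr_mono S.hS S.he hc1 (((hq.star' S.he).mul S.he hq).rsmul κ) ?_
    have h5 := conj_le hkc (Q c ω)
    simp only [mul_smul_comm, smul_mul_assoc, mul_assoc, hq.mul_left S.he] at h5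
    exact h5
  have e1 := (Complex.re_le_norm _).trans (hsmall T₁ (hpg.sub hVr.1) h1)
  have e2 := (Complex.re_le_norm _).trans (hsmall T₂ hT₂g h2)
  have e3 := (Complex.re_le_norm _).trans (hsmall T₃ hT₃g h3)
  have e4 := (Complex.re_le_norm _).trans (hsmall T₄ ⟨4, by norm_num, hT₄b⟩ h4)
  have e5 := (Complex.re_le_norm (etr φ μ (star Q * (R * Q)) c)).trans hRc.le
  rw [hsq, hsplit, Orth.etr_add, Orth.etr_add, Orth.etr_add, Orth.etr_add, Orth.etr_add]
  simp only [Complex.add_re]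
  linarith

omit W in
theorem nr_mul_le_one {p F : Rand A e L} (hp : ∀ c ω, Cor M e (p c ω) ∧ ‖p c ω‖ ≤ 1)
    (hF : Good M F) (c : Cut A e) : nr φ μ (p * F) c ≤ nr φ μ F c := by
  simpa using nr_mul_le S zero_le_one hp hF c

/-- One block step loses a factor `2 √κ ‖m‖`. -/
theorem step_bound {p : Rand A e L}
    (hp : ∀ c ω, Cor M e (p c ω) ∧ IsStarProjection (p c ω)) 
    (hpF : Near M φ μ (fun V => Lim M φ μ (Lin M A e μ) V ∧ ∀ c ω, ‖V c ω‖ ≤ 3) p)
    {κ : ℝ} (hκ0 : 0 ≤ κ) (hκ : ∀ᶠ c in fine A e, avg μ (p c) ≤ κ • e) {m : H →L[ℂ] H}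
    (hm : Perp M A e φ m) {v : Rand A e L} (hv : Good M v)
    (hu : Near M φ μ (Dec M A e φ μ) (p * v)) {η : ℝ} (hη : 0 < η) :
    ∀ᶠ c in fine A e, nr φ μ (p * cst m * (p * v)) c ≤
      2 * Real.sqrt κ * ‖m‖ * nr φ μ v c + η := by
  have hpb : ∀ c ω, Cor M e (p c ω) ∧ ‖p c ω‖ ≤ 1 := fun c ω => ⟨(hp c ω).1, (hp c ω).2.norm_le⟩
  have hpg : Good M p := ⟨1, zero_le_one, hpb⟩
  set s := Real.sqrt κ
  have hs : 0 ≤ s := Real.sqrt_nonneg κ
  have hs2 : s ^ 2 = κ := Real.sq_sqrt hκ0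
  obtain ⟨Cv, hCv, hvb⟩ := hv
  have hv : Good M v := ⟨Cv, hCv, hvb⟩
  set V := Cv * n2 φ e
  have hV0 : 0 ≤ V := mul_nonneg hCv (n2_nonneg _)
  set θ := η / (4 * (‖m‖ + 1) * (s + 1))
  have hθ : 0 < θ := by positivity
  set δ := θ ^ 2 / (4 * (V + 1))
  have hδ : 0 < δ := by positivity
  set η₁ := θ / 4
  obtain ⟨G, ⟨K, Q, hK, hQ, rfl⟩, hGg, hd⟩ := hu η₁ (by positivity)
  have hKg := (sums_goodR S W W.kw_goodR hK).1
  have hQg := (sums_goodR S W W.piW_goodR hQ).1
  have hQ1 : Sums (PiW M A e φ μ) (cst m * K) := hK.map _ fun G hG => Sums.single (W.piW_kw m hm G hG)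
  have hug : Good M (p * v) := hpg.mul S.he hv
  have hT := (Orth.good_cst hm.1).mul S.he hug (F := (cst m : Rand A e L))
  filter_upwards [hd, Metric.tendsto_nhds.1 (tendsto_inner_sums S W hQ hK) δ hδ,
    field_on_pi S W hp hpF hκ hQ (pow_pos hδ 2),
    field_on_pi S W hp hpF hκ hQ1 (pow_pos hθ 2)] with c hdc hip hpQ hpQ1
  rw [dist_zero_right] at hip
  have hvV : nr φ μ v c ≤ V := by
    exact nr_le_bound S hCv hvb c
  set y := nr φ μ Q c
  set z := nr φ μ K c
  set W := nr φ μ v c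
  have hy : 0 ≤ y := Orth.nr_nonneg _ _
  have hW : 0 ≤ W := Orth.nr_nonneg _ _
  have hQr : (etr φ μ (star Q * (K + Q)) c).re = (etr φ μ (star Q * K) c).re + y ^ 2 := by
    rw [mul_add, Orth.etr_add, Complex.add_re, etr_star_self S hQg]
  have hreK := abs_le.1 ((Complex.abs_re_le_norm (etr φ μ (star Q * K) c)).trans hip.le)
  -- the second part of the vector
  have hpQ' : nr φ μ (p * Q) c ≤ s * y + δ := by
    refine (sq_le_sq₀ (Orth.nr_nonneg _ _) (by positivity)).1 (hpQ.trans ?_)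
    rw [← hs2]
    nlinarith [mul_nonneg (mul_nonneg hs hy) hδ.le]
  have hy_le : y ≤ s * W + η₁ + Real.sqrt (δ * (V + 1)) := by
    refine real_lemma (by positivity) (by positivity) hy hs hW ?_
    have h1 : (etr φ μ (star Q * (p * v)) c).re ≤ (s * y + δ) * W := by
      refine ((Complex.re_le_norm _).trans ?_).trans (mul_le_mul_of_nonneg_right hpQ' hW)
      refine le_trans (le_of_eq ?_) (norm_etr_le S (hpg.mul S.he hQg) hv c)
      congr 2
      funext c ω
      simp only [Pi.mul_apply, Pi.star_apply, star_mul, (hp c ω).2.isSelfAdjoint.star_eq, mul_assoc]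
    have h2 := (Complex.re_le_norm _).trans
      (norm_etr_le S hQg ((hKg.add hQg).sub hug) c)
    rw [mul_sub, Orth.etr_sub, Complex.sub_re, hQr] at h2
    have h3 : nr φ μ (K + Q - p * v) c ≤ η₁ := by
      refine le_trans (le_of_eq ?_) hdc
      simp only [nr, avg, Pi.sub_apply, Pi.add_apply]
      congr 1
      refine Finset.sum_congr rfl fun ω _ => ?_
      rw [← n2_neg, neg_sub]
    have h4 : y * nr φ μ (K + Q - p * v) c ≤ y * η₁ := mul_le_mul_of_nonneg_left h3 hy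
    have h5 : δ * W ≤ δ * V := mul_le_mul_of_nonneg_left hvV hδ.le
    nlinarith
  have hz_le : z ≤ W + η₁ + Real.sqrt (2 * δ) := by
    have hKQ : nr φ μ (K + Q) c ≤ W + η₁ := by
      have := nr_add_le S ((hKg.add hQg).sub hug) hug c
      rw [sub_add_cancel] at this
      have h3 : nr φ μ (K + Q - p * v) c ≤ η₁ := by
        refine le_trans (le_of_eq ?_) hdc
        simp only [nr, avg, Pi.sub_apply, Pi.add_apply]
        congr 1
        refine Finset.sum_congr rfl fun ω _ => ?_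
        rw [← n2_neg, neg_sub]
      have := nr_mul_le_one S hpb hv c
      linarith
    have e1 : nr φ μ (K + Q) c ^ 2 = z ^ 2 + y ^ 2 + 2 * (etr φ μ (star Q * K) c).re := by
      rw [← etr_star_self S (hKg.add hQg), ← etr_star_self S hKg, ← etr_star_self S hQg,
        star_add, add_mul, mul_add, mul_add, Orth.etr_add, Orth.etr_add, Orth.etr_add]
      have hc : (etr φ μ (star K * Q) c).re = (etr φ μ (star Q * K) c).re :=
        re_etr_comm S hQg hKg c
      simp only [Complex.add_re, hc]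
      ring
    refine (sq_le_sq₀ (Orth.nr_nonneg _ _) (by positivity)).1 ?_
    have h2 : nr φ μ (K + Q) c ^ 2 ≤ (W + η₁) ^ 2 := pow_le_pow_left₀ (Orth.nr_nonneg _ _) hKQ 2
    have hs2δ := Real.sq_sqrt (show (0 : ℝ) ≤ 2 * δ by positivity)
    have : 0 ≤ (W + η₁) * Real.sqrt (2 * δ) := by positivity
    nlinarith
  -- the three parts
  have hTn : ∀ F : Rand A e L, Good M F → nr φ μ (p * (cst m * F)) c ≤ ‖m‖ * nr φ μ F c :=
    fun F hF => (nr_mul_le_one S hpb ((Orth.good_cst hm.1).mul S.he hF) c).trans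
      (nr_mul_le S (norm_nonneg m) (fun _ _ => ⟨hm.1, le_rfl⟩) hF c)
  have hpK : nr φ μ (p * (cst m * K)) c ≤ s * (‖m‖ * z) + θ := by
    refine (sq_le_sq₀ (Orth.nr_nonneg _ _) (add_nonneg
      (mul_nonneg hs (mul_nonneg (norm_nonneg m) (Orth.nr_nonneg _ _))) hθ.le)).1 (hpQ1.trans ?_)
    have := pow_le_pow_left₀ (Orth.nr_nonneg _ _)
      (nr_mul_le S (norm_nonneg m) (fun _ _ => ⟨hm.1, le_rfl⟩) hKg c (F := cst m)) 2
    have := mul_le_mul_of_nonneg_left this hκ0
    rw [← hs2] at this ⊢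
    nlinarith [mul_nonneg (mul_nonneg hs (mul_nonneg (norm_nonneg m) (Orth.nr_nonneg (τ := φ) (μ := μ) K c))) hθ.le]
  have hdec : p * cst m * (p * v) =
      p * (cst m * K) + (p * (cst m * Q) + p * (cst m * (p * v - (K + Q)))) := by
    rw [mul_assoc, ← mul_add, ← mul_add, ← mul_add, ← mul_add]
    congr 2
    abel
  rw [hdec]
  have mK := (Orth.good_cst hm.1).mul S.he hKg (F := (cst m : Rand A e L))
  have mQ := (Orth.good_cst hm.1).mul S.he hQg (F := (cst m : Rand A e L))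
  have mR := (Orth.good_cst hm.1).mul S.he (hug.sub (hKg.add hQg)) (F := (cst m : Rand A e L))
  refine (nr_add_le S (hpg.mul S.he mK) ((hpg.mul S.he mQ).add (hpg.mul S.he mR)) c).trans ?_
  refine (add_le_add hpK ((nr_add_le S (hpg.mul S.he mQ) (hpg.mul S.he mR) c).trans
    (add_le_add (hTn Q hQg) ((hTn _ (hug.sub (hKg.add hQg))).trans
      (mul_le_mul_of_nonneg_left hdc (norm_nonneg m)))))).trans ?_
  exact step_arith hs (norm_nonneg m) hW hV0 hθ rfl hη (by simp only [θ]; field_simp) hz_le hy_le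

/-- The blocks of a random field colour have small moments. -/
theorem power_bound {p : Rand A e L}
    (hp : ∀ c ω, Cor M e (p c ω) ∧ IsStarProjection (p c ω)) 
    (hpF : Near M φ μ (fun V => Lim M φ μ (Lin M A e μ) V ∧ ∀ c ω, ‖V c ω‖ ≤ 3) p)
    (hpA : ∀ c ω, p c ω ∈ A) {κ : ℝ} (hκ0 : 0 ≤ κ) (hκ : ∀ᶠ c in fine A e, avg μ (p c) ≤ κ • e) {m : H →L[ℂ] H}
    (hm : Perp M A e φ m) : ∀ k : ℕ,
    ∃ v : Rand A e L, Good M v ∧ (∀ c ω, v c ω = (p c ω * m * p c ω) ^ k * p c ω) ∧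
      Near M φ μ (Dec M A e φ μ) v ∧ ∀ η : ℝ, 0 < η → ∀ᶠ c in fine A e,
        nr φ μ v c ≤ (2 * Real.sqrt κ * ‖m‖) ^ k * nr φ μ p c + η := by
  have hpg : Good M p := ⟨1, zero_le_one, fun c ω => ⟨(hp c ω).1, (hp c ω).2.norm_le⟩⟩
  have hpr : GoodR M φ p := goodR_mem S hpg hpA
  have pDec : ∀ {v : Rand A e L}, Good M v → Near M φ μ (Dec M A e φ μ) v →
      Near M φ μ (Dec M A e φ μ) (p * v) := fun {v} hv h =>
    h.mul_left S hpr hv fun G hG hGr => hpF.mul_right S hGr hpg fun V hV hVr => by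
      obtain ⟨R, hR, hRr, ht⟩ := hV
      have h1 : Lim M φ μ (fun X => X = R * G) (V * G) := ⟨R * G, rfl, hRr.mul S hGr, by
        rw [← sub_mul]; exact tendsto_mul_right S (hVr.1.sub hRr.1) hGr ht⟩
      exact h1.near.bind S (hVr.1.mul S.he hGr.1) fun X hX _ => hX ▸ W.dec_lin R hR G hG
  intro k
  induction k with
  | zero =>
    refine ⟨p, hpg, fun c ω => by simp, ?_, fun η hη => Eventually.of_forall fun c => by
      rw [pow_zero, one_mul]; linarith⟩
    have h := pDec (Orth.good_cst (cor_e S)) (Near.self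
      (Dec.of_k (Sums.single (Or.inl ⟨e, proj_mem_normSpan S.heA S.he, rfl⟩)))
      (goodR_cst S (cor_e S)))
    rwa [show p * cst e = p from funext fun c => funext fun ω => (hp c ω).1.mul_right S.he] at h
  | succ k ih =>
    obtain ⟨v, hv, hveq, hvd, hvb⟩ := ih
    have hu := pDec hv hvd
    have hmu : Good M (cst m * (p * v) : Rand A e L) := (Orth.good_cst hm.1).mul S.he (hpg.mul S.he hv)
    refine ⟨p * cst m * (p * v), (hpg.mul S.he (Orth.good_cst hm.1)).mul S.he (hpg.mul S.he hv),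
      fun c ω => ?_, ?_, fun η hη => ?_⟩
    · simp only [Pi.mul_apply, cst, hveq, pow_succ', mul_assoc]
    · rw [mul_assoc]
      exact pDec hmu (hu.mul_left S (goodR_cst S hm.1) (hpg.mul S.he hv)
        fun G hG _ => W.dec_cmul m hm.1 G hG)
    · set ρ := 2 * Real.sqrt κ * ‖m‖
      have hρ : 0 ≤ ρ := by positivity
      filter_upwards [step_bound S W hp hpF hκ0 hκ hm hv hu (half_pos hη),
        hvb (η / (2 * (ρ + 1))) (by positivity)] with c h1 h2
      refine h1.trans ?_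
      have h3 := mul_le_mul_of_nonneg_left h2 hρ
      have h4 : ρ * (η / (2 * (ρ + 1))) ≤ η / 2 := by
        calc ρ * (η / (2 * (ρ + 1))) ≤ (ρ + 1) * (η / (2 * (ρ + 1))) := by gcongr; linarith
          _ = η / 2 := by field_simp
      rw [pow_succ]
      nlinarith

end

/-- Random fields with small mean pave operators orthogonal to the normaliser. -/
theorem general_noise_of_facts
    (hW : ∀ (H : Type) [NormedAddCommGroup H] [InnerProductSpace ℂ H] [CompleteSpace H]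
      (M A : VonNeumannAlgebra H) (e : H →L[ℂ] H) (φ : (H →L[ℂ] H) →ₗ[ℂ] ℂ) (L : Type) [Fintype L]
      (μ : L → ℝ), Setting M A e φ μ → WordFacts M A e φ μ) :
    GeneralNoiseStatement := by
  intro H _ _ _ M A e φ hA heA he hS L _ μ hμ0 hμ1 r κ P hκ0 hP hF hmean m hm hms u δ hu hδ
  have S : Setting M A e φ μ := ⟨hA, heA, he, hS, hμ0, hμ1⟩
  have W := hW H M A e φ L μ S
  set ρ := 2 * Real.sqrt κ * ‖m‖
  have hρ : 0 ≤ ρ := by positivity
  have hu0 : 0 < u := lt_of_le_of_lt hρ hu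
  have hτe : 0 ≤ (φ e).re := tr_nonneg hS he (cor_proj (hA.1 e heA) he) he.nonneg
  have hq : ρ / u < 1 := (div_lt_one hu0).2 hu
  obtain ⟨k, hk⟩ := exists_pow_lt_of_lt_one
    (show 0 < δ / (2 * (2 * u ^ 2 * ((φ e).re + 1))) by positivity) (y := (ρ / u) ^ 2)
    (by nlinarith [div_nonneg hρ hu0.le])
  set j := k + 1 with hj
  have hkj : ((ρ / u) ^ 2) ^ j ≤ ((ρ / u) ^ 2) ^ k :=
    pow_le_pow_of_le_one (sq_nonneg _) (by nlinarith [div_nonneg hρ hu0.le]) (by omega)
  set p : Fin r → Rand A e L := fun s c ω => P c ω s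
  have hp : ∀ s c ω, Cor M e (p s c ω) ∧ IsStarProjection (p s c ω) := fun s c ω =>
    ⟨Cor.of_abs he (hA.1 _ ((hP c ω).1 s).1) ((hP c ω).mul_e s).1 ((hP c ω).mul_e s).2,
      ((hP c ω).1 s).2⟩
  have hpg : ∀ s, Good M (p s) := fun s =>
    ⟨1, zero_le_one, fun c ω => ⟨(hp s c ω).1, (hp s c ω).2.norm_le⟩⟩
  set c₂ := 2 * u ^ 2 / u ^ (2 * j)
  have hc₂ : 0 ≤ c₂ := by positivity
  set E := ρ ^ j
  set N := n2 φ e
  set η := min 1 (δ / (2 * ((c₂ + 1) * (r + 1) * (2 * E * N + 1))))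
  have hE : 0 ≤ E := by positivity
  have hN : 0 ≤ N := n2_nonneg _
  have hη : 0 < η := lt_min one_pos (by positivity)
  have hall : ∀ s, ∀ᶠ c in fine A e,
      (avg μ fun ω => n2 φ ((p s c ω * m * p s c ω) ^ j) ^ 2) ≤
        (E * nr φ μ (p s) c + η) ^ 2 := by
    intro s
    obtain ⟨v, hv, hveq, -, hvb⟩ := power_bound S W (hp s) (field_near_lin S W (hp s) (fun c ω => ((hP c ω).1 s).1) (hF s))
      (fun c ω => ((hP c ω).1 s).1) hκ0 (hmean.mono fun c hc => hc s) hm j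
    filter_upwards [hvb η hη] with c hc
    have e1 : ∀ ω, v c ω = (p s c ω * m * p s c ω) ^ j := fun ω => by
      rw [hveq, hj, pow_succ, mul_assoc, mul_assoc (p s c ω * m),
        (hp s c ω).2.isIdempotentElem.eq]
    simp only [← e1, ← nr_sq S]
    exact pow_le_pow_left₀ (Orth.nr_nonneg _ _) hc 2
  filter_upwards [eventually_all.2 hall] with c hc
  refine (avg_mono S fun ω => excess_moment hA he hS (hP c ω) hm.1 hms hu0 (k := j) (by omega)).trans
    ?_
  have e2 : (avg μ fun ω => c₂ * ∑ s, n2 φ ((P c ω s * m * P c ω s) ^ j) ^ 2) =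
      c₂ * ∑ s, avg μ fun ω => n2 φ ((p s c ω * m * p s c ω) ^ j) ^ 2 := by
    simp only [Orth.avg_eq, smul_eq_mul, Finset.mul_sum]
    rw [Finset.sum_comm]
    exact Finset.sum_congr rfl fun s _ => Finset.sum_congr rfl fun ω _ => by simp only [p]; ring
  rw [e2]
  have hnrp : ∀ s, nr φ μ (p s) c ≤ N := fun s => by
    simpa using nr_le_bound S zero_le_one
      (fun c ω => ⟨(hp s c ω).1, (hp s c ω).2.norm_le⟩) c
  have hsum : ∑ s, nr φ μ (p s) c ^ 2 = (φ e).re := by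
    simp only [nr_sq S, Orth.avg_eq, smul_eq_mul]
    rw [Finset.sum_comm]
    have h1 : ∀ ω : Fin c.n → L, ∑ s, Orth.wt μ ω * n2 φ (p s c ω) ^ 2 = Orth.wt μ ω * (φ e).re := by
      intro ω
      rw [← Finset.mul_sum]
      congr 1
      rw [← (hP c ω).2.2, map_sum, Complex.re_sum]
      exact Finset.sum_congr rfl fun s _ => by
        rw [n2_sq hS he (hp s c ω).1, (hp s c ω).2.isSelfAdjoint.star_eq,
          (hp s c ω).2.isIdempotentElem.eq]
    rw [Finset.sum_congr rfl fun ω _ => h1 ω, ← Finset.sum_mul, sum_wt S, one_mul]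
  have hb : ∑ s, (avg μ fun ω => n2 φ ((p s c ω * m * p s c ω) ^ j) ^ 2) ≤
      E ^ 2 * (φ e).re + r * ((2 * E * N + 1) * η) := by
    refine (Finset.sum_le_sum fun s _ => (hc s).trans (?_ :
      _ ≤ E ^ 2 * nr φ μ (p s) c ^ 2 + (2 * E * N + 1) * η)).trans (le_of_eq ?_)
    · have h5 : 2 * E * nr φ μ (p s) c ≤ 2 * E * N :=
        mul_le_mul_of_nonneg_left (hnrp s) (by positivity)
      have h6 : η ≤ 1 := min_le_left _ _
      nlinarith [mul_le_mul_of_nonneg_right h5 hη.le, mul_le_mul_of_nonneg_left h6 hη.le]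
    · rw [Finset.sum_add_distrib, ← Finset.mul_sum, hsum, Finset.sum_const, Finset.card_univ,
        Fintype.card_fin, nsmul_eq_mul]
  refine (mul_le_mul_of_nonneg_left hb hc₂).trans ?_
  have hmain : c₂ * (E ^ 2 * (φ e).re) ≤ δ / 2 := by
    have e3 : c₂ * E ^ 2 = 2 * u ^ 2 * ((ρ / u) ^ 2) ^ j := by
      simp only [c₂, E, div_pow, ← pow_mul]
      field_simp
      ring_nf
    calc c₂ * (E ^ 2 * (φ e).re) = 2 * u ^ 2 * ((ρ / u) ^ 2) ^ j * (φ e).re := by
          rw [← mul_assoc, e3]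
      _ ≤ 2 * u ^ 2 * (δ / (2 * (2 * u ^ 2 * ((φ e).re + 1)))) * ((φ e).re + 1) :=
          mul_le_mul (mul_le_mul_of_nonneg_left (hkj.trans hk.le) (by positivity)) (by linarith)
            hτe (by positivity)
      _ = δ / 2 := by field_simp
  have hsmall : c₂ * (r * ((2 * E * N + 1) * η)) ≤ δ / 2 := by
    have h7 : η ≤ δ / (2 * ((c₂ + 1) * (r + 1) * (2 * E * N + 1))) := min_le_right _ _
    calc c₂ * (r * ((2 * E * N + 1) * η)) ≤
          (c₂ + 1) * ((r + 1) * ((2 * E * N + 1) * η)) := by gcongr <;> linarith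
      _ ≤ (c₂ + 1) * ((r + 1) * ((2 * E * N + 1) *
            (δ / (2 * ((c₂ + 1) * (r + 1) * (2 * E * N + 1)))))) := by gcongr
      _ = δ / 2 := by field_simp
  rw [mul_add]
  linarith

end Vale.Agent.P078.State
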