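import Vale.Agent.P078.State.Density

/-!
Elements of the span of the normaliser which act boundedly from the right in the 2-norm of a
state: they are dense, and they detect orthogonality to the span.
-/

namespace Vale.Agent.P078.State

open Filter Topology MKS Singular

set_option linter.unusedSectionVars false

variable {H : Type} [NormedAddCommGroup H] [InnerProductSpace ℂ H] [CompleteSpace H]
variable {M A : VonNeumannAlgebra H} {e : H →L[ℂ] H} {φ : (H →L[ℂ] H) →ₗ[ℂ] ℂ}

/-- Right multiplication by `z` is bounded for the 2-norm. -/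
def Bd (M : VonNeumannAlgebra H) (e : H →L[ℂ] H) (φ : (H →L[ℂ] H) →ₗ[ℂ] ℂ)
    (z : H →L[ℂ] H) : Prop :=
  ∃ C : ℝ, 0 ≤ C ∧ ∀ y, Cor M e y → n2 φ (y * z) ≤ C * n2 φ y

/-- An element of the span of the normaliser bounded from the right together with its adjoint. -/
def BdSpan (M A : VonNeumannAlgebra H) (e : H →L[ℂ] H) (φ : (H →L[ℂ] H) →ₗ[ℂ] ℂ)
    (z : H →L[ℂ] H) : Prop :=
  z ∈ normSpan M A e ∧ Bd M e φ z ∧ Bd M e φ (star z)

/-- Every generator of the span is a translate times an element of `A`. -/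
theorem gen_split (hA : IsMASA M A) (heA : e ∈ A) (he : IsStarProjection e) {a v : H →L[ℂ] H}
    (ha : a ∈ A) (hv : v ∈ normaliser M A) (hc : e * (a * v) * e = a * v) :
    ∃ b ∈ A, ∃ w, Orth.NorC M A e w ∧ a * v = b * w := by
  have hen : e ∈ normaliser M A := ⟨hA.1 e heA, by
    rw [he.isSelfAdjoint.star_eq, he.isIdempotentElem.eq, he.isIdempotentElem.eq], fun b hb => by
    rw [he.isSelfAdjoint.star_eq]
    exact ⟨mul_mem (mul_mem heA hb) heA, mul_mem (mul_mem heA hb) heA⟩⟩
  refine ⟨a * e, mul_mem ha heA, e * v * e, ⟨normaliser_mul hA (normaliser_mul hA hen hv) hen, by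
    simp only [← mul_assoc, he.isIdempotentElem.eq]
    simp only [mul_assoc, he.isIdempotentElem.eq]⟩, ?_⟩
  calc a * v = e * (a * v) * e := hc.symm
    _ = (e * a) * v * e := by simp only [mul_assoc]
    _ = a * (e * e) * v * e := by rw [hA.2.1 e heA a ha, he.isIdempotentElem.eq]
    _ = _ := by simp only [mul_assoc]

section

variable (hA : IsMASA M A) (heA : e ∈ A) (he : IsStarProjection e) (S : IsState M A e φ)
include hA heA he S

theorem Bd.add {z w : H →L[ℂ] H} (hz : Bd M e φ z) (hw : Bd M e φ w) (hzc : Cor M e z)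
    (hwc : Cor M e w) : Bd M e φ (z + w) := by
  obtain ⟨C, hC, h⟩ := hz
  obtain ⟨D, hD, h'⟩ := hw
  refine ⟨C + D, add_nonneg hC hD, fun y hy => ?_⟩
  rw [mul_add, add_mul]
  exact (n2_add_le S he (hy.mul he hzc) (hy.mul he hwc)).trans (add_le_add (h y hy) (h' y hy))

theorem Bd.smul {z : H →L[ℂ] H} (t : ℂ) (hz : Bd M e φ z) : Bd M e φ (t • z) := by
  obtain ⟨C, hC, h⟩ := hz
  refine ⟨‖t‖ * C, by positivity, fun y hy => ?_⟩
  rw [mul_smul_comm, n2_csmul, mul_assoc]
  exact mul_le_mul_of_nonneg_left (h y hy) (norm_nonneg t)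

theorem Bd.mul {z w : H →L[ℂ] H} (hz : Bd M e φ z) (hw : Bd M e φ w) (hzc : Cor M e z) :
    Bd M e φ (z * w) := by
  obtain ⟨C, hC, h⟩ := hz
  obtain ⟨D, hD, h'⟩ := hw
  refine ⟨D * C, mul_nonneg hD hC, fun y hy => ?_⟩
  rw [← mul_assoc, mul_assoc D]
  exact (h' _ (hy.mul he hzc)).trans (mul_le_mul_of_nonneg_left (h y hy) hD)

theorem Bd.alg_mul {b w : H →L[ℂ] H} (hb : b ∈ A) (hw : Bd M e φ w) : Bd M e φ (b * w) := by
  obtain ⟨D, hD, h'⟩ := hw
  refine ⟨D * ‖b‖, by positivity, fun y hy => ?_⟩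
  rw [← mul_assoc, mul_assoc D]
  exact (h' _ (cor_mul_mem hA heA he hb hy).2).trans
    (mul_le_mul_of_nonneg_left (n2_mul_mem_le S he hA heA hy hb) hD)

theorem bd_alg {b : H →L[ℂ] H} (hb : b ∈ A) : Bd M e φ b :=
  ⟨‖b‖, norm_nonneg b, fun _ hy => n2_mul_mem_le S he hA heA hy hb⟩

/-- The properties of the density used below. -/
def IsDensity (M A : VonNeumannAlgebra H) (e : H →L[ℂ] H) (φ : (H →L[ℂ] H) →ₗ[ℂ] ℂ)
    (v a : H →L[ℂ] H) : Prop :=
  a ∈ A ∧ Cor M e a ∧ IsSelfAdjoint a ∧ 0 ≤ a ∧ a ≤ e ∧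
    (∀ Y, Cor M e Y → φ (star v * ((e - a) * Y * v)) = φ (a * Y)) ∧
    Tendsto (fun n : ℕ => n2 φ (a ^ (n + 1))) atTop (𝓝 0)

theorem pow_facts {v a : H →L[ℂ] H} (ha : IsDensity M A e φ v a) :
    ∀ n : ℕ, a ^ (n + 1) ∈ A ∧ Cor M e (a ^ (n + 1)) ∧ ‖a ^ (n + 1)‖ ≤ 1 := by
  obtain ⟨haA, hac, has, ha0, hae, -, -⟩ := ha
  have h1 : ‖a‖ ≤ 1 := norm_le_of_bounds has zero_le_one
    (by rw [neg_smul, one_smul]; exact le_trans (neg_nonpos.2 (zero_le_one' (H →L[ℂ] H))) ha0)
    (by rw [one_smul]; exact hae.trans (proj_le_one he))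
  intro n
  induction n with
  | zero => simpa using ⟨haA, hac, h1⟩
  | succ n ih =>
    rw [pow_succ]
    exact ⟨mul_mem ih.1 haA, ih.2.1.mul he hac,
      (norm_mul_le _ _).trans (mul_le_one₀ ih.2.2 (norm_nonneg _) h1)⟩

theorem bd_cut {v a : H →L[ℂ] H} (hv : Orth.NorC M A e v) (ha : IsDensity M A e φ v a) :
    Bd M e φ ((e - a) * v) := by
  obtain ⟨haA, hac, has, ha0, hae, hval, -⟩ := ha
  set g := e - a with hg
  have hgA : g ∈ A := sub_mem heA haA
  have hec : Cor M e e := cor_proj (hA.1 e heA) he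
  have hgc : Cor M e g := hec.sub hac
  have hgs : star g = g := by rw [hg, star_sub, he.isSelfAdjoint.star_eq, has.star_eq]
  refine ⟨Real.sqrt ‖g * a‖, Real.sqrt_nonneg _, fun y hy => ?_⟩
  set W := star y * (y * g)
  have hW : Cor M e W := (hy.star' he).mul he (hy.mul he hgc)
  have e1 : star (y * (g * v)) * (y * (g * v)) = star v * (g * W * v) := by
    simp only [W, star_mul, hgs, mul_assoc]
  refine (sq_le_sq₀ (n2_nonneg _) (mul_nonneg (Real.sqrt_nonneg _) (n2_nonneg _))).1 ?_
  rw [mul_pow, Real.sq_sqrt (norm_nonneg _), n2_sq S he (hy.mul he (hgc.mul he hv.cor)), e1,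
    hval W hW, S.2.2.1 a haA W hW.1 hW.2]
  have e2 : W * a = star y * (y * (g * a)) := by simp only [W, mul_assoc]
  rw [e2]
  calc (φ (star y * (y * (g * a)))).re ≤ n2 φ y * n2 φ (y * (g * a)) :=
        re_inner_le S he hy (hy.mul he (hgc.mul he hac))
    _ ≤ n2 φ y * (‖g * a‖ * n2 φ y) := mul_le_mul_of_nonneg_left
        (n2_mul_mem_le S he hA heA hy (mul_mem hgA haA)) (n2_nonneg _)
    _ = _ := by ring

/-- Cuts by powers factor through the first cut. -/
theorem cut_factor {v a : H →L[ℂ] H} (ha : IsDensity M A e φ v a) :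
    ∀ n : ℕ, ∃ s ∈ A, e - a ^ (n + 1) = s * (e - a) := by
  intro n
  induction n with
  | zero => exact ⟨1, one_mem A, by simp⟩
  | succ n ih =>
    obtain ⟨s, hs, hse⟩ := ih
    obtain ⟨hp, hpc, -⟩ := pow_facts hA heA he S ha n
    refine ⟨s + a ^ (n + 1), add_mem hs hp, ?_⟩
    rw [add_mul, ← hse, mul_sub, hpc.mul_right he, ← pow_succ]
    abel

/-- The special test elements. -/
theorem bdSpan_test {v a a' b : H →L[ℂ] H} (hv : Orth.NorC M A e v)
    (ha : IsDensity M A e φ v a) (ha' : IsDensity M A e φ (star v) a') (hb : b ∈ A)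
    (hbc : Cor M e b) (n : ℕ) :
    BdSpan M A e φ (b * ((e - a) * v) * (e - a' ^ (n + 1))) := by
  have hec : Cor M e e := cor_proj (hA.1 e heA) he
  obtain ⟨s, hsA, hs⟩ := cut_factor hA heA he S ha' n
  obtain ⟨hpA, hpc, -⟩ := pow_facts hA heA he S ha' n
  have hbgA : b * (e - a) ∈ A := mul_mem hb (sub_mem heA ha.1)
  have hkc : Cor M e (e - a' ^ (n + 1)) := hec.sub hpc
  have hg1 : Cor M e ((e - a) * v) := (hec.sub ha.2.1).mul he hv.cor
  have hgs : star (e - a) = e - a := by
    rw [star_sub, he.isSelfAdjoint.star_eq, ha.2.2.1.star_eq]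
  have hks : star (e - a' ^ (n + 1)) = e - a' ^ (n + 1) := by
    rw [star_sub, he.isSelfAdjoint.star_eq, (ha'.2.2.1.pow _).star_eq]
  have hbz : b * ((e - a) * v) ∈ normSpan M A e :=
    Submodule.subset_span ⟨(hbc.mul he hg1).2, _, hbgA, v, hv.1, by simp only [mul_assoc]⟩
  refine ⟨Orth.normSpan_mul' hA heA he hbz
    (Orth.alg_mem_normSpan (sub_mem heA hpA) hkc.2), ?_, ?_⟩
  · exact Bd.mul hA heA he S (Bd.alg_mul hA heA he S hb (bd_cut hA heA he S hv ha))
      (bd_alg hA heA he S (sub_mem heA hpA)) (hbc.mul he hg1)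
  · rw [star_mul, star_mul, star_mul, hks, hgs, hs]
    have e1 : s * (e - a') * (star v * (e - a) * star b) =
        s * ((e - a') * star v) * ((e - a) * star b) := by simp only [mul_assoc]
    rw [e1]
    refine Bd.mul hA heA he S (Bd.alg_mul hA heA he S hsA
      (bd_cut hA heA he S (hv.star' he) ha'))
      (bd_alg hA heA he S (mul_mem (sub_mem heA ha.1) (star_mem hb))) ?_
    exact (cor_mul_mem hA heA he hsA ((hec.sub ha'.2.1).mul he (hv.cor.star' he))).1

/-- The value against a test element on the right. -/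
theorem test_value {v a b k X : H →L[ℂ] H} (hv : Orth.NorC M A e v)
    (ha : IsDensity M A e φ v a) (hb : b ∈ A) (hbc : Cor M e b) (hk : k ∈ A)
    (hX : Cor M e X) :
    φ (X * (b * ((e - a) * v) * k)) = φ (a * b * v * k * X) := by
  obtain ⟨haA, hac, -, -, -, hval, -⟩ := ha
  set g := e - a
  have hgA : g ∈ A := sub_mem heA haA
  set q := star v * (b * g) * v
  have hqA : q ∈ A := (hv.1.2.2 _ (mul_mem hb hgA)).2
  have e1 : b * (g * v) * k = v * (q * k) := by
    calc b * (g * v) * k = b * g * (v * star v * v) * k := by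
          rw [hv.1.2.1]; simp only [mul_assoc]
      _ = (b * g * (v * star v)) * v * k := by simp only [mul_assoc]
      _ = (v * star v * (b * g)) * v * k := by
          rw [hA.2.1 _ (mul_mem hb hgA) _ hv.dom_mem.2]
      _ = _ := by simp only [q, mul_assoc]
  have hXv := hX.mul he hv.cor
  rw [e1, ← mul_assoc, ← S.2.2.1 (q * k) (mul_mem hqA hk) _ hXv.1 hXv.2]
  have hY : Cor M e (b * v * k * X) :=
    (((cor_mul_mem hA heA he hk (hbc.mul he hv.cor)).2).mul he hX)
  rw [show a * b * v * k * X = a * (b * v * k * X) by simp only [mul_assoc], ← hval _ hY]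
  congr 1
  simp only [q]
  rw [hA.2.1 b hb g hgA]
  simp only [mul_assoc]

/-- The symmetric value against a test element. -/
theorem test_symm {v a b k X : H →L[ℂ] H} (hv : Orth.NorC M A e v)
    (ha : IsDensity M A e φ v a) (hb : b ∈ A) (hbc : Cor M e b) (hk : k ∈ A)
    (hX : Cor M e X) :
    φ (b * ((e - a) * v) * k * X) + φ (X * (b * ((e - a) * v) * k)) = φ (b * v * k * X) := by
  rw [test_value hA heA he S hv ha hb hbc hk hX, ← map_add]
  congr 1
  rw [show b * ((e - a) * v) * k * X = (b * (e - a)) * (v * k * X) by simp only [mul_assoc],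
    show a * b * v * k * X = (b * a) * (v * k * X) by
      rw [hA.2.1 a ha.1 b hb]; simp only [mul_assoc],
    ← add_mul, ← mul_add, sub_add_cancel, hbc.mul_right he]
  simp only [mul_assoc]

/-- Powers of a density are small also after translation. -/
theorem pow_small (hR : RightStatement) {v a : H →L[ℂ] H} (ha : IsDensity M A e φ v a)
    {w : H →L[ℂ] H} (hw : Cor M e w) {η : ℝ} (hη : 0 < η) :
    ∀ᶠ n : ℕ in atTop, n2 φ (a ^ (n + 1) * w) ≤ η := by
  obtain ⟨δ, hδ, hsmall⟩ := hR H M A e φ hA heA he S w hw 1 η hη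
  filter_upwards [ha.2.2.2.2.2.2.eventually (ge_mem_nhds hδ)] with n hn
  obtain ⟨-, hpc, hpn⟩ := pow_facts hA heA he S ha n
  exact hsmall _ hpc hpn hn

/-- The bounded part of the span is dense, with the adjoints. -/
theorem exists_bd (hR : RightStatement) (hC : CompleteStatement) (hD : DiagLimitStatement)
    {z : H →L[ℂ] H} (hz : z ∈ normSpan M A e) {η : ℝ} (hη : 0 < η) :
    ∃ u, BdSpan M A e φ u ∧ n2 φ (z - u) ≤ η ∧ n2 φ (star z - star u) ≤ η := by
  have hec : Cor M e e := cor_proj (hA.1 e heA) he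
  induction hz using Submodule.span_induction generalizing η with
  | zero =>
    exact ⟨0, ⟨zero_mem _, ⟨0, le_rfl, fun y _ => by simp [n2_zero]⟩,
      ⟨0, le_rfl, fun y _ => by simp [n2_zero]⟩⟩, by simp [n2_zero, hη.le], by
        simp [n2_zero, hη.le]⟩
  | add x y hx hy ihx ihy =>
    obtain ⟨u, ⟨hu, hub, hus⟩, h1, h2⟩ := ihx (half_pos hη)
    obtain ⟨w, ⟨hw, hwb, hws⟩, k1, k2⟩ := ihy (half_pos hη)
    have hxc : Cor M e x := normSpan_cor hA hx
    have hyc : Cor M e y := normSpan_cor hA hy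
    have huc := normSpan_cor hA hu
    have hwc := normSpan_cor hA hw
    refine ⟨u + w, ⟨add_mem hu hw, Bd.add hA heA he S hub hwb huc hwc, ?_⟩, ?_, ?_⟩
    · rw [star_add]; exact Bd.add hA heA he S hus hws (huc.star' he) (hwc.star' he)
    · rw [add_sub_add_comm]
      exact (n2_add_le S he (hxc.sub huc) (hyc.sub hwc)).trans (by linarith)
    · rw [star_add, star_add, add_sub_add_comm]
      exact (n2_add_le S he ((hxc.star' he).sub (huc.star' he))
        ((hyc.star' he).sub (hwc.star' he))).trans (by linarith)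
  | smul t x _ ih =>
    obtain ⟨u, ⟨hu, hub, hus⟩, h1, h2⟩ := ih (show 0 < η / (‖t‖ + 1) by positivity)
    have hb : ‖t‖ * (η / (‖t‖ + 1)) ≤ η := by
      rw [mul_div_assoc', div_le_iff₀ (by positivity)]
      nlinarith [norm_nonneg t]
    refine ⟨t • u, ⟨Submodule.smul_mem _ _ hu, Bd.smul hA heA he S t hub, ?_⟩, ?_, ?_⟩
    · rw [star_smul]; exact Bd.smul hA heA he S _ hus
    · rw [← smul_sub, n2_csmul]
      exact (mul_le_mul_of_nonneg_left h1 (norm_nonneg _)).trans hb
    · rw [star_smul, star_smul, ← smul_sub, n2_csmul, norm_star]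
      exact (mul_le_mul_of_nonneg_left h2 (norm_nonneg _)).trans hb
  | mem x hx =>
    obtain ⟨hxc, c, hcA, v₀, hv₀, rfl⟩ := hx
    obtain ⟨b, hbA, v, hv, hbv⟩ := gen_split hA heA he hcA hv₀ hxc
    rw [hbv]
    obtain ⟨a, ha⟩ := exists_density hA heA he S hR hC hD hv
    obtain ⟨a', ha'⟩ := exists_density hA heA he S hR hC hD (hv.star' he)
    set b₁ := b * e with hb₁
    have hb₁A : b₁ ∈ A := mul_mem hbA heA
    have hb₁c : Cor M e b₁ := (cor_mul_mem hA heA he hbA hec).1
    have hbv₁ : b * v = b₁ * v := by rw [hb₁, mul_assoc, hv.cor.mul_left he]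
    rw [hbv₁]
    set C := ‖b₁‖ + 1
    have hC0 : 0 < C := by positivity
    have hη' : 0 < η / (4 * C) := by positivity
    obtain ⟨N, hN⟩ := (((pow_small hA heA he S hR ha hv.cor hη').and
      (ha.2.2.2.2.2.2.eventually (ge_mem_nhds hη'))).and
      ((pow_small hA heA he S hR ha' (hv.cor.star' he) hη').and
        (ha'.2.2.2.2.2.2.eventually (ge_mem_nhds hη')))).exists
    obtain ⟨⟨hN1, hN2⟩, hN3, hN4⟩ := hN
    obtain ⟨hpA, hpc, hpn⟩ := pow_facts hA heA he S ha N
    obtain ⟨hqA, hqc, hqn⟩ := pow_facts hA heA he S ha' N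
    set p := a ^ (N + 1) with hp
    set q := a' ^ (N + 1) with hq
    obtain ⟨s, hsA, hs⟩ := cut_factor hA heA he S ha N
    set u := b₁ * ((e - p) * v) * (e - q) with hu
    have e1 : b₁ * v - u = b₁ * (p * v) + b₁ * ((e - p) * (v * q)) := by
      rw [hu]
      simp only [mul_sub, sub_mul, mul_assoc]
      have hev : e * (v * e) = v := by rw [← mul_assoc, hv.cor.2]
      rw [hev, show e * (v * q) = v * q from (hv.cor.mul he hqc).mul_left he,
        hv.cor.mul_right he]
      abel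
    have c1 : Cor M e (p * v) := hpc.mul he hv.cor
    have c2 : Cor M e ((e - p) * (v * q)) := (hec.sub hpc).mul he (hv.cor.mul he hqc)
    have hep : ‖e - p‖ ≤ 2 := (norm_sub_le _ _).trans (by linarith [he.norm_le])
    have hC3 : ‖b₁‖ * (η / (4 * C)) + ‖b₁‖ * (2 * (η / (4 * C))) ≤ η := by
      rw [← mul_add, show η / (4 * C) + 2 * (η / (4 * C)) = 3 * η / (4 * C) by ring,
        mul_div_assoc', div_le_iff₀ (by positivity)]
      nlinarith [norm_nonneg b₁]
    have hue : u = (b₁ * s * e) * ((e - a) * v) * (e - q) := by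
      rw [hu, hs]
      have : e * ((e - a) * v) = (e - a) * v :=
        (((hec.sub ha.2.1).mul he hv.cor)).mul_left he
      rw [mul_assoc (b₁ * s) e, this]
      simp only [mul_assoc]
    refine ⟨u, hue ▸ bdSpan_test hA heA he S hv ha ha'
      (mul_mem (mul_mem hb₁A hsA) heA) (cor_mul_mem hA heA he (mul_mem hb₁A hsA) hec).1 N, ?_, ?_⟩
    · rw [e1]
      refine (n2_add_le S he (hb₁c.mul he c1) (hb₁c.mul he c2)).trans ?_
      have t1 := (n2_mul_le S he (hb₁c.mul he c1) c1).trans
        (mul_le_mul_of_nonneg_left hN1 (norm_nonneg _))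
      have t2 : n2 φ (b₁ * ((e - p) * (v * q))) ≤ ‖b₁‖ * (2 * (η / (4 * C))) := by
        refine (n2_mul_le S he (hb₁c.mul he c2) c2).trans
          (mul_le_mul_of_nonneg_left ?_ (norm_nonneg _))
        refine (n2_mul_le S he c2 (hv.cor.mul he hqc)).trans ?_
        refine mul_le_mul hep ((n2_mul_le S he (hv.cor.mul he hqc) hqc).trans ?_) (n2_nonneg _)
          zero_le_two
        exact (mul_le_of_le_one_left (n2_nonneg _) hv.norm_le).trans hN4
      linarith
    · rw [← star_sub, e1, star_add, star_mul b₁, star_mul b₁, star_mul p, star_mul (e - p),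
        star_mul v]
      have hps : star p = p := (ha.2.2.1.pow _).star_eq
      have hqs : star q = q := (ha'.2.2.1.pow _).star_eq
      have heps : star (e - p) = e - p := by rw [star_sub, he.isSelfAdjoint.star_eq, hps]
      rw [hps, hqs, heps]
      have hvs := hv.cor.star' he
      have d1 : Cor M e (star v * p) := hvs.mul he hpc
      have d2 : Cor M e (q * star v) := hqc.mul he hvs
      have hb1s : star b₁ ∈ A := star_mem hb₁A
      have e2 : q * star v * (e - p) * star b₁ = q * star v * ((e - p) * star b₁) :=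
        mul_assoc _ _ _
      rw [e2]
      refine (n2_add_le S he (cor_mul_mem hA heA he hb1s d1).2
        (cor_mul_mem hA heA he (mul_mem (sub_mem heA hpA) hb1s) d2).2).trans ?_
      have t1 : n2 φ (star v * p * star b₁) ≤ ‖b₁‖ * (η / (4 * C)) := by
        refine (n2_mul_mem_le S he hA heA d1 hb1s).trans ?_
        rw [norm_star]
        refine mul_le_mul_of_nonneg_left ((n2_mul_le S he d1 hpc).trans ?_) (norm_nonneg _)
        rw [norm_star]
        exact (mul_le_of_le_one_left (n2_nonneg _) hv.norm_le).trans hN2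
      have t2 : n2 φ (q * star v * ((e - p) * star b₁)) ≤ ‖b₁‖ * (2 * (η / (4 * C))) := by
        refine (n2_mul_mem_le S he hA heA d2 (mul_mem (sub_mem heA hpA) hb1s)).trans ?_
        refine (mul_le_mul ((norm_mul_le _ _).trans (mul_le_mul hep (norm_star b₁).le
          (norm_nonneg _) zero_le_two)) hN3 (n2_nonneg _) (by positivity)).trans (le_of_eq ?_)
        ring
      linarith

end

end Vale.Agent.P078.State
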