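import Vale.Agent.P078.State.Basic
import Vale.Agent.P078.Orth.Prods
import Vale.Agent.P078.Orth.DiagLimit

/-!
Translates by the normaliser respect the expectation onto the MASA of a state, and the operators
orthogonal to the normaliser form a two-sided module closed under adjoints.
-/

namespace Vale.Agent.P078.State

open Filter Topology MKS Singular

variable {H : Type} [NormedAddCommGroup H] [InnerProductSpace ℂ H] [CompleteSpace H]
variable {M A : VonNeumannAlgebra H} {e : H →L[ℂ] H} {φ : (H →L[ℂ] H) →ₗ[ℂ] ℂ}

/-- An element of zero value against `A` has zero value against `A` after translation by a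
normalising partial isometry. -/
theorem covariance (hR : RightStatement) (hD : DiagLimitStatement) (hA : IsMASA M A) (heA : e ∈ A)
    (he : IsStarProjection e) (S : IsState M A e φ) {X : H →L[ℂ] H} (hX : Cor M e X)
    (h0 : ∀ b ∈ A, φ (b * X) = 0) {v : H →L[ℂ] H} (hv : Orth.NorC M A e v) {b : H →L[ℂ] H}
    (hb : b ∈ A) : φ (b * (star v * (X * v))) = 0 := by
  obtain ⟨a, haA, hac, -, -, hval, hlim⟩ := hD H M A e φ hA heA he S X hX
  have ha0 : a = 0 := eq_zero_of_n2 S he hac (by
    rw [n2, hval _ (star_mem haA), h0 _ (star_mem haA), Complex.zero_re, Real.sqrt_zero])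
  simp only [ha0, sub_zero] at hlim
  have hs : star v * v ∈ A ∧ v * star v ∈ A := hv.dom_mem
  -- the value is unchanged by pinching
  have hpin : ∀ c : Orth.Cut A e,
      φ (b * (star v * (MKS.pinch c.q X * v))) = φ (b * (star v * (X * v))) := by
    intro c
    have hterm : ∀ i, φ (b * (star v * (c.q i * X * c.q i * v))) =
        φ (b * (star v * (c.q i * X * v))) := by
      intro i
      set q := c.q i with hq
      have hqA : q ∈ A := (c.part.1 i).1
      have hqq : q * q = q := (c.part.1 i).2.isIdempotentElem.eq
      set q' := star v * q * v with hq'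
      have hq'A : q' ∈ A := (hv.1.2.2 q hqA).2
      have hl : q' * star v = star v * q := by
        calc q' * star v = star v * (q * (v * star v)) := by simp only [hq', mul_assoc]
          _ = star v * v * star v * q := by
              rw [hA.2.1 q hqA _ hs.2]; simp only [mul_assoc]
          _ = star v * q := by
              congr 1
              simpa only [star_star] using (normaliser_star hv.1).2.1
      have hr : v * q' = q * v := by
        calc v * q' = v * star v * q * v := by simp only [hq', mul_assoc]
          _ = q * (v * star v * v) := by rw [hA.2.1 _ hs.2 q hqA]; simp only [mul_assoc]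
          _ = q * v := by rw [hv.1.2.1]
      have hY : Cor M e (b * (star v * (q * X * v))) :=
        (cor_mul_mem hA heA he hb ((hv.cor.star' he).mul he
          ((cor_mul_mem hA heA he hqA hX).1.mul he hv.cor))).1
      have h1 : b * (star v * (q * X * v)) = q' * (b * (star v * (q * X * v))) := by
        calc b * (star v * (q * X * v)) = b * (star v * q) * (q * X * v) := by
              conv_lhs => rw [← hqq]
              simp only [mul_assoc]
          _ = b * q' * (star v * (q * X * v)) := by rw [← hl]; simp only [mul_assoc]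
          _ = _ := by rw [hA.2.1 b hb _ hq'A]; simp only [mul_assoc]
      conv_rhs => rw [h1, S.2.2.1 q' hq'A _ hY.1 hY.2]
      congr 1
      calc b * (star v * (q * X * q * v)) = b * (star v * (q * X * (q * v))) := by
            simp only [mul_assoc]
        _ = _ := by rw [← hr]; simp only [mul_assoc]
    calc φ (b * (star v * (MKS.pinch c.q X * v)))
        = ∑ i, φ (b * (star v * (c.q i * X * c.q i * v))) := by
          simp only [MKS.pinch, Finset.sum_mul, Finset.mul_sum, map_sum]
      _ = ∑ i, φ (b * (star v * (c.q i * X * v))) := Finset.sum_congr rfl fun i _ => hterm i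
      _ = _ := by
          rw [← map_sum, ← Finset.mul_sum, ← Finset.mul_sum, ← Finset.sum_mul, ← Finset.sum_mul,
            c.part.2.2, hX.mul_left he]
  set g := v * star b with hg
  have hgc : Cor M e g := (cor_mul_mem hA heA he (star_mem hb) hv.cor).2
  refine norm_le_zero_iff.1 (le_of_forall_gt_imp_ge_of_dense fun η hη => ?_)
  obtain ⟨δ, hδ, hsmall⟩ := hR H M A e φ hA heA he S v hv.cor ‖X‖ (η / (n2 φ g + 1))
    (div_pos hη (by linarith [n2_nonneg (τ := φ) g]))
  have := Orth.fine_neBot hA heA he
  obtain ⟨c, hc⟩ := (Metric.tendsto_nhds.1 hlim δ hδ).exists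
  rw [Real.dist_eq, sub_zero, abs_of_nonneg (n2_nonneg _)] at hc
  have hTc := cor_pinch (e := e) hA c.part hX.1
  rw [← hpin c]
  have e1 : b * (star v * (MKS.pinch c.q X * v)) = star g * (MKS.pinch c.q X * v) := by
    simp only [hg, star_mul, star_star, mul_assoc]
  rw [e1]
  refine (norm_inner_le S he hgc (hTc.mul he hv.cor)).trans ?_
  refine (mul_le_mul_of_nonneg_left
    (hsmall _ hTc (Orth.DiagLimit.norm_pinch_le heA he c.part hX) hc.le) (n2_nonneg _)).trans ?_
  rw [mul_div_assoc', div_le_iff₀ (by linarith [n2_nonneg (τ := φ) g])]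
  nlinarith [n2_nonneg (τ := φ) g]

/-- An operator orthogonal to the normaliser has zero value against translates on the right. -/
theorem perp_right_zero (hR : RightStatement) (hD : DiagLimitStatement) (hA : IsMASA M A)
    (heA : e ∈ A) (he : IsStarProjection e) (S : IsState M A e φ) {m : H →L[ℂ] H}
    (hm : Orth.Perp M A e φ m) {v : H →L[ℂ] H} (hv : Orth.NorC M A e v) {b : H →L[ℂ] H}
    (hb : b ∈ A) : φ (b * (m * v)) = 0 := by
  set s := star v * v with hs
  have hsA : s ∈ A := hv.dom_mem.1
  have hvs : v * s = v := by rw [hs, ← mul_assoc, hv.1.2.1]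
  have hY : Cor M e (b * (m * v)) := (cor_mul_mem hA heA he hb (hm.1.mul he hv.cor)).1
  have hX0 : ∀ b' ∈ A, φ (b' * (v * m)) = 0 := by
    intro b' hb'
    have hmem : b' * v ∈ normSpan M A e :=
      Submodule.subset_span ⟨(cor_mul_mem hA heA he hb' hv.cor).1.2, b', hb', v, hv.1, rfl⟩
    have := hm.2 _ (Orth.normSpan_star' hA heA he hmem)
    rwa [star_star, mul_assoc] at this
  have h1 := covariance hR hD hA heA he S (hv.cor.mul he hm.1) hX0 hv hb
  have h2 : φ (s * (b * (m * v))) = 0 := by
    rw [← h1]
    congr 1
    rw [← mul_assoc, hA.2.1 s hsA b hb]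
    simp only [hs, mul_assoc]
  rw [S.2.2.1 s hsA _ hY.1 hY.2] at h2
  rwa [mul_assoc, mul_assoc, hvs] at h2

/-- An operator orthogonal to the normaliser has zero value against its span on the right. -/
theorem perp_right (hR : RightStatement) (hD : DiagLimitStatement) (hA : IsMASA M A)
    (heA : e ∈ A) (he : IsStarProjection e) (S : IsState M A e φ) {m : H →L[ℂ] H}
    (hm : Orth.Perp M A e φ m) {z : H →L[ℂ] H} (hz : z ∈ normSpan M A e) : φ (m * z) = 0 := by
  induction hz using Submodule.span_induction with
  | zero => simp
  | add x y _ _ hx hy => rw [mul_add, map_add, hx, hy, add_zero]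
  | smul t x _ hx => rw [mul_smul_comm, map_smul, hx, smul_zero]
  | mem g hg =>
    obtain ⟨hge, a, ha, v, hv, rfl⟩ := hg
    set v' := e * v * e with hv'def
    have hen : e ∈ normaliser M A := ⟨hA.1 e heA, by
      rw [he.isSelfAdjoint.star_eq, he.isIdempotentElem.eq, he.isIdempotentElem.eq], fun b hb => by
      rw [he.isSelfAdjoint.star_eq]
      exact ⟨mul_mem (mul_mem heA hb) heA, mul_mem (mul_mem heA hb) heA⟩⟩
    have hv' : Orth.NorC M A e v' :=
      ⟨normaliser_mul hA (normaliser_mul hA hen hv) hen, by
        simp only [v', ← mul_assoc, he.isIdempotentElem.eq]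
        simp only [mul_assoc, he.isIdempotentElem.eq]⟩
    set a' := a * e with ha'
    have ha'A : a' ∈ A := mul_mem ha heA
    set a'' := star v' * a' * v'
    have ha''A : a'' ∈ A := (hv'.1.2.2 a' ha'A).2
    have hg' : a * v = v' * a'' := by
      calc a * v = e * (a * v) * e := hge.symm
        _ = (e * a) * v * e := by simp only [mul_assoc]
        _ = a * (e * e) * v * e := by
          rw [hA.2.1 e heA a ha, he.isIdempotentElem.eq]
        _ = a' * v' := by simp only [a', v', mul_assoc]
        _ = a' * (v' * star v' * v') := by rw [hv'.1.2.1]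
        _ = v' * star v' * a' * v' := by
          rw [← mul_assoc, hA.2.1 a' ha'A _ hv'.dom_mem.2]
        _ = v' * a'' := by simp only [a'', mul_assoc]
    have hmv := hm.1.mul he hv'.cor
    rw [hg', ← mul_assoc, ← S.2.2.1 a'' ha''A _ hmv.1 hmv.2]
    exact perp_right_zero hR hD hA heA he S hm hv' ha''A

/-- The operators orthogonal to the normaliser form a two-sided module closed under adjoints. -/
theorem perp_of (hR : RightStatement) (hD : DiagLimitStatement) : PerpStatement := by
  intro H _ _ _ M A e φ hA heA he S m hm
  have hl : ∀ z ∈ normSpan M A e, Orth.Perp M A e φ (z * m) := fun z hz =>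
    ⟨(normSpan_cor hA hz).mul he hm.1, fun w hw => by
      have := hm.2 _ (Orth.normSpan_mul' hA heA he (Orth.normSpan_star' hA heA he hz) hw)
      rwa [star_mul, star_star, mul_assoc] at this⟩
  refine ⟨⟨hm.1.star' he, fun z hz => ?_⟩, fun z hz => ⟨hl z hz,
    hm.1.mul he (normSpan_cor hA hz), fun w hw => ?_⟩⟩
  · rw [← star_mul, tr_star S he (hA.1 e heA) (hm.1.mul he (normSpan_cor hA hz)),
      perp_right hR hD hA heA he S hm hz, star_zero]
  · rw [← mul_assoc]
    exact perp_right hR hD hA heA he S (hl _ (Orth.normSpan_star' hA heA he hw)) hz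

end Vale.Agent.P078.State
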