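import Vale.Agent.P078.State.SplitLimit
import Vale.Agent.P078.State.Perp
import Vale.Agent.P078.MKS.Assembly.Ops

/-!
The conditional expectation onto the algebra of the normaliser which preserves a state
(`split_ok`).
-/

namespace Vale.Agent.P078.State

open Filter Topology MKS Singular

set_option linter.unusedSectionVars false

variable {H : Type} [NormedAddCommGroup H] [InnerProductSpace ℂ H] [CompleteSpace H]
variable {M A : VonNeumannAlgebra H} {e : H →L[ℂ] H} {φ : (H →L[ℂ] H) →ₗ[ℂ] ℂ}

/-- The algebra of the normaliser. -/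
abbrev bic (hA : IsMASA M A) : Set (H →L[ℂ] H) :=
  Set.centralizer (Set.centralizer (normStar hA : Set (H →L[ℂ] H)))

theorem inverse_comm {B T : H →L[ℂ] H} (hB : IsUnit B) (h : T * B = B * T) :
    T * Ring.inverse B = Ring.inverse B * T := by
  calc T * Ring.inverse B = Ring.inverse B * (B * T) * Ring.inverse B := by
        rw [← mul_assoc (Ring.inverse B), Ring.inverse_mul_cancel _ hB, one_mul]
    _ = Ring.inverse B * (T * B) * Ring.inverse B := by rw [h]
    _ = _ := by
        rw [mul_assoc, mul_assoc T, Ring.mul_inverse_cancel _ hB, mul_one]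

section

variable (hA : IsMASA M A) (heA : e ∈ A) (he : IsStarProjection e) (S : IsState M A e φ)
include hA heA he S

/-- A normal element of the algebra of the normaliser which is bounded below there is invertible
in the corner. -/
theorem exists_inverse {L : H →L[ℂ] H} (hLc : Cor M e L) (hnorm : L * star L = star L * L)
    (hLb : L ∈ bic hA) (hLsb : star L ∈ bic hA) {K₀ : ℝ} (hK₀ : 0 < K₀)
    (hlow : ∀ y, Cor M e y → y ∈ bic hA → n2 φ y ≤ K₀ * n2 φ (L * y)) :
    ∃ K : H →L[ℂ] H, Cor M e K ∧ K ∈ bic hA ∧ L * K = e ∧ K * L = e := by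
  set B := star L * L + (1 - e) with hBdef
  have heM : e ∈ M := hA.1 e heA
  have hee : e * e = e := he.isIdempotentElem.eq
  have hLs : Cor M e (star L) := hLc.star' he
  have hBs : IsSelfAdjoint B :=
    (IsSelfAdjoint.star_mul_self L).add he.one_sub.isSelfAdjoint
  have hBM : B ∈ M := add_mem (mul_mem hLs.1 hLc.1) (sub_mem (one_mem M) heM)
  have hBe : B * e = star L * L := by
    rw [hBdef, add_mul, mul_assoc, hLc.mul_right he, sub_mul, one_mul, hee, sub_self, add_zero]
  have heB : e * B = star L * L := by
    rw [hBdef, mul_add, ← mul_assoc, hLs.mul_left he, mul_sub, mul_one, hee, sub_self, add_zero]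
  have hB1 : B * (1 - e) = 1 - e := by rw [mul_sub, mul_one, hBe, hBdef]; abel
  have h1B : (1 - e) * B = 1 - e := by rw [sub_mul, one_mul, heB, hBdef]; abel
  have hTe : ∀ T ∈ Set.centralizer (normStar hA : Set (H →L[ℂ] H)), T * e = e * T :=
    fun T hT => centralizer_span hA heA he S hT (proj_mem_normSpan heA he)
  have hTB : ∀ T ∈ Set.centralizer (normStar hA : Set (H →L[ℂ] H)), T * B = B * T := by
    intro T hT
    rw [hBdef, mul_add, add_mul, ← mul_assoc, hLsb T hT, mul_assoc, hLb T hT, mul_sub, sub_mul,
      hTe T hT, mul_one, one_mul, mul_assoc]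
  set c : ℝ := min (1 / 2) (1 / (2 * K₀ ^ 2))
  have hc0 : 0 < c := lt_min (by norm_num) (by positivity)
  have hc1 : c ≤ 1 / 2 := min_le_left _ _
  have hcK : K₀ ^ 2 * c ≤ 1 / 2 := by
    refine (mul_le_mul_of_nonneg_left (min_le_right _ _) (sq_nonneg _)).trans (le_of_eq ?_)
    field_simp
  set g : ℝ → ℝ := fun t => max (c - t) 0 with hgdef
  set G := cfc g B with hGdef
  have hgc : Continuous g := by fun_prop
  have hGs : star G = G := (cfc_predicate _ _ : IsSelfAdjoint G).star_eq
  have hGe : G * e = e * G := (Commute.cfc_real (show Commute B e from hBe.trans heB.symm) g).eq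
  have hGB : G * B = B * G := (Commute.cfc_real (Commute.refl B) g).eq
  have hGBG : G * B * G ≤ c • (G * G) := by
    have e1 : G * B * G = cfc (fun t => g t * t * g t) B := by
      rw [hGdef]
      nth_rw 2 [← cfc_id' ℝ B]
      rw [← cfc_mul g (fun t : ℝ => t) B hgc.continuousOn continuousOn_id,
        ← cfc_mul (fun t => g t * t) g B (by fun_prop) hgc.continuousOn]
    have e2 : c • (G * G) = cfc (fun t => c • (g t * g t)) B := by
      rw [hGdef, ← cfc_mul g g B hgc.continuousOn hgc.continuousOn,
        ← cfc_smul c (fun t => g t * g t) B (by fun_prop)]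
    rw [e1, e2]
    refine cfc_mono (fun t _ => ?_) (by fun_prop) (by fun_prop)
    simp only [hgdef, smul_eq_mul]
    rcases le_total (c - t) 0 with h | h
    · simp [max_eq_right h]
    · rw [max_eq_left h]; nlinarith [mul_self_nonneg (c - t)]
  set y := G * e with hydef
  have hey : e * y = y := by rw [hydef, ← mul_assoc, ← hGe, mul_assoc, hee]
  have hyc : Cor M e y :=
    Cor.of_abs he (mul_mem (cfc_mem hBM g) heM) hey (by rw [hydef, mul_assoc, hee])
  have hyb : y ∈ bic hA := fun T hT => by
    rw [hydef, ← mul_assoc,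
      ← (Commute.cfc_real (show Commute B T from (hTB T hT).symm) g).eq, mul_assoc, hTe T hT,
      mul_assoc]
  have hLy : Cor M e (L * y) := hLc.mul he hyc
  have hy0 : y = 0 := by
    have h1 : star (L * y) * (L * y) ≤ c • (star y * y) := by
      have := conj_le hGBG e
      rw [he.isSelfAdjoint.star_eq] at this
      have e1 : star (L * y) * (L * y) = e * (G * B * G) * e := by
        rw [hydef, star_mul, star_mul, hGs, he.isSelfAdjoint.star_eq]
        calc e * G * star L * (L * (G * e)) = e * G * ((star L * L) * (G * e)) := by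
              simp only [mul_assoc]
          _ = e * G * (B * (e * (G * e))) := by rw [← hBe]; simp only [mul_assoc]
          _ = _ := by rw [← hydef, hey, hydef]; simp only [mul_assoc]
      have e2 : e * (c • (G * G)) * e = c • (star y * y) := by
        rw [hydef, star_mul, hGs, he.isSelfAdjoint.star_eq, mul_smul_comm, smul_mul_assoc]
        simp only [mul_assoc]
      rwa [← e1, e2] at this
    have h2 := tr_mono S he ((hLy.star' he).mul he hLy) (((hyc.star' he).mul he hyc).rsmul c) h1
    rw [tr_rsmul, ← n2_sq S he hLy, ← n2_sq S he hyc] at h2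
    have h3 := pow_le_pow_left₀ (n2_nonneg _) (hlow y hyc hyb) 2
    rw [mul_pow] at h3
    have h4 : n2 φ y ^ 2 ≤ 1 / 2 * n2 φ y ^ 2 :=
      calc n2 φ y ^ 2 ≤ K₀ ^ 2 * (c * n2 φ y ^ 2) :=
            h3.trans (mul_le_mul_of_nonneg_left h2 (sq_nonneg _))
        _ ≤ _ := by rw [← mul_assoc]; exact mul_le_mul_of_nonneg_right hcK (sq_nonneg _)
    exact eq_zero_of_n2 S he hyc (by nlinarith [n2_nonneg (τ := φ) y])
  have hG0 : G = 0 := by
    have hG1 : G = G * (1 - e) := by rw [mul_sub, mul_one, ← hydef, hy0, sub_zero]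
    have e1 : G * B * G = G * G := by
      congr 1
      conv_lhs => rw [hG1, mul_assoc, h1B, ← hG1]
    rw [e1] at hGBG
    have h0 : 0 ≤ G * G := by simpa [hGs] using star_mul_self_nonneg G
    have h1 : G * G ≤ (0 : H →L[ℂ] H) := by
      have h2 : (1 - c) • (G * G) ≤ (0 : H →L[ℂ] H) := by
        rw [sub_smul, one_smul, sub_nonpos]; exact hGBG
      have h3 := smul_le_smul_of_nonneg_left h2 (show 0 ≤ (1 - c)⁻¹ by
        exact inv_nonneg.2 (by linarith))
      rwa [smul_smul, inv_mul_cancel₀ (by linarith), one_smul, smul_zero] at h3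
    rw [← CStarRing.star_mul_self_eq_zero_iff, hGs]
    exact le_antisymm h1 h0
  have hu : IsUnit B := by
    rw [← spectrum.zero_notMem_iff ℝ]
    intro h
    have hz : cfc g B = cfc (0 : ℝ → ℝ) B := by rw [← hGdef, hG0, cfc_zero ℝ B]
    have h' : max (c - 0) 0 = (0 : ℝ) :=
      (cfc_eq_cfc_iff_eqOn (hg := continuousOn_const) (hf := hgc.continuousOn)).1 hz h
    simp at h'
    linarith
  set Gi := Ring.inverse B
  have hGiM : Gi ∈ M := mem_of_forall_commute M fun T hT =>
    inverse_comm hu (commutant_commute hT hBM).symm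
  have hGie : e * Gi = Gi * e := inverse_comm hu (hBe.trans heB.symm).symm
  have hGi1 : Gi * (1 - e) = 1 - e := by
    conv_lhs => rw [← hB1, ← mul_assoc, Ring.inverse_mul_cancel _ hu, one_mul]
  have hKL : Gi * (star L * L) = e := by
    rw [show star L * L = B - (1 - e) by rw [hBdef, add_sub_cancel_right], mul_sub,
      Ring.inverse_mul_cancel _ hu, hGi1, sub_sub_cancel]
  have hLB : L * B = B * L := by
    rw [hBdef, mul_add, add_mul, mul_sub, sub_mul, mul_one, one_mul, hLc.mul_left he,
      hLc.mul_right he, sub_self, add_zero, add_zero, ← mul_assoc, hnorm, mul_assoc]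
  refine ⟨Gi * star L, Cor.of_abs he (mul_mem hGiM hLs.1) ?_ ?_, fun T hT => ?_, ?_, ?_⟩
  · rw [← mul_assoc, hGie, mul_assoc, hLs.mul_left he]
  · rw [mul_assoc, hLs.mul_right he]
  · rw [← mul_assoc, inverse_comm hu (hTB T hT), mul_assoc, hLsb T hT, mul_assoc]
  · rw [← mul_assoc, inverse_comm hu hLB, mul_assoc, hnorm, hKL]
  · rw [mul_assoc, hKL]

/-- A self-adjoint element of the algebra of the normaliser which differs from `x` by an
orthogonal element has no excess above the norm of `x`. -/
theorem excess_zero {x y : H →L[ℂ] H} (hx : Cor M e x) (hxs : IsSelfAdjoint x) (hy : Cor M e y)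
    (hys : IsSelfAdjoint y) (hyb : y ∈ bic hA) (hm : Orth.Perp M A e φ (x - y)) {s : ℝ}
    (hs : ‖x‖ < s) : excess s y = 0 := by
  set g := excess s y with hgdef
  have hgs : star g = g := (isSelfAdjoint_excess s y).star_eq
  have hgc : Cor M e g := cor_excess he hy ((norm_nonneg x).trans_lt hs) hys
  have hgb : g ∈ bic hA := fun T hT =>
    (Commute.cfc_real (show Commute y T from (hyb T hT).symm) _).eq.symm
  have hperp : PerpStatement := perp_of right_ok diag_limit_ok
  set m := x - y
  have hmc : Cor M e m := hm.1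
  have hval : φ (g * (m * g)) = 0 := by
    refine norm_le_zero_iff.1 (le_of_forall_gt_imp_ge_of_dense fun t ht => ?_)
    set D := ‖m‖ * (2 * n2 φ g + 1) + 1
    have hD : 0 < D := by
      have := n2_nonneg (τ := φ) g
      positivity
    set η := min 1 (t / D)
    have hη : 0 < η := lt_min one_pos (div_pos ht hD)
    obtain ⟨u, hu, hus, -, hgu⟩ :=
      span_near_sa so_ok hA heA he S hgc (isSelfAdjoint_excess s y) hgb hη
    have huc : Cor M e u := normSpan_cor hA hu
    have h0 : φ (star u * (m * u)) = 0 :=
      ((hperp H M A e φ hA heA he S m hm).2 u hu).2.2 u hu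
    have hms : star m = m := (hxs.sub hys).star_eq
    have e1 : φ (g * (m * g)) = φ (star (g - u) * (m * g)) + φ (star (m * u) * (g - u)) +
        φ (star u * (m * u)) := by
      rw [← map_add, ← map_add, star_sub, star_mul, hgs, hus.star_eq, hms]
      congr 1
      simp only [sub_mul, mul_sub, mul_assoc]
      abel
    rw [e1, h0, add_zero]
    refine (norm_add_le _ _).trans ((add_le_add (norm_inner_le S he (hgc.sub huc) (hmc.mul he hgc))
      (norm_inner_le S he (hmc.mul he huc) (hgc.sub huc))).trans ?_)
    have h1 : n2 φ u ≤ n2 φ g + η := by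
      have := n2_sub_le S he hgc (hgc.sub huc)
      rw [sub_sub_cancel] at this
      linarith
    calc n2 φ (g - u) * n2 φ (m * g) + n2 φ (m * u) * n2 φ (g - u)
        ≤ η * (‖m‖ * n2 φ g) + ‖m‖ * (n2 φ g + η) * η :=
          add_le_add (mul_le_mul hgu (n2_mul_le S he (hmc.mul he hgc) hgc) (n2_nonneg _) hη.le)
            (mul_le_mul ((n2_mul_le S he (hmc.mul he huc) huc).trans
              (mul_le_mul_of_nonneg_left h1 (norm_nonneg _))) hgu (n2_nonneg _)
              (mul_nonneg (norm_nonneg _) (by linarith [n2_nonneg (τ := φ) g])))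
      _ ≤ η * D := by
          have : η ≤ 1 := min_le_left _ _
          nlinarith [mul_le_mul_of_nonneg_left this (mul_nonneg (norm_nonneg m) hη.le)]
      _ ≤ t := (le_div_iff₀ hD).1 (min_le_right _ _)
  have hgx : g * x * g ≤ ‖x‖ • (g * g) := by
    have := conj_le (bounds_of_norm_le hxs le_rfl).2 g
    rwa [hgs, mul_smul_comm, smul_mul_assoc, mul_one] at this
  have hgy : s • (g * g) ≤ g * y * g := by
    have hgc' : Continuous fun t : ℝ => max (t - s) 0 := by fun_prop
    have e1 : g * y * g = cfc (fun t => max (t - s) 0 * t * max (t - s) 0) y := by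
      rw [hgdef, excess]
      nth_rw 2 [← cfc_id' ℝ y]
      rw [← cfc_mul (fun t => max (t - s) 0) (fun t : ℝ => t) y hgc'.continuousOn continuousOn_id,
        ← cfc_mul (fun t => max (t - s) 0 * t) (fun t => max (t - s) 0) y (by fun_prop)
          hgc'.continuousOn]
    have e2 : s • (g * g) = cfc (fun t => s • (max (t - s) 0 * max (t - s) 0)) y := by
      rw [hgdef, excess, ← cfc_mul _ _ y hgc'.continuousOn hgc'.continuousOn,
        ← cfc_smul s (fun t => max (t - s) 0 * max (t - s) 0) y (by fun_prop)]
    rw [e1, e2]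
    refine cfc_mono (fun t _ => ?_) (by fun_prop) (by fun_prop)
    simp only [smul_eq_mul]
    rcases le_total (t - s) 0 with h | h
    · simp [max_eq_right h]
    · rw [max_eq_left h]; nlinarith [mul_self_nonneg (t - s)]
  have hgg : Cor M e (g * g) := hgc.mul he hgc
  have h1 := tr_mono S he ((hgc.mul he hx).mul he hgc) (hgg.rsmul _) hgx
  have h2 := tr_mono S he (hgg.rsmul _) ((hgc.mul he hy).mul he hgc) hgy
  rw [tr_rsmul] at h1 h2
  have h3 : φ (g * x * g) = φ (g * y * g) := by
    rw [← sub_eq_zero, ← map_sub, ← sub_mul, ← mul_sub, mul_assoc]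
    exact hval
  rw [h3] at h1
  have h4 : n2 φ g ^ 2 = (φ (g * g)).re := by rw [n2_sq S he hgc, hgs]
  refine eq_zero_of_n2 S he hgc ((n2_nonneg g).eq_or_lt.elim Eq.symm fun hp => ?_)
  have h5 := mul_pos (sub_pos.2 hs) (pow_pos hp 2)
  rw [h4] at h5
  linarith

end

/-- Every self-adjoint element of the corner splits into an element of the algebra of the
normaliser and an orthogonal one. -/
theorem split_ok : SplitStatement := by
  intro H _ _ _ M A e φ hA heA he S x hx hxs
  have heM : e ∈ M := hA.1 e heA
  obtain ⟨z, hz⟩ := exists_seq hA heA he S right_ok complete_ok diag_limit_ok hx hxs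
  have hz' := hz.neg hA heA he S
  obtain ⟨L, hLc, hLn, hLb, hL2, hLs⟩ := hz.res_limit hA heA he S hx hxs
  obtain ⟨L', -, -, hL'b, -, hL's⟩ := hz'.res_limit hA heA he S hx.neg hxs.neg
  obtain ⟨hst, hcomm⟩ := hz.limit_normal hA heA he S hx hxs hLs hL's
  obtain ⟨K, hKc, hKb, hLK, hKL⟩ := exists_inverse hA heA he S hLc
    (by rw [hst, mul_neg, neg_mul, hcomm]) hLb
    (fun T hT => by rw [hst, mul_neg, neg_mul, hL'b T hT])
    (show 0 < ‖x‖ + 1 by positivity)
    (fun y hy hyb => hz.limit_below hA heA he S hx hxs hLc hLn hL2 hy hyb)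
  have hec : Cor M e e := cor_proj heM he
  set y := K + Complex.I • e with hydef
  have hyc : Cor M e y := hKc.add (hec.csmul _)
  have hyb : y ∈ bic hA :=
    fun T hT => by
      rw [hydef, mul_add, add_mul, hKb T hT, mul_smul_comm, smul_mul_assoc,
        centralizer_span hA heA he S hT (proj_mem_normSpan heA he)]
  have hzc : ∀ n, Cor M e (z n) := fun n => (hz.bd n).cor hA heA he S
  have hRc : ∀ n, Cor M e (res e (z n)) := fun n => cor_res heM he (hz.sa n) (hzc n)
  have hval : ∀ u, BdSpan M A e φ u → φ (star u * (x - y)) = 0 := by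
    intro u hu
    have huc : Cor M e u := hu.cor hA heA he S
    set Q : ℕ → (H →L[ℂ] H) := fun n => (z n + Complex.I • e) * u
    have hQc : ∀ n, Cor M e (Q n) := fun n => ((hzc n).add (hec.csmul _)).mul he huc
    have hDc : ∀ n, Cor M e ((L - res e (z n)) * K) := fun n =>
      (hLc.sub (hRc n)).mul he hKc
    have e1 : ∀ n, φ (star u * (x - y)) =
        φ (star u * (x - z n)) + φ (star (Q n) * ((L - res e (z n)) * K)) := fun n => by
      rw [← map_add]
      congr 1
      have hq : star (Q n) = star u * (z n - Complex.I • e) := by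
        simp only [Q, star_mul, star_add, star_smul, (hz.sa n).star_eq, he.isSelfAdjoint.star_eq,
          Complex.star_def, Complex.conj_I, neg_smul, ← sub_eq_add_neg]
      rw [hq, mul_assoc, ← mul_add]
      congr 1
      rw [sub_mul L, hLK, mul_sub (z n - Complex.I • e), ← mul_assoc _ (res e (z n)),
        shift_res he (hz.sa n) (hzc n), hKc.mul_left he, sub_mul, (hzc n).mul_right he,
        smul_mul_assoc, he.isIdempotentElem.eq, hydef]
      abel
    have h1 : Tendsto (fun n => φ (star u * (x - z n))) atTop (𝓝 0) :=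
      hz.test _ (hu.star' hA heA he S).1
    have h2 : Tendsto (fun n => φ (star (Q n) * ((L - res e (z n)) * K))) atTop (𝓝 0) := by
      refine Metric.tendsto_nhds.2 fun ε hε => ?_
      set C := (‖x‖ + 1) * n2 φ u + 1
      have hC : 0 < C := by
        have := n2_nonneg (τ := φ) u
        positivity
      obtain ⟨δ, hδ, hsmall⟩ := right_ok H M A e φ hA heA he S K hKc 2 (ε / (2 * C))
        (by positivity)
      filter_upwards [hz.left_bound hA heA he S hx hxs hu one_pos,
        hL2.eventually (ge_mem_nhds hδ)] with n hn hn2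
      rw [dist_zero_right]
      have hQ : n2 φ (Q n) ≤ C := by
        simp only [Q, add_mul, smul_mul_assoc, huc.mul_left he]
        refine (n2_add_le S he ((hzc n).mul he huc) (huc.csmul _)).trans ?_
        rw [n2_csmul, Complex.norm_I, one_mul]
        simp only [C]
        linarith
      have hD : n2 φ ((L - res e (z n)) * K) ≤ ε / (2 * C) :=
        hsmall _ (hLc.sub (hRc n))
          ((norm_sub_le _ _).trans (by linarith [norm_res_le he (hz.sa n)]))
          (by rw [← n2_neg, neg_sub]; exact hn2)
      refine lt_of_le_of_lt ((norm_inner_le S he (hQc n) (hDc n)).trans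
        (mul_le_mul hQ hD (n2_nonneg _) hC.le)) ?_
      rw [mul_div_assoc', div_lt_iff₀ (by positivity)]
      nlinarith
    exact tendsto_nhds_unique (tendsto_const_nhds.congr e1) (by simpa using h1.add h2)
  have hperp : Orth.Perp M A e φ (x - y) := by
    refine ⟨hx.sub hyc, fun w hw => ?_⟩
    refine norm_le_zero_iff.1 (le_of_forall_gt_imp_ge_of_dense fun t ht => ?_)
    obtain ⟨u, hu, hwu, -⟩ := exists_bd hA heA he S right_ok complete_ok diag_limit_ok hw
      (show 0 < t / (n2 φ (x - y) + 1) from div_pos ht (by linarith [n2_nonneg (τ := φ) (x - y)]))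
    have e1 : φ (star w * (x - y)) = φ (star (w - u) * (x - y)) := by
      rw [star_sub, sub_mul, map_sub, hval u hu, sub_zero]
    rw [e1]
    refine (norm_inner_le S he ((normSpan_cor hA hw).sub (hu.cor hA heA he S))
      (hx.sub hyc)).trans ((mul_le_mul_of_nonneg_right hwu (n2_nonneg _)).trans ?_)
    rw [div_mul_eq_mul_div, div_le_iff₀ (by linarith [n2_nonneg (τ := φ) (x - y)])]
    nlinarith [n2_nonneg (τ := φ) (x - y)]
  have hys : IsSelfAdjoint y := by
    set d := y - star y
    have hd : Orth.Perp M A e φ d := by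
      have h1 := (perp_of right_ok diag_limit_ok H M A e φ hA heA he S _ hperp).1
      rw [star_sub, hxs.star_eq] at h1
      have h2 := h1.add (hperp.smul (-1 : ℂ))
      rw [neg_one_smul, show x - star y + -(x - y) = d by simp only [d]; abel] at h2
      exact h2
    have hdb : d ∈ bic hA :=
      fun T hT => by
        have hT' : star T ∈ Set.centralizer (normStar hA : Set (H →L[ℂ] H)) := fun u hu => by
          simpa using (congrArg star (hT (star u) (star_mem (s := normStar hA) hu))).symm
        have h3 : T * star y = star y * T := by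
          simpa using (congrArg star (hyb (star T) hT')).symm
        simp only [d, mul_sub, sub_mul, hyb T hT, h3]
    have hd0 : d = 0 := by
      refine eq_zero_of_n2 S he hd.1 (le_antisymm ?_ (n2_nonneg _))
      refine le_of_forall_gt_imp_ge_of_dense fun t ht => ?_
      obtain ⟨u, hu, -, hdu⟩ := span_near so_ok hA heA he S hd.1 hdb ht
      have huc : Cor M e u := normSpan_cor hA hu
      have h4 := re_inner_le S he (hd.1.sub huc) hd.1
      rw [star_sub, sub_mul, map_sub, hd.2 u hu, sub_zero, ← n2_sq S he hd.1] at h4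
      have h5 := n2_nonneg (τ := φ) d
      nlinarith [mul_le_mul_of_nonneg_right hdu h5]
    exact (sub_eq_zero.1 hd0).symm
  refine ⟨y, hyc, hys, le_of_forall_gt_imp_ge_of_dense fun s hs => ?_, hyb, hperp⟩
  have hs0 : 0 ≤ s := (norm_nonneg x).trans hs.le
  refine norm_le_of_bounds hys hs0 ?_ ?_
  · have h := (le_add_excess hys.neg s).2
    rw [excess_zero hA heA he S hx.neg hxs.neg hyc.neg hys.neg
      (fun T hT => by rw [mul_neg, neg_mul, hyb T hT])
      (by have := hperp.smul (-1 : ℂ); rwa [neg_one_smul, neg_sub'] at this)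
      (by rwa [norm_neg]), add_zero] at h
    rw [neg_smul]
    exact neg_le.1 h
  · have h := (le_add_excess hys s).2
    rwa [excess_zero hA heA he S hx hxs hyc hys hyb hperp hs, add_zero] at h

end Vale.Agent.P078.State
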