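import Vale.Agent.P078.State.Core
import Vale.Agent.P078.State.Atom
import Vale.Agent.P078.State.Perp
import Vale.Agent.P078.State.Split

/-!
The steps of the port to states with their hypotheses discharged.
-/

namespace Vale.Agent.P078.State

/-- The module property of orthogonal operators. -/
theorem perp_ok : PerpStatement := perp_of right_ok diag_limit_ok

/-- Operators orthogonal to the normaliser have no atoms. -/
theorem atom_closed : AtomStatement := atom_ok complete_ok diag_limit_ok right_ok

/-- Small value of alternations. -/
theorem core_closed : CoreStatement := core_ok right_ok diag_limit_ok perp_ok atom_closed

end Vale.Agent.P078.State
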