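import Vale.Agent.P078.State.Defs
import Vale.Agent.P078.MKS.Assembly.Ops

/-!
Two cuts: two projections of a corner which fix finitely many vectors up to a small error contain,
up to a small norm error, a common one which still does so. No trace is used.
-/

namespace Vale.Agent.P078.State

open MKS Singular
open scoped InnerProductSpace

variable {H : Type} [NormedAddCommGroup H] [InnerProductSpace ℂ H] [CompleteSpace H]
variable {M : VonNeumannAlgebra H} {e q₁ q₂ : H →L[ℂ] H}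

/-- A spectral projection commutes with its operator. -/
theorem spProj_comm {W : H →L[ℂ] H} (hWs : IsSelfAdjoint W) (hWM : W ∈ M) (c : ℝ) :
    Commute W (spProj W c) := by
  obtain ⟨-, hp⟩ := isPr_spProj hWM c
  set p := spProj W c
  set g := excess c W with hg
  have hpg : p * g = g := spProj_mul W c
  have hgs : star g = g := (isSelfAdjoint_excess _ W).star_eq
  have hgp : g * p = g := by
    simpa [star_mul, hp.isSelfAdjoint.star_eq, hgs] using congrArg star hpg
  have hn : cfc (fun x : ℝ => max (c - x) 0) W * p = 0 := by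
    refine mul_spProj_eq_zero ?_
    rw [← cfc_mul _ _ W]
    conv_rhs => rw [← cfc_const_zero ℝ W]
    refine cfc_congr fun x _ => ?_
    rcases le_total x c with h | h <;> simp [h]
  have e1 : W - g = c • 1 - cfc (fun x : ℝ => max (c - x) 0) W := by
    rw [hg, (le_add_excess hWs c).1, ← Algebra.algebraMap_eq_smul_one, ← cfc_const c W,
      ← cfc_sub _ _ W]
    refine cfc_congr fun x _ => ?_
    rcases le_total x c with h | h <;> simp [h]
  have e2 : W * p = c • p + g := by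
    conv_lhs => rw [← sub_add_cancel W g, add_mul, e1, sub_mul, hn, sub_zero, hgp,
      smul_mul_assoc, one_mul]
  have e3 : p * W = c • p + g := by
    simpa [star_mul, hp.isSelfAdjoint.star_eq, hgs, hWs.star_eq] using congrArg star e2
  show W * p = p * W
  rw [e2, e3]

/-- A projection commuting with `G` on which `G` is at least `a` is small where `G` is. -/
theorem proj_bound {p G : H →L[ℂ] H} (hp : IsStarProjection p) (hc : Commute G p) {a : ℝ}
    (ha : a • p ≤ p * G * p) (ξ : H) : a * ‖p ξ‖ ≤ ‖G ξ‖ := by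
  rcases (norm_nonneg (p ξ)).eq_or_lt with h0 | h0
  · rw [← h0, mul_zero]; exact norm_nonneg _
  have h := (ContinuousLinearMap.nonneg_iff_isPositive _).1 (sub_nonneg.2 ha)
  have h' := h.re_inner_nonneg_left ξ
  have hpp : p * G * p = p * G := by rw [mul_assoc, hc.eq, ← mul_assoc, hp.isIdempotentElem.eq]
  rw [sub_apply, inner_sub_left, map_sub, hpp, smul_apply, RCLike.real_smul_eq_coe_smul (K := ℂ),
    inner_smul_left, RCLike.conj_ofReal, RCLike.re_ofReal_mul] at h'
  have e1 : RCLike.re ⟪p ξ, ξ⟫_ℂ = ‖p ξ‖ ^ 2 := by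
    conv_lhs => rw [← hp.isIdempotentElem.eq, mul_apply_eq_comp,
      ← ContinuousLinearMap.adjoint_inner_right, ← ContinuousLinearMap.star_eq_adjoint,
      hp.isSelfAdjoint.star_eq, ← norm_sq_eq_re_inner]
  have e2 : RCLike.re ⟪(p * G) ξ, ξ⟫_ℂ ≤ ‖G ξ‖ * ‖p ξ‖ := by
    rw [mul_apply_eq_comp, ← ContinuousLinearMap.adjoint_inner_right,
      ← ContinuousLinearMap.star_eq_adjoint, hp.isSelfAdjoint.star_eq]
    exact re_inner_le_norm _ _
  rw [e1] at h'
  nlinarith

/-- The projection off both tails of a self-adjoint operator misses a vector by no more than the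
excesses move it. -/
theorem cut_excess (he : IsStarProjection e) (heM : e ∈ M) {Z : H →L[ℂ] H} (hZ : Cor M e Z)
    (hZs : IsSelfAdjoint Z) {u c : ℝ} (hu : 0 ≤ u) (huc : u < c) :
    ∃ q : H →L[ℂ] H, Cor M e q ∧ IsStarProjection q ∧ ‖q * Z * q‖ ≤ c ∧
      ∀ ξ, (c - u) * ‖(e - q) ξ‖ ≤ ‖excess u Z ξ‖ + ‖excess u (-Z) ξ‖ := by
  have hc : 0 < c := hu.trans_lt huc
  have key : ∀ W : H →L[ℂ] H, Cor M e W → IsSelfAdjoint W →
      ∀ ξ, (c - u) * ‖spProj W c ξ‖ ≤ ‖excess u W ξ‖ := by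
    intro W hW hWs ξ
    obtain ⟨-, hp, hl, -⟩ := cut_above he hW hWs hc
    refine proj_bound hp ((spProj_comm hWs hW.1 c).cfc_real _) ?_ ξ
    have h1 := conj_le (le_add_excess hWs u).2 (spProj W c)
    rw [hp.isSelfAdjoint.star_eq, mul_add, add_mul, mul_smul_comm, smul_mul_assoc, mul_one,
      hp.isIdempotentElem.eq] at h1
    have h := hl.trans h1
    rwa [sub_smul, sub_le_iff_le_add']
  obtain ⟨h₁, hp₁, -, -⟩ := cut_above he hZ hZs hc
  obtain ⟨h₂, hp₂, -, -⟩ := cut_above he hZ.neg hZs.neg hc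
  obtain ⟨hn1, hn2⟩ : spProj Z c * spProj (-Z) c = 0 ∧ spProj (-Z) c * spProj Z c = 0 := by
    have h0 : excess c (-Z) * excess c Z = 0 := by
      rw [excess, excess, ← cfc_comp_neg (fun x : ℝ => max (x - c) 0) Z, ← cfc_mul _ _ Z]
      conv_rhs => rw [← cfc_const_zero ℝ Z]
      refine cfc_congr fun x _ => ?_
      rcases le_total x c with h | h
      · simp [h]
      · rw [max_eq_right (by linarith : -x - c ≤ 0), zero_mul]
    have h3 : spProj Z c * excess c (-Z) = 0 := by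
      have h := congrArg star (mul_spProj_eq_zero h0)
      rwa [star_mul, hp₁.isSelfAdjoint.star_eq, (isSelfAdjoint_excess c (-Z)).star_eq,
        star_zero] at h
    have h4 : spProj Z c * spProj (-Z) c = 0 := mul_spProj_eq_zero h3
    refine ⟨h4, ?_⟩
    simpa [star_mul, hp₁.isSelfAdjoint.star_eq, hp₂.isSelfAdjoint.star_eq] using congrArg star h4
  set p₁ := spProj Z c with hp₁d
  set p₂ := spProj (-Z) c with hp₂d
  set q := e - (p₁ + p₂) with hq
  have hqp : IsStarProjection q := by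
    refine ⟨?_, he.isSelfAdjoint.sub (hp₁.isSelfAdjoint.add hp₂.isSelfAdjoint)⟩
    show q * q = q
    simp only [hq, sub_mul, mul_sub, add_mul, mul_add, h₁.mul_left he, h₁.mul_right he,
      h₂.mul_left he, h₂.mul_right he, hn1, hn2, he.isIdempotentElem.eq,
      hp₁.isIdempotentElem.eq, hp₂.isIdempotentElem.eq]
    abel
  have hz1 : q * p₁ = 0 := by
    simp only [hq, sub_mul, add_mul, h₁.mul_left he, hp₁.isIdempotentElem.eq, hn2]; abel
  have hz2 : q * p₂ = 0 := by
    simp only [hq, sub_mul, add_mul, h₂.mul_left he, hp₂.isIdempotentElem.eq, hn1]; abel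
  have hqc : Cor M e q := by
    refine Cor.of_abs he ?_ ?_ ?_
    · exact sub_mem heM (add_mem h₁.1 h₂.1)
    · rw [hq, mul_sub, mul_add, he.isIdempotentElem.eq, h₁.mul_left he, h₂.mul_left he]
    · rw [hq, sub_mul, add_mul, he.isIdempotentElem.eq, h₁.mul_right he, h₂.mul_right he]
  refine ⟨q, hqc, hqp, ?_, fun ξ => ?_⟩
  · obtain ⟨-, -, -, hu1⟩ := cut_above he hZ hZs hc
    obtain ⟨-, -, -, hu2⟩ := cut_above he hZ.neg hZs.neg hc
    refine norm_le_of_bounds ?_ hc.le ?_ ?_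
    · rw [IsSelfAdjoint, star_mul, star_mul, hqp.isSelfAdjoint.star_eq, hZs.star_eq, mul_assoc]
    · have h := hu2 q hqp hz2
      rw [mul_neg, neg_mul, neg_le, ← neg_smul] at h
      refine le_trans ?_ h
      rw [neg_smul, neg_smul, neg_le_neg_iff]
      exact smul_le_smul_of_nonneg_left (proj_le_one hqp) hc.le
    · exact (hu1 q hqp hz1).trans (smul_le_smul_of_nonneg_left (proj_le_one hqp) hc.le)
  · rw [hq, sub_sub_cancel, add_apply]
    refine (mul_le_mul_of_nonneg_left (norm_add_le _ _) (by linarith)).trans ?_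
    rw [mul_add]
    exact add_le_add (key Z hZ hZs ξ) (key (-Z) hZ.neg hZs.neg ξ)

/-- The two-cut lemma. -/
theorem two_cut (he : IsStarProjection e) (heM : e ∈ M) (h₁ : Cor M e q₁) (h₂ : Cor M e q₂)
    (hq₁ : IsStarProjection q₁) (hq₂ : IsStarProjection q₂) {η : ℝ} (hη : 0 < η) :
    ∃ q : H →L[ℂ] H, Cor M e q ∧ IsStarProjection q ∧ q * q₁ = q ∧ q₁ * q = q ∧
      ‖q₂ * q - q‖ ≤ η ∧ ∀ ξ, η ^ 2 * ‖(e - q) ξ‖ ≤
        η ^ 2 * ‖(e - q₁) ξ‖ + ‖(e - q₂) ξ‖ + ‖(e - q₁) ξ‖ := by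
  set d := e - q₂ with hd
  have hdc : Cor M e d := (cor_proj heM he).sub h₂
  have hds : IsSelfAdjoint d := he.isSelfAdjoint.sub hq₂.isSelfAdjoint
  have hdd : d * d = d := by
    simp only [hd, sub_mul, mul_sub, he.isIdempotentElem.eq, hq₂.isIdempotentElem.eq,
      h₂.mul_left he, h₂.mul_right he]
    abel
  have hdp : IsStarProjection d := ⟨hdd, hds⟩
  set W := q₁ * d * q₁ with hW
  have hWM : W ∈ M := mul_mem (mul_mem h₁.1 hdc.1) h₁.1
  have hWc : Cor M q₁ W := Cor.of_abs hq₁ hWM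
    (by simp only [hW, ← mul_assoc, hq₁.isIdempotentElem.eq])
    (by simp only [hW, mul_assoc, hq₁.isIdempotentElem.eq])
  have hWs : IsSelfAdjoint W := by
    rw [IsSelfAdjoint, hW, star_mul, star_mul, hq₁.isSelfAdjoint.star_eq, hds.star_eq, mul_assoc]
  have hη2 : 0 < η ^ 2 := by positivity
  obtain ⟨hpc, hp, hlo, hup⟩ := cut_above hq₁ hWc hWs hη2
  set p := spProj W (η ^ 2)
  have hpl := hpc.mul_left hq₁
  have hpr := hpc.mul_right hq₁
  set q := q₁ - p with hq
  have hqp : IsStarProjection q := by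
    refine ⟨?_, hq₁.isSelfAdjoint.sub hp.isSelfAdjoint⟩
    show q * q = q
    simp only [hq, sub_mul, mul_sub, hq₁.isIdempotentElem.eq, hp.isIdempotentElem.eq, hpl, hpr]
    abel
  have hqr : q * q₁ = q := by rw [hq, sub_mul, hq₁.isIdempotentElem.eq, hpr]
  have hql : q₁ * q = q := by rw [hq, mul_sub, hq₁.isIdempotentElem.eq, hpl]
  have hqc : Cor M e q := by
    refine Cor.of_abs he (sub_mem h₁.1 hpc.1) ?_ ?_
    · rw [← hql, ← mul_assoc, h₁.mul_left he]
    · rw [← hqr, mul_assoc, h₁.mul_right he]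
  have hqz : q * p = 0 := by rw [hq, sub_mul, hpl, hp.isIdempotentElem.eq, sub_self]
  refine ⟨q, hqc, hqp, hqr, hql, ?_, fun ξ => ?_⟩
  · have e1 : q₂ * q - q = -(d * q) := by rw [hd, sub_mul, hqc.mul_left he, neg_sub]
    have e2 : star (d * q) * (d * q) = q * W * q := by
      rw [star_mul, hqp.isSelfAdjoint.star_eq, hds.star_eq, mul_assoc q d, ← mul_assoc d d q, hdd]
      conv_lhs => rw [← mul_assoc, ← hqr]
      conv_lhs => arg 2; rw [hqr, ← hql]
      simp only [hW, mul_assoc]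
    have h := hup q hqp hqz
    rw [← e2] at h
    have hn : ‖star (d * q) * (d * q)‖ ≤ η ^ 2 := by
      refine norm_le_of_bounds (IsSelfAdjoint.star_mul_self _) hη2.le
        (le_trans ?_ (star_mul_self_nonneg _))
        (h.trans (smul_le_smul_of_nonneg_left (proj_le_one hqp) hη2.le))
      rw [neg_smul, neg_nonpos]
      exact smul_nonneg hη2.le zero_le_one
    rw [e1, norm_neg]
    rw [CStarRing.norm_star_mul_self] at hn
    nlinarith [norm_nonneg (d * q)]
  · have hd2 : η ^ 2 * ‖p ξ‖ ≤ ‖W ξ‖ := proj_bound hp (spProj_comm hWs hWM _) hlo ξ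
    have hW1 : ‖W ξ‖ ≤ ‖(e - q₂) ξ‖ + ‖(e - q₁) ξ‖ := by
      have e1 : W ξ = q₁ (d ξ - d ((e - q₁) ξ)) := by
        show q₁ (d (q₁ ξ)) = _
        have e0 : q₁ ξ = e ξ - (e - q₁) ξ := by rw [sub_apply, sub_sub_cancel]
        conv_lhs => rw [e0, map_sub d, ← mul_apply_eq_comp d e, hdc.mul_right he]
      rw [e1]
      refine ((q₁.le_opNorm _).trans (mul_le_of_le_one_left (norm_nonneg _) (hq₁.norm_le _))).trans
        ((norm_sub_le _ _).trans (add_le_add le_rfl ?_))
      exact (d.le_opNorm _).trans (mul_le_of_le_one_left (norm_nonneg _) (hdp.norm_le _))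
    have e3 : (e - q) ξ = (e - q₁) ξ + p ξ := by
      rw [← add_apply, hq, sub_sub_eq_add_sub, add_sub_right_comm]
    rw [e3]
    nlinarith [norm_add_le ((e - q₁) ξ) (p ξ)]

theorem common_ok : CommonStatement := by
  intro H _ _ _ M e heM he F δ η hδ hη
  refine ⟨δ * η ^ 2 / (2 * (η ^ 2 + 2)), by positivity, fun q₁ q₂ h₁ h₂ hq₁ hq₂ hF => ?_⟩
  obtain ⟨q, hqc, hqp, hqr, -, hn, hb⟩ := two_cut he heM h₁ h₂ hq₁ hq₂ hη
  refine ⟨q, hqc, hqp, hqr, hn, fun ξ hξ => ?_⟩
  obtain ⟨a, b⟩ := hF ξ hξ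
  have hη2 : 0 < η ^ 2 := by positivity
  have hd : δ * η ^ 2 / (2 * (η ^ 2 + 2)) * (η ^ 2 + 2) = δ * η ^ 2 / 2 := by field_simp
  nlinarith [hb ξ, norm_nonneg ((e - q₁) ξ)]

end Vale.Agent.P078.State
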