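import Vale.Agent.P078.Orth.Core

/-!
Words of fixed operators and signed sums of projections at distinct places: averaged over the
signs, a word around an operator becomes an iteration of sandwiches and block diagonals.
-/

namespace Vale.Agent.P078.State.Core

open Finset MKS Singular

set_option linter.unusedSectionVars false
open Vale.Agent.P078.Orth (sgn sum_sgn_pair star_sgn sum_update Pos seg seg_split seg_succ
  seg_self factor letter restLetter)

variable {H : Type} [NormedAddCommGroup H] [InnerProductSpace ℂ H] [CompleteSpace H]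

section Average

variable {Q : Type} {n : ℕ} (P : Q → Fin n → (H →L[ℂ] H)) (s : Q → Finset (Fin n))

/-- The value of a step at given signs. -/
noncomputable def val (σ : Q → Fin n → Bool) : (H →L[ℂ] H) ⊕ Q → (H →L[ℂ] H)
  | .inl x => x
  | .inr q => ∑ l ∈ s q, sgn (σ q l) • P q l

/-- A step averaged around an operator. -/
noncomputable def op : (H →L[ℂ] H) ⊕ Q → (H →L[ℂ] H) → (H →L[ℂ] H)
  | .inl x, Y => x * Y * star x
  | .inr q, Y => ∑ l ∈ s q, P q l * Y * P q l

omit [CompleteSpace H] in
theorem pairs_head (x : H →L[ℂ] H) (l : List Q) :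
    (Sum.inl x :: l.map Sum.inr).filterMap Sum.getRight? = l := by
  induction l with
  | nil => rfl
  | cons a l ih => simpa [List.filterMap_cons] using ih

/-- The value of a word of steps. -/
noncomputable def wval (σ : Q → Fin n → Bool) (w : List ((H →L[ℂ] H) ⊕ Q)) : H →L[ℂ] H :=
  (w.map (val P s σ)).prod

/-- A word averaged around an operator. -/
noncomputable def wop (w : List ((H →L[ℂ] H) ⊕ Q)) (Y : H →L[ℂ] H) : H →L[ℂ] H :=
  w.foldr (op P s) Y

theorem wop_append (w w' : List ((H →L[ℂ] H) ⊕ Q)) (Y : H →L[ℂ] H) :
    wop P s (w ++ w') Y = wop P s w (wop P s w' Y) := List.foldr_append ..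

theorem wop_sum {ι : Type*} (t : Finset ι) (w : List ((H →L[ℂ] H) ⊕ Q))
    (Y : ι → (H →L[ℂ] H)) : wop P s w (∑ i ∈ t, Y i) = ∑ i ∈ t, wop P s w (Y i) := by
  induction w with
  | nil => rfl
  | cons a w ih =>
    show op P s a (wop P s w _) = ∑ i ∈ t, op P s a (wop P s w (Y i))
    rw [ih]
    cases a with
    | inl x => simp only [op, Finset.mul_sum, Finset.sum_mul]
    | inr q =>
      simp only [op, Finset.mul_sum, Finset.sum_mul]
      exact Finset.sum_comm

variable [Fintype Q] [DecidableEq Q]

theorem avg_word (hP : ∀ q l, star (P q l) = P q l) (Y : H →L[ℂ] H) :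
    ∀ w : List ((H →L[ℂ] H) ⊕ Q), (w.filterMap Sum.getRight?).Nodup →
      ∑ σ : Q → Fin n → Bool, wval P s σ w * Y * star (wval P s σ w) =
        Fintype.card (Q → Fin n → Bool) • wop P s w Y := by
  intro w
  induction w with
  | nil => intro _; simp [wval, wop]
  | cons a w ih =>
    intro hw
    have e : ∀ σ, wval P s σ (a :: w) * Y * star (wval P s σ (a :: w)) =
        val P s σ a * (wval P s σ w * Y * star (wval P s σ w)) * star (val P s σ a) := fun σ => by
      simp only [wval, List.map_cons, List.prod_cons, star_mul, mul_assoc]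
    simp only [e]
    cases a with
    | inl x =>
      simp only [val]
      rw [← Finset.sum_mul, ← Finset.mul_sum, ih (by simpa [List.filterMap_cons] using hw), mul_smul_comm,
        smul_mul_assoc]
      rfl
    | inr q =>
      have hw' : q ∉ w.filterMap Sum.getRight? ∧ (w.filterMap Sum.getRight?).Nodup := by
        simpa using hw
      set X := fun σ => wval P s σ w * Y * star (wval P s σ w) with hX
      have hXu : ∀ σ f, X (Function.update σ q f) = X σ := by
        intro σ f
        have : wval P s (Function.update σ q f) w = wval P s σ w := by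
          refine congrArg List.prod (List.map_congr_left fun b hb => ?_)
          cases b with
          | inl x => rfl
          | inr q' =>
            have hne : q' ≠ q := fun h => hw'.1 (List.mem_filterMap.2 ⟨_, hb, by simp [h]⟩)
            simp only [val, Function.update_of_ne hne]
        simp only [hX, this]
      have hone : ∀ σ, ∑ f : Fin n → Bool, val P s (Function.update σ q f) (.inr q) *
          X (Function.update σ q f) * star (val P s (Function.update σ q f) (.inr q)) =
          (2 : ℂ) ^ n • op P s (.inr q) (X σ) := by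
        intro σ
        simp only [hXu, val, op, Function.update_self, star_sum, star_smul, star_sgn, hP,
          Finset.mul_sum, Finset.sum_mul, mul_smul_comm, smul_mul_assoc, smul_smul,
          Finset.smul_sum]
        rw [Finset.sum_comm]
        refine Finset.sum_congr rfl fun i hi => ?_
        rw [Finset.sum_comm, Finset.sum_eq_single i]
        · rw [← Finset.sum_smul, sum_sgn_pair, if_pos rfl]
        · intro j _ hji
          rw [← Finset.sum_smul, sum_sgn_pair, if_neg (by tauto), zero_smul]
        · exact fun h => absurd hi h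
      have h1 := sum_update (α := Fin n → Bool) q fun σ =>
        val P s σ (.inr q) * X σ * star (val P s σ (.inr q))
      simp only [hone, ← Finset.smul_sum] at h1
      rw [← Nat.cast_smul_eq_nsmul ℂ, show ((Fintype.card (Fin n → Bool) : ℕ) : ℂ) = 2 ^ n by
        simp] at h1
      refine (((pow_ne_zero n two_ne_zero).isUnit.smul_left_cancel).1 h1).symm.trans ?_
      have h2 : ∑ σ, X σ = Fintype.card (Q → Fin n → Bool) • wop P s w Y := ih hw'.2
      simp only [op]
      rw [Finset.sum_comm]
      simp only [← Finset.sum_mul, ← Finset.mul_sum, h2, mul_smul_comm, smul_mul_assoc,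
        ← Finset.smul_sum]
      rfl

end Average

section Word

variable {k d : ℕ} {n : ℕ} (m : Fin k → (H →L[ℂ] H)) (B : Fin k → Finset (Fin d)) (b₀ : Fin d)

/-- The positions of a letter outside the block `b₀`. -/
def restPos (t : Fin k) : List (Pos B) :=
  (List.finRange d).filterMap fun b =>
    if h : b ∈ B t ∧ b ≠ b₀ then some ⟨(t, b), h.1⟩ else none

/-- The steps of `n` letters from `a` on, without the cells of `b₀`. -/
def wl : ℕ → ℕ → List ((H →L[ℂ] H) ⊕ Pos B)
  | _, 0 => []
  | a, n + 1 =>
    (if h : a < k then Sum.inl (m ⟨a, h⟩) :: (restPos B b₀ ⟨a, h⟩).map Sum.inr else []) ++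
      wl (a + 1) n

theorem mem_restPos {t : Fin k} {q : Pos B} (h : q ∈ restPos B b₀ t) :
    q.1.1 = t ∧ q.1.2 ≠ b₀ := by
  obtain ⟨b, -, hb⟩ := List.mem_filterMap.1 h
  split_ifs at hb with hc
  cases hb
  exact ⟨rfl, hc.2⟩

theorem restPos_nodup (t : Fin k) : (restPos B b₀ t).Nodup := by
  refine (List.nodup_finRange d).filterMap fun b b' q hb hb' => ?_
  split_ifs at hb hb' with h h'
  · simp only [Option.mem_def, Option.some.injEq] at hb hb'
    subst hb
    exact (congrArg (fun p : Pos B => p.1.2) hb').symm
  all_goals simp at hb hb'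

theorem wl_add (a p : ℕ) : ∀ r, wl m B b₀ a (p + r) = wl m B b₀ a p ++ wl m B b₀ (a + p) r := by
  intro r
  induction p generalizing a with
  | zero => simp [wl]
  | succ p ih =>
    rw [show p + 1 + r = (p + r) + 1 by omega, wl, wl, ih, List.append_assoc,
      show a + 1 + p = a + (p + 1) by omega]

theorem wl_one {t : Fin k} :
    wl m B b₀ t 1 = Sum.inl (m t) :: (restPos B b₀ t).map Sum.inr := by
  simp [wl, t.2]

theorem mem_wl_inl {x : H →L[ℂ] H} :
    ∀ {r a : ℕ}, Sum.inl x ∈ wl m B b₀ a r → ∃ t, x = m t := by
  intro r
  induction r with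
  | zero => intro a h; simp [wl] at h
  | succ r ih =>
    intro a h
    rcases List.mem_append.1 h with h | h
    · split_ifs at h with ha
      · simp at h; exact ⟨_, h⟩
      · simp at h
    · exact ih h

theorem mem_wl_pairs {q : Pos B} :
    ∀ {r a : ℕ}, q ∈ (wl m B b₀ a r).filterMap Sum.getRight? →
      (a ≤ (q.1.1 : ℕ) ∧ (q.1.1 : ℕ) < a + r) ∧ q.1.2 ≠ b₀ := by
  intro r
  induction r with
  | zero => intro a h; simp [wl] at h
  | succ r ih =>
    intro a h
    rw [wl, List.filterMap_append, List.mem_append] at h
    rcases h with h | h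
    · split_ifs at h with ha
      · have h' : q ∈ restPos B b₀ ⟨a, ha⟩ := by rwa [pairs_head] at h
        obtain ⟨h1, h2⟩ := mem_restPos B b₀ h'
        simp only [h1]
        exact ⟨⟨le_rfl, by omega⟩, h2⟩
      · simp at h
    · have := ih h; exact ⟨⟨by omega, by omega⟩, this.2⟩

theorem wl_nodup : ∀ r a, ((wl m B b₀ a r).filterMap Sum.getRight?).Nodup := by
  intro r
  induction r with
  | zero => intro a; simp [wl]
  | succ r ih =>
    intro a
    rw [wl, List.filterMap_append]
    refine List.Nodup.append ?_ (ih _) fun q h1 h2 => ?_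
    · split_ifs with ha
      · rw [pairs_head]; exact restPos_nodup B b₀ ⟨a, ha⟩
      · simp
    · have h2' := (mem_wl_pairs m B b₀ h2).1.1
      split_ifs at h1 with ha
      · have h' : q ∈ restPos B b₀ ⟨a, ha⟩ := by rwa [pairs_head] at h1
        rw [(mem_restPos B b₀ h').1] at h2'
        simp only at h2'
        omega
      · simp at h1

theorem prod_restPos (t : Fin k) (L : Fin k → Fin d → (H →L[ℂ] H)) (g : Pos B → (H →L[ℂ] H))
    (hg : ∀ q, q.1.1 = t → q.1.2 ≠ b₀ → L q.1.1 q.1.2 = g q) :
    ((restPos B b₀ t).map g).prod = restLetter B L t b₀ := by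
  unfold restPos restLetter letter
  induction List.finRange d with
  | nil => simp
  | cons b l ih =>
    by_cases hb : b ∈ B t
    · by_cases hb0 : b = b₀
      · rw [List.filterMap_cons_none (by simp [hb0]), List.filter_cons_of_pos (by simpa using hb),
          List.map_cons, List.prod_cons, hb0]
        simp only [Function.update_self, one_mul]
        exact ih
      · rw [List.filterMap_cons_some (dif_pos (⟨hb, hb0⟩ : b ∈ B t ∧ b ≠ b₀)),
          List.filter_cons_of_pos (by simpa using hb), List.map_cons, List.map_cons,
          List.prod_cons, List.prod_cons, ih, ← hg ⟨(t, b), hb⟩ rfl hb0]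
        simp [hb0]
    · rw [List.filterMap_cons_none (by simp [hb]), List.filter_cons_of_neg (by simpa using hb), ih]

theorem wval_wl (P : Pos B → Fin n → (H →L[ℂ] H)) (s : Pos B → Finset (Fin n))
    (σ : Pos B → Fin n → Bool) (L : Fin k → Fin d → (H →L[ℂ] H)) :
    ∀ r a, a + r ≤ k →
      (∀ q : Pos B, a ≤ (q.1.1 : ℕ) → (q.1.1 : ℕ) < a + r → q.1.2 ≠ b₀ →
        L q.1.1 q.1.2 = val P s σ (.inr q)) →
      wval P s σ (wl m B b₀ a r) =
        seg m B (fun t => Function.update (L t) b₀ 1) a (a + r) := by
  intro r
  induction r with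
  | zero => intro a _ _; simp [wl, wval, seg_self]
  | succ r ih =>
    intro a hak hL
    have hr := ih (a + 1) (by omega) fun q h1 h2 h3 => hL q (by omega) (by omega) h3
    rw [seg_split (a := a) (b := a + 1) (c := a + (r + 1)) (by omega) (by omega), seg_succ,
      show a + (r + 1) = a + 1 + r by omega, ← hr]
    simp only [wval, wl, List.map_append, List.prod_append]
    congr 1
    rw [dif_pos (by omega : a < k), factor, dif_pos (by omega : a < k)]
    simp only [List.map_cons, List.prod_cons, List.map_map, val]
    congr 1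
    exact prod_restPos B b₀ _ L _ fun q h1 h2 => hL q (by simp [h1]) (by simp [h1]) h2

end Word

end Vale.Agent.P078.State.Core
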