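import Vale.Agent.P078.State.CoreSmall
import Vale.Agent.P078.State.CoreAvg

/-!
Decoupling for states: an alternating word of operators orthogonal to the normaliser and cells, in
which every block occurs twice, tends to value zero. The first letter which repeats a block of an
earlier one cuts the word in two; the left part is averaged over signs.
-/

namespace Vale.Agent.P078.State

open Finset Filter Topology MKS Singular
open Vale.Agent.P078.Orth (Cut fine Pos ext1 cwt seg seg_congr seg_split seg_succ factor letter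
  restLetter letter_split word_average norm_sum_injective_le norm_sgn)

namespace Core

variable {H : Type} [NormedAddCommGroup H] [InnerProductSpace ℂ H] [CompleteSpace H]
variable {M A : VonNeumannAlgebra H} {e : H →L[ℂ] H} {φ : (H →L[ℂ] H) →ₗ[ℂ] ℂ}

theorem small_wop (hR : RightStatement) (hA : IsMASA M A) (heA : e ∈ A) (he : IsStarProjection e)
    (S : IsState M A e φ) {Q : Type} {P : (c : Cut A e) → Q → Fin c.n → (H →L[ℂ] H)}
    (hP : ∀ c q, Blocks M A e (P c q)) (s : (c : Cut A e) → Q → Finset (Fin c.n))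
    {N : Cut A e → ℕ} {Z : (c : Cut A e) → Fin (N c) → (H →L[ℂ] H)} (hZ : Small M e φ N Z) :
    ∀ w : List ((H →L[ℂ] H) ⊕ Q), (∀ x, Sum.inl x ∈ w → Cor M e x) →
      Small M e φ N fun c l => wop (P c) (s c) w (Z c l) := by
  intro w
  induction w with
  | nil => intro _; exact hZ
  | cons a w ih =>
    intro hw
    have h := ih fun x hx => hw x (List.mem_cons_of_mem _ hx)
    cases a with
    | inl x => exact small_sandwich hA heA he S hR h (hw x List.mem_cons_self)
    | inr q => exact small_diag hA heA he S (fun c => hP c q) (fun c => s c q) h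

end Core

open Vale.Agent.P078.State.Core in
/-- The decoupling statement for states. -/
theorem core_ok (hR : RightStatement) (_hD : DiagLimitStatement) (hP : PerpStatement)
    (hAtom : AtomStatement) : CoreStatement := by
  intro H _ _ _ M A e φ hA heA he S k d m B h hk hm hB hrep hh
  classical
  have hec : Cor M e e := cor_proj (hA.1 e heA) he
  by_cases hk1 : k = 1
  · subst hk1
    obtain rfl : d = 0 := by
      by_contra hd
      obtain ⟨s, t, hst, -⟩ := hrep ⟨0, Nat.pos_of_ne_zero hd⟩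
      exact hst (Subsingleton.elim _ _)
    have h0 : φ (m 0) = 0 := by
      have := (hm 0).2 e (Orth.alg_mem_normSpan heA hec.2)
      rwa [he.isSelfAdjoint.star_eq, (hm 0).1.mul_left he] at this
    refine tendsto_const_nhds.congr fun c => (Finset.sum_eq_zero fun i _ => ?_).symm
    simpa using h0
  -- the first repetition
  set rep : Finset (Fin k) :=
    Finset.univ.filter fun t => ∃ s : Fin k, (s : ℕ) < t ∧ ∃ b ∈ B s, b ∈ B t with hrepdef
  have hne : rep.Nonempty := by
    obtain ⟨b, hb⟩ := hB ⟨0, hk⟩ (show 0 + 1 < k by omega)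
    obtain ⟨u, v, huv, hu, hv⟩ := hrep b
    rcases lt_or_gt_of_ne (Fin.val_ne_of_ne huv) with hlt | hlt
    · exact ⟨v, Finset.mem_filter.2 ⟨Finset.mem_univ _, u, hlt, b, hu, hv⟩⟩
    · exact ⟨u, Finset.mem_filter.2 ⟨Finset.mem_univ _, v, hlt, b, hv, hu⟩⟩
  set j := rep.min' hne with hjdef
  have hfirst : ∀ b (u v : Fin k), (u : ℕ) < v → (v : ℕ) < j → b ∈ B u → b ∉ B v :=
    fun b u v huv hvj hu hv => absurd (Fin.le_def.1 (rep.min'_le v
      (Finset.mem_filter.2 ⟨Finset.mem_univ _, u, huv, b, hu, hv⟩))) (not_le.2 hvj)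
  obtain ⟨i, hij, b₀, hbi, hbj⟩ := (Finset.mem_filter.1 (rep.min'_mem hne)).2
  rw [← hjdef] at hij hbj
  have hb0 : ∀ t : Fin k, (t : ℕ) < j → (t : ℕ) ≠ i → b₀ ∉ B t := by
    intro t ht hti hbt
    rcases lt_or_gt_of_ne hti with h' | h'
    · exact hfirst b₀ t i h' hij hbt hbi
    · exact hfirst b₀ i t h' ht hbi hbt
  have hout : ∀ b : Fin d, ∃ p : Pos B, p.1.2 = b ∧ (j : ℕ) ≤ p.1.1 := by
    intro b
    obtain ⟨u, v, huv, hu, hv⟩ := hrep b
    by_cases h1 : (j : ℕ) ≤ u
    · exact ⟨⟨(u, b), hu⟩, rfl, h1⟩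
    by_cases h2 : (j : ℕ) ≤ v
    · exact ⟨⟨(v, b), hv⟩, rfl, h2⟩
    rcases lt_or_gt_of_ne (Fin.val_ne_of_ne huv) with hlt | hlt
    · exact absurd hv (hfirst b u v hlt (by omega) hu)
    · exact absurd hu (hfirst b v u hlt (by omega) hv)
  choose t₀ ht₀ hto using hout
  set occ : Finset (Fin k) := Finset.univ.filter fun t => b₀ ∈ B t with hoccdef
  have hocc : occ.Nonempty := ⟨j, by simp [hoccdef, hbj]⟩
  set jl := occ.max' hocc with hjldef
  have hbl : b₀ ∈ B jl := (Finset.mem_filter.1 (occ.max'_mem hocc)).2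
  have hjl : (j : ℕ) ≤ jl := Fin.le_def.1 (occ.le_max' j (by simp [hoccdef, hbj]))
  have hlast : ∀ t : Fin k, (jl : ℕ) < t → b₀ ∉ B t := fun t ht hbt =>
    absurd (Fin.le_def.1 (occ.le_max' t (by simp [hoccdef, hbt]))) (not_le.2 ht)
  -- basic facts
  have hjk : (j : ℕ) < k := j.2
  have hlk : (jl : ℕ) < k := jl.2
  have hcorm : ∀ t, Cor M e (m t) := fun t => (hm t).1
  have hcorh : ∀ t b, Cor M e (h t b) := fun t b => ⟨(hh t b).1.1, (hh t b).2⟩
  have hspan : ∀ t b, h t b ∈ normSpan M A e := fun t b =>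
    Orth.nor_mem_normSpan (hh t b).1 (hh t b).2
  have hspan' : ∀ t b, star (h t b) ∈ normSpan M A e := fun t b =>
    Orth.normSpan_star' hA heA he (hspan t b)
  have hcellc : ∀ t b (c : Cut A e) l, Cor M e (Orth.cell (h t b) c l) := fun t b c l =>
    ((blocks_cell hA he (hh t b).1 (hcorh t b) c).1 l).2
  have hcellA : ∀ t b (c : Cut A e) l, Orth.cell (h t b) c l ∈ A := fun t b c l =>
    Orth.cell_mem (hh t b).1 c l
  set C : ℝ := 1 + ∑ t, ‖m t‖ with hCdef
  have hC : 1 ≤ C := le_add_of_nonneg_right (Finset.sum_nonneg fun _ _ => norm_nonneg _)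
  have hmC : ∀ t, ‖m t‖ ≤ C := fun t =>
    (Finset.single_le_sum (fun u _ => norm_nonneg (m u)) (Finset.mem_univ t)).trans (by linarith)
  set K : ℝ := C ^ k with hKdef
  have hK0 : 0 ≤ K := pow_nonneg (zero_le_one.trans hC) _
  have hpow : ∀ {p : ℕ}, p ≤ k → C ^ p ≤ K := fun hp => pow_le_pow_right₀ hC hp
  -- the averaged left part
  set Pc : (c : Cut A e) → Pos B → Fin c.n → (H →L[ℂ] H) :=
    fun c q => Orth.cell (h q.1.1 q.1.2) c with hPc
  have hPb : ∀ c q, Blocks M A e (Pc c q) := fun c q =>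
    blocks_cell hA he (hh _ _).1 (hcorh _ _) c
  set w₁ := wl m B b₀ 0 ((i : ℕ) + 1) with hw₁
  set w₂ := wl m B b₀ ((i : ℕ) + 1) ((j : ℕ) - ((i : ℕ) + 1)) with hw₂
  have hinl : ∀ {r a : ℕ} (x : H →L[ℂ] H), Sum.inl x ∈ wl m B b₀ a r → Cor M e x :=
    fun x hx => by
      obtain ⟨t, rfl⟩ := mem_wl_inl m B b₀ hx
      exact hcorm t
  set G : (c : Cut A e) → (Fin d → Finset (Fin c.n)) → ℝ := fun c J =>
    (φ (wop (Pc c) (fun q => J q.1.2) w₁ (diag (Orth.cell (h i b₀) c) (J b₀) fun l =>
      wop (Pc c) (fun q => J q.1.2) w₂ (m j * Orth.cell (h j b₀) c l * star (m j))))).re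
    with hGdef
  have hG : ∀ J : (c : Cut A e) → Fin d → Finset (Fin c.n),
      Tendsto (fun c => G c (J c)) (fine A e) (𝓝 0) := by
    intro J
    simp only [hGdef]
    refine small_value hA heA he S (small_wop hR hA heA he S hPb (fun c q => J c q.1.2) ?_ w₁
      fun x hx => hinl x hx)
    rcases (show (j : ℕ) = i + 1 ∨ (i : ℕ) + 1 < j by omega) with hadj | hsep
    · -- adjacent letters
      have hw : w₂ = [] := by rw [hw₂, hadj, Nat.sub_self]; rfl
      simp only [hw, wop, List.foldr_nil]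
      set W := star (h i b₀) * m j * h j b₀ with hW
      have hWp : Orth.Perp M A e φ W :=
        ((hP H M A e φ hA heA he S _
          (((hP H M A e φ hA heA he S _ (hm j)).2 _ (hspan' i b₀)).1)).2 _ (hspan j b₀)).2
      have h1 := small_cross hA heA he S (P := fun c => Orth.cell (h i b₀) c)
        (fun c => blocks_cell hA he (hh i b₀).1 (hcorh i b₀) c) (fun c => J c b₀)
        (small_sandwich hA heA he S hR (small_adj hA heA he S hWp.1
          (hAtom H M A e φ hA heA he S _ (hP H M A e φ hA heA he S _ hWp).1).1) (hcorh i b₀))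
      convert h1 using 3 with c
      refine Finset.sum_congr rfl fun l _ => ?_
      set g := h i b₀
      set q := c.q l with hq
      have hqA : q ∈ A := (c.part.1 l).1
      have hsA : star g * g ∈ A := by simpa using ((hh i b₀).1.2.2 1 (one_mem A)).2
      have hqq : q * q = q := by rw [hq, Orth.cut_mul, if_pos rfl]
      have k1 : ∀ x, g * (q * (star g * (g * (q * x)))) = g * (q * x) := fun x => by
        calc g * (q * (star g * (g * (q * x)))) = g * (q * (star g * g)) * (q * x) := by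
              simp only [mul_assoc]
          _ = g * star g * g * (q * q) * x := by
              rw [hA.2.1 q hqA _ hsA]; simp only [mul_assoc]
          _ = g * (q * x) := by rw [(hh i b₀).1.2.1, hqq, mul_assoc]
      have k3 : star g * (g * star g) = star g := by
        simpa [mul_assoc] using (normaliser_star (hh i b₀).1).2.1
      have k4 : q * (star g * (g * (q * star g))) = q * star g := by
        calc q * (star g * (g * (q * star g))) = q * (star g * g) * q * star g := by
              simp only [mul_assoc]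
          _ = q * q * (star g * (g * star g)) := by
              rw [mul_assoc q (star g * g) q, hA.2.1 _ hsA q hqA]; simp only [mul_assoc]
          _ = _ := by rw [hqq, k3]
      simp only [Orth.cell, hW, star_mul, star_star, ← hq, mul_assoc, k1, k4]
    · -- separated letters
      set u : Fin k := ⟨(j : ℕ) - 1, by omega⟩ with hu
      have hsplit : w₂ = wl m B b₀ ((i : ℕ) + 1) ((u : ℕ) - ((i : ℕ) + 1)) ++
          wl m B b₀ u 1 := by
        have e1 := wl_add m B b₀ ((i : ℕ) + 1) ((u : ℕ) - ((i : ℕ) + 1)) 1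
        rw [show (i : ℕ) + 1 + ((u : ℕ) - ((i : ℕ) + 1)) = u by simp [hu]; omega] at e1
        rw [hw₂, ← e1]
        congr 1
        simp [hu]; omega
      obtain ⟨d₀, hd₀⟩ := hB u (by simp [hu]; omega)
      have hd : d₀ ≠ b₀ := fun hd => hb0 u (by simp [hu]; omega) (by simp [hu]; omega) (hd ▸ hd₀)
      have hne0 : (⟨(u, d₀), hd₀⟩ : Pos B) ∈ restPos B b₀ u :=
        List.mem_filterMap.2 ⟨d₀, List.mem_finRange _, by simp [hd₀, hd]⟩
      obtain ⟨pre, q₀, hpre⟩ : ∃ pre q₀, restPos B b₀ u = pre ++ [q₀] :=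
        ⟨_, _, (List.dropLast_concat_getLast (List.ne_nil_of_mem hne0)).symm⟩
      set w' := wl m B b₀ ((i : ℕ) + 1) ((u : ℕ) - ((i : ℕ) + 1)) ++
        (Sum.inl (m u) :: pre.map Sum.inr) with hw'
      have hw2 : w₂ = w' ++ [Sum.inr q₀] := by
        rw [hsplit, wl_one, hpre, hw']
        simp
      simp only [hw2, wop_append]
      set g := h q₀.1.1 q₀.1.2
      set W := star (h j b₀) * star (m j) * g with hW
      have hWp : Orth.Perp M A e φ W :=
        ((hP H M A e φ hA heA he S _ (((hP H M A e φ hA heA he S _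
          (hP H M A e φ hA heA he S _ (hm j)).1).2 _ (hspan' j b₀)).1)).2 _ (hspan _ _)).2
      have h1 := small_cross hA heA he S (P := fun c => Orth.cell (h i b₀) c)
        (fun c => blocks_cell hA he (hh i b₀).1 (hcorh i b₀) c) (fun c => J c b₀)
        (small_wop hR hA heA he S hPb (fun c q => J c q.1.2)
          (small_sandwich hA heA he S hR (small_sep hA heA he S hWp.1
            (hAtom H M A e φ hA heA he S _ hWp).2 (fun c => J c q₀.1.2)) (hcorh q₀.1.1 q₀.1.2))
          w' fun x hx => hinl (r := (j : ℕ) - ((i : ℕ) + 1)) x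
            (show Sum.inl x ∈ w₂ from hw2 ▸ List.mem_append_left _ hx))
      convert h1 using 3 with c
      refine Finset.sum_congr rfl fun l _ => ?_
      congr 3
      simp only [wop, List.foldr_cons, List.foldr_nil, op, Core.diag, Finset.mul_sum, Finset.sum_mul,
        hPc, Orth.cell, hW, g, star_mul, star_star, mul_assoc]
  -- choose the worst restriction
  choose Jm hJm using fun c : Cut A e =>
    Finset.exists_max_image (Finset.univ : Finset (Fin d → Finset (Fin c.n))) (G c)
      Finset.univ_nonempty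
  set K' : ℝ := K * (K * n2 φ e) with hK'
  have hK'0 : 0 ≤ K' := mul_nonneg hK0 (mul_nonneg hK0 (n2_nonneg _))
  refine squeeze_zero_norm (a := fun c => (d : ℝ) ^ d * (K' * Real.sqrt (G c (Jm c))))
    (fun c => ?_) (by simpa using
      ((((Real.continuous_sqrt.tendsto 0).comp (hG Jm)).const_mul K').const_mul ((d : ℝ) ^ d)))
  refine norm_sum_injective_le _ (by positivity) fun J => ?_
  refine le_trans ?_ (mul_le_mul_of_nonneg_left
    (Real.sqrt_le_sqrt ((hJm c).2 J (Finset.mem_univ _))) hK'0)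
  -- the average over signs
  set a : Fin k → Fin d → Fin c.n → (H →L[ℂ] H) := fun t b l => Orth.cell (h t b) c l with ha
  have hword : ∀ f : Fin d → Fin c.n, φ (List.ofFn fun x : Fin k => m x *
      (((List.finRange d).filter fun b => b ∈ B x).map fun b =>
        Orth.cell (h x b) c (f b)).prod).prod =
      φ (seg m B (fun x b => a x b (f b)) 0 k) := fun f => by rw [Orth.seg_univ]; rfl
  simp only [hword]
  set Ls : (Pos B → Fin c.n → Bool) → Fin c.n → Fin k → Fin d → (H →L[ℂ] H) :=
    fun σ l => ext1 fun p => ∑ x, cwt b₀ t₀ J σ l p x • a p.1.1 p.1.2 x with hLs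
  set Lb : (Pos B → Fin c.n → Bool) → Fin k → Fin d → (H →L[ℂ] H) := fun σ t =>
    Function.update (ext1 (fun p => ∑ x, cwt b₀ t₀ J σ x p x • a p.1.1 p.1.2 x) t) b₀ 1 with hLb
  have hwt : ∀ σ l p x, ‖cwt b₀ t₀ J σ l p x‖ ≤ 1 := fun σ l p x => by
    unfold cwt
    split_ifs
    · simp
    · simp
    · rw [norm_prod]
      refine le_of_eq (Finset.prod_eq_one fun q _ => ?_)
      split_ifs <;> simp [norm_sgn]
    · exact (norm_sgn _).le
    · simp
  have hext : ∀ (w : Pos B → Fin c.n → ℂ), (∀ p x, ‖w p x‖ ≤ 1) → ∀ t b,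
      ext1 (fun p => ∑ x, w p x • a p.1.1 p.1.2 x) t b ∈ A ∧
        ‖ext1 (fun p => ∑ x, w p x • a p.1.1 p.1.2 x) t b‖ ≤ 1 := by
    intro w hw t b
    simp only [ext1]
    split_ifs
    · exact ⟨sum_mem fun l _ => Orth.csmul_mem' _ (hcellA t b c l),
        Orth.norm_comb_le hA (hh t b).1 ((hcorh t b).mul_right he) c fun l => hw _ _⟩
    · exact ⟨one_mem A, ContinuousLinearMap.norm_id_le⟩
  have hLA : ∀ σ l t b, Ls σ l t b ∈ A := fun σ l t b => (hext _ (hwt σ l) t b).1
  have hLn : ∀ σ l t b, ‖Ls σ l t b‖ ≤ 1 := fun σ l t b => (hext _ (hwt σ l) t b).2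
  have hbA : ∀ σ t b, Lb σ t b ∈ A := fun σ t b => by
    simp only [hLb]
    by_cases hb : b = b₀
    · subst hb; simp [one_mem]
    · rw [Function.update_of_ne hb]; exact (hext _ (fun p x => hwt σ x p x) t b).1
  have hbn : ∀ σ t b, ‖Lb σ t b‖ ≤ 1 := fun σ t b => by
    simp only [hLb]
    by_cases hb : b = b₀
    · subst hb; rw [Function.update_self]; exact ContinuousLinearMap.norm_id_le
    · rw [Function.update_of_ne hb]; exact (hext _ (fun p x => hwt σ x p x) t b).2
  have hL0 : ∀ σ l t, b₀ ∈ B t → Ls σ l t b₀ = Orth.cell (h t b₀) c l := fun σ l t ht => by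
    simp only [hLs, ext1, dif_pos ht, ha]
    rw [Finset.sum_eq_single l]
    · simp [cwt]
    · intro x _ hx; simp [cwt, hx]
    · simp
  have hLne : ∀ σ l t b, b ≠ b₀ → Ls σ l t b = Lb σ t b := fun σ l t b hb => by
    simp only [hLs, hLb, Function.update_of_ne hb, ext1]
    split_ifs
    · exact Finset.sum_congr rfl fun x _ => by simp [cwt, hb]
    · rfl
  have hrest : ∀ σ l t, restLetter B (Ls σ l) t b₀ = letter B (Lb σ) t := fun σ l t => by
    refine congrArg List.prod (List.map_congr_left fun b _ => ?_)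
    by_cases hb : b = b₀
    · subst hb; simp [hLb]
    · simpa [Function.update_of_ne hb] using hLne σ l t b hb
  have hfree : ∀ σ l a' b', (∀ t : Fin k, a' ≤ (t : ℕ) → (t : ℕ) < b' → b₀ ∉ B t) →
      seg m B (Ls σ l) a' b' = seg m B (Lb σ) a' b' := fun σ l a' b' hf =>
    seg_congr fun t h1 h2 b hb => hLne σ l t b fun hbb => hf t h1 h2 (hbb ▸ hb)
  have hfac : ∀ σ l (t : Fin k), b₀ ∈ B t → factor m B (Ls σ l) t =
      m t * Orth.cell (h t b₀) c l * letter B (Lb σ) t := fun σ l t ht => by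
    rw [factor, dif_pos t.2, letter_split hA.2.1 (hLA σ l) t ht, hL0 σ l t ht, hrest, mul_assoc]
  -- the left part as a word of steps
  set sJ : Pos B → Finset (Fin c.n) := fun q => J q.1.2 with hsJ
  set W₁ : (Pos B → Fin c.n → Bool) → (H →L[ℂ] H) := fun σ => seg m B (Lb σ) 0 ((i : ℕ) + 1)
    with hW₁
  set W₂ : (Pos B → Fin c.n → Bool) → (H →L[ℂ] H) := fun σ => seg m B (Lb σ) ((i : ℕ) + 1) j
    with hW₂
  have hwl : ∀ σ r a', a' + r ≤ (j : ℕ) →
      wval (Pc c) sJ σ (wl m B b₀ a' r) = seg m B (Lb σ) a' (a' + r) := by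
    intro σ r a' har
    have e1 : (fun t => Function.update (Lb σ t) b₀ 1) = Lb σ := by
      funext t; simp [hLb]
    rw [wval_wl m B b₀ (Pc c) sJ σ (Lb σ) r a' (by omega) fun q _ h2 h3 => ?_, e1]
    simp only [hLb, Function.update_of_ne h3, ext1, dif_pos q.2, Core.val, hsJ, hPc, ha]
    rw [← Finset.sum_subset (Finset.subset_univ (J q.1.2)) fun x _ hx => by simp [cwt, h3, hx]]
    refine Finset.sum_congr rfl fun x hx => ?_
    congr 1
    simp only [cwt, if_neg h3, if_pos hx]
    exact if_neg fun hqt => by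
      have := hto q.1.2
      simp only [← hqt] at this
      omega
  set U : (Pos B → Fin c.n → Bool) → Fin c.n → (H →L[ℂ] H) := fun σ l =>
    W₁ σ * (Orth.cell (h i b₀) c l * (W₂ σ * (m j * Orth.cell (h j b₀) c l))) with hU
  set R : (Pos B → Fin c.n → Bool) → Fin c.n → (H →L[ℂ] H) := fun σ l =>
    Orth.cell (h j b₀) c l * letter B (Lb σ) j * seg m B (Ls σ l) ((j : ℕ) + 1) k with hRdef
  have hUc : ∀ σ l, Cor M e (U σ l) := fun σ l =>
    Orth.cor_seg_mul hA heA he hcorm (hbA σ) _ _ ((hcellc _ _ _ _).mul he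
      (Orth.cor_seg_mul hA heA he hcorm (hbA σ) _ _ ((hcorm j).mul he (hcellc _ _ _ _))))
  have hRc : ∀ σ l, Cor M e (R σ l) := fun σ l =>
    Orth.cor_mul_seg hA heA he hcorm (hLA σ l) _ _
      (Orth.cor_mul_A hA heA (Orth.letter_mem (hbA σ) _) (hcellc _ _ _ _))
  have hone : ∀ σ l, ‖φ (seg m B (Ls σ l) 0 k)‖ ≤ n2 φ (star (U σ l)) * n2 φ (R σ l) := by
    intro σ l
    have hpp : Orth.cell (h j b₀) c l * Orth.cell (h j b₀) c l = Orth.cell (h j b₀) c l := by
      rw [Orth.cell_mul hA (hh _ _).1, if_pos rfl]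
    have e1 : seg m B (Ls σ l) 0 ((i : ℕ) + 1) = W₁ σ * Orth.cell (h i b₀) c l := by
      have hlow : ∀ t : Fin k, 0 ≤ (t : ℕ) → (t : ℕ) < i → b₀ ∉ B t := fun t _ ht =>
        hb0 t (by omega) (by omega)
      simp only [hW₁]
      rw [seg_split (a := 0) (b := (i : ℕ)) (c := (i : ℕ) + 1) (by omega) (by omega), seg_succ,
        hfac σ l i hbi, hfree σ l 0 i hlow,
        seg_split (a := 0) (b := (i : ℕ)) (c := (i : ℕ) + 1) (by omega) (by omega), seg_succ,
        factor, dif_pos i.2, mul_assoc (m i),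
        hA.2.1 _ (hcellA i b₀ c l) _ (Orth.letter_mem (hbA σ) i)]
      simp only [mul_assoc]
    have e2 : seg m B (Ls σ l) ((i : ℕ) + 1) j = W₂ σ :=
      hfree σ l _ _ fun t h1 h2 => hb0 t h2 (by omega)
    have e3 : seg m B (Ls σ l) 0 k = U σ l * R σ l := by
      rw [seg_split (a := 0) (b := (i : ℕ) + 1) (c := k) (by omega) (by omega),
        seg_split (a := (i : ℕ) + 1) (b := (j : ℕ)) (c := k) (by omega) (by omega),
        seg_split (a := (j : ℕ)) (b := (j : ℕ) + 1) (c := k) (by omega) (by omega), seg_succ,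
        hfac σ l j hbj, e1, e2]
      conv_lhs => rw [← hpp]
      simp only [hU, hRdef, mul_assoc]
    rw [e3]
    have hc := norm_inner_le S he ((hUc σ l).star' he) (hRc σ l)
    rwa [star_star] at hc
  have hR2 : ∀ σ, ∑ l ∈ J b₀, n2 φ (R σ l) ^ 2 ≤ K' ^ 2 := by
    intro σ
    set T := letter B (Lb σ) jl * seg m B (Lb σ) ((jl : ℕ) + 1) k with hT
    have hqT : ∀ l, Cor M e (Orth.cell (h jl b₀) c l * T) := fun l => by
      rw [hT, ← mul_assoc]
      exact Orth.cor_mul_seg hA heA he hcorm (hbA σ) _ _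
        (Orth.cor_mul_A hA heA (Orth.letter_mem (hbA σ) _) (hcellc _ _ _ _))
    have hRle : ∀ l, n2 φ (R σ l) ≤ K * n2 φ (Orth.cell (h jl b₀) c l * T) := by
      intro l
      have hcn : ∀ t b, ‖Orth.cell (h t b) c l‖ ≤ 1 := fun t b =>
        (Orth.cell_proj hA (hh t b).1 c l).2.norm_le _
      have hK1 : 1 ≤ K := one_le_pow₀ hC
      have hend : seg m B (Ls σ l) ((jl : ℕ) + 1) k = seg m B (Lb σ) ((jl : ℕ) + 1) k :=
        hfree σ l _ _ fun t h1 _ => hlast t (by omega)
      rcases hjl.eq_or_lt with heq | hlt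
      · have hje : jl = j := Fin.ext heq.symm
        have e1 : R σ l = Orth.cell (h jl b₀) c l * T := by
          rw [hje] at hend ⊢
          simp only [hRdef, hT, hje, hend, mul_assoc]
        rw [e1]
        exact le_mul_of_one_le_left (n2_nonneg _) hK1
      · set X := Orth.cell (h j b₀) c l * letter B (Lb σ) j *
          seg m B (Ls σ l) ((j : ℕ) + 1) jl * m jl with hX
        have e1 : R σ l = X * (Orth.cell (h jl b₀) c l * T) := by
          simp only [hRdef, hX, hT]
          rw [seg_split (a := (j : ℕ) + 1) (b := (jl : ℕ)) (c := k) (by omega) (by omega),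
            seg_split (a := (jl : ℕ)) (b := (jl : ℕ) + 1) (c := k) (by omega) (by omega),
            seg_succ, hfac σ l jl hbl, hend]
          simp only [mul_assoc]
        have hC0 : 0 ≤ C := zero_le_one.trans hC
        have hXn : ‖X‖ ≤ K := by
          calc ‖X‖ ≤ 1 * 1 * C ^ ((jl : ℕ) - ((j : ℕ) + 1)) * C := by
                refine (norm_mul_le _ _).trans (mul_le_mul ((norm_mul_le _ _).trans (mul_le_mul
                  ((norm_mul_le _ _).trans (mul_le_mul (hcn _ _)
                    (Orth.norm_letter_le (hbn σ) _) (norm_nonneg _) zero_le_one))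
                  (Orth.norm_seg_le (hLn σ l) hC hmC _ _) (norm_nonneg _) (by positivity)))
                  (hmC _) (norm_nonneg _) (by positivity))
            _ = C ^ ((jl : ℕ) - ((j : ℕ) + 1) + 1) := by rw [pow_succ]; ring
            _ ≤ K := hpow (by omega)
        rw [e1]
        exact (n2_mul_le S he (e1 ▸ hRc σ l) (hqT l)).trans
          (mul_le_mul_of_nonneg_right hXn (n2_nonneg _))
    have hsum := Orth.sum_proj_le hA heA he (J b₀)
      (fun l _ => Orth.cell_proj hA (hh jl b₀).1 c l)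
      fun l _ l' _ hll => by rw [Orth.cell_mul hA (hh jl b₀).1, if_neg hll]
    set Q := ∑ l ∈ J b₀, Orth.cell (h jl b₀) c l with hQ
    have hQT : Cor M e (Q * T) := by
      rw [hQ, Finset.sum_mul]; exact Cor.sum _ fun l _ => hqT l
    calc ∑ l ∈ J b₀, n2 φ (R σ l) ^ 2
        ≤ ∑ l ∈ J b₀, K ^ 2 * n2 φ (Orth.cell (h jl b₀) c l * T) ^ 2 :=
          Finset.sum_le_sum fun l _ =>
            (pow_le_pow_left₀ (n2_nonneg _) (hRle l) 2).trans_eq (mul_pow _ _ _)
      _ = K ^ 2 * n2 φ (Q * T) ^ 2 := by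
          rw [← Finset.mul_sum, n2_sq S he hQT, star_mul, hsum.2.isSelfAdjoint.star_eq,
            mul_assoc, ← mul_assoc Q, hsum.2.isIdempotentElem.eq, hQ, Finset.sum_mul]
          congr 1
          rw [Finset.mul_sum (a := star T), map_sum, Complex.re_sum]
          refine Finset.sum_congr rfl fun l _ => ?_
          rw [n2_sq S he (hqT l), star_mul,
            (Orth.cell_proj hA (hh jl b₀).1 c l).2.isSelfAdjoint.star_eq, mul_assoc,
            ← mul_assoc (Orth.cell (h jl b₀) c l), Orth.cell_mul hA (hh jl b₀).1, if_pos rfl]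
      _ ≤ K' ^ 2 := by
          rw [hK', mul_pow K]
          refine mul_le_mul_of_nonneg_left (pow_le_pow_left₀ (n2_nonneg _) ?_ 2) (sq_nonneg K)
          have h1 := n2_mul_le S he (g := Q * T) (y := e) (by rwa [hQT.mul_right he]) hec
          rw [hQT.mul_right he] at h1
          refine h1.trans (mul_le_mul_of_nonneg_right ?_ (n2_nonneg _))
          refine (norm_mul_le _ _).trans ((mul_le_of_le_one_left (norm_nonneg _)
            (hsum.2.norm_le _)).trans ((norm_mul_le _ _).trans
              ((mul_le_of_le_one_left (norm_nonneg _) (Orth.norm_letter_le (hbn σ) _)).trans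
                ((Orth.norm_seg_le (hbn σ) hC hmC _ _).trans (hpow (by omega))))))
  have hU2 : ∑ σ, ∑ l ∈ J b₀, n2 φ (star (U σ l)) ^ 2 =
      Fintype.card (Pos B → Fin c.n → Bool) * G c J := by
    set wd : Fin c.n → List ((H →L[ℂ] H) ⊕ Pos B) := fun l =>
      w₁ ++ Sum.inl (Orth.cell (h i b₀) c l) :: w₂ with hwd
    set Y : Fin c.n → (H →L[ℂ] H) := fun l => m j * Orth.cell (h j b₀) c l * star (m j) with hY
    have hnd : ∀ l, ((wd l).filterMap Sum.getRight?).Nodup := fun l => by
      have h1 := wl_nodup m B b₀ (((i : ℕ) + 1) + ((j : ℕ) - ((i : ℕ) + 1))) 0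
      rw [wl_add, Nat.zero_add, List.filterMap_append] at h1
      rw [hwd]
      simpa [List.filterMap_cons, hw₁, hw₂] using h1
    have hUU : ∀ σ l, U σ l * star (U σ l) =
        wval (Pc c) sJ σ (wd l) * Y l * star (wval (Pc c) sJ σ (wd l)) := by
      intro σ l
      have e1 : wval (Pc c) sJ σ (wd l) = W₁ σ * Orth.cell (h i b₀) c l * W₂ σ := by
        have a1 := hwl σ ((i : ℕ) + 1) 0 (by omega)
        have a2 := hwl σ ((j : ℕ) - ((i : ℕ) + 1)) ((i : ℕ) + 1) (by omega)
        rw [Nat.zero_add] at a1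
        rw [Nat.add_sub_cancel' (show (i : ℕ) + 1 ≤ j by omega)] at a2
        simp only [hW₁, hW₂, ← a1, ← a2, wval, hwd, hw₁, hw₂, List.map_append, List.map_cons,
          List.prod_append, List.prod_cons, Core.val, mul_assoc]
      have hp := (Orth.cell_proj hA (hh j b₀).1 c l).2
      rw [e1]
      simp only [hU, hY]
      set p' := Orth.cell (h j b₀) c l
      conv_rhs => rw [← hp.isIdempotentElem.eq]
      simp only [star_mul, hp.isSelfAdjoint.star_eq, mul_assoc]
    have hav : ∀ l, ∑ σ, U σ l * star (U σ l) =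
        Fintype.card (Pos B → Fin c.n → Bool) • wop (Pc c) sJ (wd l) (Y l) := fun l => by
      simp only [hUU]
      exact avg_word (Pc c) sJ (fun q x =>
        (Orth.cell_proj hA (hh _ _).1 c x).2.isSelfAdjoint.star_eq) (Y l) (wd l) (hnd l)
    have hsq : ∀ σ l, n2 φ (star (U σ l)) ^ 2 = (φ (U σ l * star (U σ l))).re := fun σ l => by
      rw [n2_sq S he ((hUc σ l).star' he), star_star]
    simp only [hsq]
    rw [Finset.sum_comm]
    simp only [← Complex.re_sum, ← map_sum, hav, ← Finset.smul_sum]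
    rw [map_nsmul, nsmul_eq_mul, Complex.mul_re, Complex.natCast_re, Complex.natCast_im,
      zero_mul, sub_zero]
    congr 2
    simp only [hwd, wop_append, ← wop_sum, Core.diag, hY]
    congr 3
    funext l
    show Orth.cell (h i b₀) c l * _ * star (Orth.cell (h i b₀) c l) = _
    rw [(Orth.cell_proj hA (hh i b₀).1 c l).2.isSelfAdjoint.star_eq]
    rfl
  -- combine
  have havg := word_average (m := m) φ a b₀ t₀ ht₀ J
  set N : ℕ := c.n * Fintype.card (Pos B) with hN
  have hcard : (Fintype.card (Pos B → Fin c.n → Bool) : ℝ) = 2 ^ N := by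
    simp [hN, pow_mul]
  have h1 : (2 : ℝ) ^ N * ‖∑ f ∈ Fintype.piFinset J, φ (seg m B (fun x b => a x b (f b)) 0 k)‖ ≤
      ∑ σ : Pos B → Fin c.n → Bool, Real.sqrt (∑ l ∈ J b₀, n2 φ (star (U σ l)) ^ 2) * K' := by
    have h0 := congrArg (fun z : ℂ => ‖z‖) havg
    simp only [norm_mul, norm_pow, Complex.norm_two] at h0
    rw [hN, ← h0]
    refine (norm_sum_le _ _).trans (Finset.sum_le_sum fun σ _ => ?_)
    refine (norm_sum_le _ _).trans ((Finset.sum_le_sum fun l _ => hone σ l).trans
      ((Real.sum_mul_le_sqrt_mul_sqrt _ _ _).trans ?_))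
    exact mul_le_mul_of_nonneg_left ((Real.sqrt_le_sqrt (hR2 σ)).trans_eq (Real.sqrt_sq hK'0))
      (Real.sqrt_nonneg _)
  have h2 : ∑ σ : Pos B → Fin c.n → Bool, Real.sqrt (∑ l ∈ J b₀, n2 φ (star (U σ l)) ^ 2) ≤
      2 ^ N * Real.sqrt (G c J) := by
    have h3 := Real.sum_mul_le_sqrt_mul_sqrt Finset.univ (fun _ : Pos B → Fin c.n → Bool => (1 : ℝ))
      fun σ => Real.sqrt (∑ l ∈ J b₀, n2 φ (star (U σ l)) ^ 2)
    simp only [one_mul, one_pow, Finset.sum_const, Finset.card_univ, nsmul_eq_mul, mul_one,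
      Real.sq_sqrt (Finset.sum_nonneg fun l _ => sq_nonneg _)] at h3
    refine h3.trans (le_of_eq ?_)
    rw [hU2, hcard, Real.sqrt_mul (by positivity), ← mul_assoc,
      Real.mul_self_sqrt (by positivity)]
  rw [← Finset.sum_mul] at h1
  refine le_of_mul_le_mul_left (h1.trans ((mul_le_mul_of_nonneg_right h2 hK'0).trans
    (le_of_eq (by ring)))) (pow_pos two_pos N)

end Vale.Agent.P078.State
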