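import Vale.Agent.P078.State.Basic
import Vale.Agent.P078.MKS.Trace
import Vale.Agent.P078.Orth.Prods

/-!
Small families: families of operators of the corner, indexed along the cuts, whose squares add up
to a bounded operator and whose squared 2-norms add up to a null function. Sandwiches, block
diagonals and the collapse of a family to its block diagonal keep them small.
-/

namespace Vale.Agent.P078.State.Core

open Filter Topology MKS Singular
open Vale.Agent.P078.Orth (Cut fine cut_mul cut_star cut_cor)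

set_option linter.unusedSectionVars false

variable {H : Type} [NormedAddCommGroup H] [InnerProductSpace ℂ H] [CompleteSpace H]
variable {M A : VonNeumannAlgebra H} {e : H →L[ℂ] H} {φ : (H →L[ℂ] H) →ₗ[ℂ] ℂ}

/-- Orthogonal projections of the MASA in the corner. -/
def Blocks (M A : VonNeumannAlgebra H) (e : H →L[ℂ] H) {n : ℕ}
    (P : Fin n → (H →L[ℂ] H)) : Prop :=
  (∀ x, IsPr A (P x) ∧ Cor M e (P x)) ∧ ∀ x y, x ≠ y → P x * P y = 0

/-- The block diagonal of a family. -/
def diag {n : ℕ} (P : Fin n → (H →L[ℂ] H)) (s : Finset (Fin n)) (Z : Fin n → (H →L[ℂ] H)) :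
    H →L[ℂ] H :=
  ∑ x ∈ s, P x * Z x * P x

/-- A small family. -/
def Small (M : VonNeumannAlgebra H) (e : H →L[ℂ] H) (φ : (H →L[ℂ] H) →ₗ[ℂ] ℂ)
    {A : VonNeumannAlgebra H} (N : Cut A e → ℕ) (Z : (c : Cut A e) → Fin (N c) → (H →L[ℂ] H)) :
    Prop :=
  (∀ c l, Cor M e (Z c l)) ∧
    (∃ C : ℝ, 0 ≤ C ∧ ∀ c, ∑ l, star (Z c l) * Z c l ≤ C • (1 : H →L[ℂ] H)) ∧
    Tendsto (fun c => ∑ l, n2 φ (Z c l) ^ 2) (fine A e) (𝓝 0)

theorem star_self_le (x : H →L[ℂ] H) : star x * x ≤ ‖x‖ ^ 2 • (1 : H →L[ℂ] H) :=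
  (bounds_of_norm_le (IsSelfAdjoint.star_mul_self x)
    (by rw [CStarRing.norm_star_mul_self, sq])).2

theorem blocks_cut (hA : IsMASA M A) (he : IsStarProjection e) (c : Cut A e) :
    Blocks M A e c.q :=
  ⟨fun x => ⟨c.part.1 x, cut_cor hA he c x⟩, c.part.2.1⟩

theorem blocks_cell (hA : IsMASA M A) (he : IsStarProjection e) {h : H →L[ℂ] H}
    (hn : h ∈ normaliser M A) (hc : Cor M e h) (c : Cut A e) :
    Blocks M A e (Orth.cell h c) :=
  ⟨fun x => ⟨Orth.cell_proj hA hn c x, (hc.mul he (cut_cor hA he c x)).mul he (hc.star' he)⟩,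
    fun x y h => by rw [Orth.cell_mul hA hn, if_neg h]⟩

variable {n : ℕ} {P : Fin n → (H →L[ℂ] H)} (hA : IsMASA M A) (heA : e ∈ A)
  (he : IsStarProjection e) (S : IsState M A e φ) (hP : Blocks M A e P)
include hA heA he S hP

theorem cor_diag (s : Finset (Fin n)) {Z : Fin n → (H →L[ℂ] H)} (hZ : ∀ x, Cor M e (Z x)) :
    Cor M e (diag P s Z) :=
  Cor.sum _ fun x _ => ((hP.1 x).2.mul he (hZ x)).mul he (hP.1 x).2

theorem star_diag (s : Finset (Fin n)) (Z : Fin n → (H →L[ℂ] H)) :
    star (diag P s Z) * diag P s Z =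
      ∑ x ∈ s, star (P x * Z x * P x) * (P x * Z x * P x) := by
  simp only [diag, star_sum, Finset.sum_mul]
  refine Finset.sum_congr rfl fun x hx => ?_
  rw [Finset.mul_sum]
  refine Finset.sum_eq_single x (fun y _ hy => ?_) fun h => absurd hx h
  calc star (P x * Z x * P x) * (P y * Z y * P y)
      = star (P x * Z x) * 0 + P x * star (Z x) * (P x * P y) * Z y * P y := by
        rw [mul_zero, zero_add]
        simp only [star_mul, (hP.1 x).1.2.isSelfAdjoint.star_eq, mul_assoc]
    _ = 0 := by rw [hP.2 x y (Ne.symm hy)]; simp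

theorem n2_diag_sq (s : Finset (Fin n)) {Z : Fin n → (H →L[ℂ] H)} (hZ : ∀ x, Cor M e (Z x)) :
    n2 φ (diag P s Z) ^ 2 = ∑ x ∈ s, n2 φ (P x * Z x * P x) ^ 2 := by
  rw [n2_sq S he (cor_diag hA heA he S hP s hZ), star_diag hA heA he S hP, map_sum,
    Complex.re_sum]
  exact Finset.sum_congr rfl fun x _ =>
    (n2_sq S he (((hP.1 x).2.mul he (hZ x)).mul he (hP.1 x).2)).symm

theorem n2_sandwich_le (x : Fin n) {Z : H →L[ℂ] H} (hZ : Cor M e Z) :
    n2 φ (P x * Z * P x) ≤ n2 φ (P x * Z) :=
  (n2_mul_mem_le S he hA heA ((hP.1 x).2.mul he hZ) (hP.1 x).1.1).trans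
    (mul_le_of_le_one_left (n2_nonneg _) ((hP.1 x).1.2.norm_le _))

/-- The collapse of a family to its block diagonal does not increase the 2-norm. -/
theorem n2_diag_le_sum (s : Finset (Fin n)) {Z : Fin n → (H →L[ℂ] H)}
    (hZ : ∀ x, Cor M e (Z x)) : n2 φ (diag P s Z) ^ 2 ≤ ∑ x, n2 φ (Z x) ^ 2 := by
  rw [n2_diag_sq hA heA he S hP s hZ]
  refine (Finset.sum_le_sum fun x _ => ?_).trans
    (Finset.sum_le_sum_of_subset_of_nonneg (Finset.subset_univ s) fun x _ _ => sq_nonneg _)
  refine pow_le_pow_left₀ (n2_nonneg _) ((n2_sandwich_le hA heA he S hP x (hZ x)).trans ?_) 2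
  exact (n2_mul_le S he ((hP.1 x).2.mul he (hZ x)) (hZ x)).trans
    (mul_le_of_le_one_left (n2_nonneg _) ((hP.1 x).1.2.norm_le _))

/-- A block diagonal of a single operator does not increase the 2-norm. -/
theorem n2_diag_le (s : Finset (Fin n)) {Z : H →L[ℂ] H} (hZ : Cor M e Z) :
    n2 φ (diag P s fun _ => Z) ^ 2 ≤ n2 φ Z ^ 2 := by
  rw [n2_diag_sq hA heA he S hP s fun _ => hZ]
  refine (Finset.sum_le_sum fun x _ => pow_le_pow_left₀ (n2_nonneg _)
    (n2_sandwich_le hA heA he S hP x hZ) 2).trans ?_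
  have h1 : ∀ x, n2 φ (P x * Z) ^ 2 = (φ (star Z * P x * Z)).re := fun x => by
    rw [n2_sq S he ((hP.1 x).2.mul he hZ), star_mul, (hP.1 x).1.2.isSelfAdjoint.star_eq,
      ← mul_assoc, mul_assoc (star Z), (hP.1 x).1.2.isIdempotentElem.eq]
  have hsum := Orth.sum_proj_le hA heA he s (fun x _ => (hP.1 x).1) fun x _ y _ h => hP.2 x y h
  rw [Finset.sum_congr rfl fun x _ => h1 x, ← Complex.re_sum, ← map_sum, ← Finset.sum_mul,
    ← Finset.mul_sum, n2_sq S he hZ]
  have hQ : Cor M e (∑ x ∈ s, P x) := Cor.sum _ fun x _ => (hP.1 x).2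
  refine tr_mono S he (((hZ.star' he).mul he hQ).mul he hZ) ((hZ.star' he).mul he hZ) ?_
  have h2 := conj_le (proj_le_one hsum.2) Z
  rwa [mul_one] at h2

theorem star_diag_le (s : Finset (Fin n)) (Z : Fin n → (H →L[ℂ] H)) :
    star (diag P s Z) * diag P s Z ≤ diag P s fun x => star (Z x) * Z x := by
  rw [star_diag hA heA he S hP]
  refine Finset.sum_le_sum fun x _ => ?_
  have hs := (hP.1 x).1.2.isSelfAdjoint.star_eq
  have h := conj_le (conj_le (proj_le_one (hP.1 x).1.2) (Z x)) (P x)
  rw [hs, mul_one] at h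
  refine le_trans (le_of_eq ?_) h
  simp only [star_mul, hs]
  calc P x * (star (Z x) * P x) * (P x * Z x * P x)
      = P x * star (Z x) * (P x * P x) * Z x * P x := by simp only [mul_assoc]
    _ = _ := by rw [(hP.1 x).1.2.isIdempotentElem.eq]; simp only [mul_assoc]

theorem diag_le (s : Finset (Fin n)) {Z : Fin n → (H →L[ℂ] H)} {C : ℝ} (hC : 0 ≤ C)
    (h : ∀ x, Z x ≤ C • (1 : H →L[ℂ] H)) : diag P s Z ≤ C • (1 : H →L[ℂ] H) := by
  have hsum := Orth.sum_proj_le hA heA he s (fun x _ => (hP.1 x).1) fun x _ y _ h => hP.2 x y h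
  refine le_trans (Finset.sum_le_sum (g := fun x => C • P x) fun x _ => ?_) ?_
  · have h1 := conj_le (h x) (P x)
    rwa [(hP.1 x).1.2.isSelfAdjoint.star_eq, mul_smul_comm, smul_mul_assoc, mul_one,
      (hP.1 x).1.2.isIdempotentElem.eq] at h1
  · rw [← Finset.smul_sum]
    exact smul_le_smul_of_nonneg_left (proj_le_one hsum.2) hC

omit hP

/-- Right multiplication by a fixed operator keeps bounded null families null. -/
theorem right_tendsto (hR : RightStatement) {z : H →L[ℂ] H} (hz : Cor M e z) {C : ℝ}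
    {G : Cut A e → (H →L[ℂ] H)} (hG : ∀ c, Cor M e (G c) ∧ ‖G c‖ ≤ C)
    (h : Tendsto (fun c => n2 φ (G c)) (fine A e) (𝓝 0)) :
    Tendsto (fun c => n2 φ (G c * z)) (fine A e) (𝓝 0) := by
  refine Metric.tendsto_nhds.2 fun η hη => ?_
  obtain ⟨δ, hδ, hsmall⟩ := hR H M A e φ hA heA he S z hz C (η / 2) (half_pos hη)
  filter_upwards [Metric.tendsto_nhds.1 h δ hδ] with c hc
  rw [Real.dist_eq, sub_zero, abs_of_nonneg (n2_nonneg _)] at hc ⊢
  exact (hsmall _ (hG c).1 (hG c).2 hc.le).trans_lt (half_lt_self hη)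

theorem small_sandwich (hR : RightStatement) {N : Cut A e → ℕ}
    {Z : (c : Cut A e) → Fin (N c) → (H →L[ℂ] H)} (hZ : Small M e φ N Z) {x : H →L[ℂ] H}
    (hx : Cor M e x) : Small M e φ N fun c l => x * Z c l * star x := by
  obtain ⟨hc, ⟨C, hC, hbd⟩, hlim⟩ := hZ
  set G : Cut A e → (H →L[ℂ] H) := fun c => ∑ l, star (Z c l) * Z c l
  have hGc : ∀ c, Cor M e (G c) := fun c =>
    Cor.sum _ fun l _ => ((hc c l).star' he).mul he (hc c l)
  have hG0 : ∀ c, 0 ≤ G c := fun c => Finset.sum_nonneg fun l _ => star_mul_self_nonneg _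
  have hGs : ∀ c, IsSelfAdjoint (G c) := fun c => IsSelfAdjoint.of_nonneg (hG0 c)
  have hGn : ∀ c, ‖G c‖ ≤ C := fun c => norm_le_of_bounds (hGs c) hC
    (le_trans (by rw [neg_smul, neg_nonpos]; exact smul_nonneg hC zero_le_one) (hG0 c)) (hbd c)
  have hGt : ∀ c, (φ (G c)).re = ∑ l, n2 φ (Z c l) ^ 2 := fun c => by
    rw [map_sum, Complex.re_sum]
    exact Finset.sum_congr rfl fun l _ => (n2_sq S he (hc c l)).symm
  have hGlim : Tendsto (fun c => n2 φ (G c)) (fine A e) (𝓝 0) := by
    refine squeeze_zero (fun c => n2_nonneg _) (g := fun c => Real.sqrt (C * (φ (G c)).re))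
      (fun c => ?_) ?_
    · refine Real.le_sqrt_of_sq_le ?_
      rw [n2_sq S he (hGc c), ← tr_rsmul]
      refine tr_mono S he (((hGc c).star' he).mul he (hGc c)) ((hGc c).rsmul C) ?_
      obtain ⟨r, hr, hrr, -⟩ := TraceFacts.exists_sqrt (hG0 c)
      have h := conj_le (hbd c) r
      rw [hr, mul_smul_comm, smul_mul_assoc, mul_one, hrr] at h
      refine le_trans (le_of_eq ?_) h
      show star (G c) * G c = r * G c * r
      rw [(hGs c).star_eq]
      simp only [← hrr, mul_assoc]
    · simp only [hGt]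
      simpa [Function.comp_def] using
        (Real.continuous_sqrt.tendsto 0).comp (by simpa using hlim.const_mul C)
  have hle : ∀ c l, star (x * Z c l * star x) * (x * Z c l * star x) ≤
      ‖x‖ ^ 2 • (x * (star (Z c l) * Z c l) * star x) := fun c l => by
    have h := conj_le (conj_le (star_self_le x) (Z c l)) (star x)
    simp only [star_star, mul_smul_comm, smul_mul_assoc, mul_one] at h
    refine le_trans (le_of_eq ?_) h
    simp only [star_mul, star_star, mul_assoc]
  have hxG : ∀ c, ∑ l, x * (star (Z c l) * Z c l) * star x = x * G c * star x := fun c => by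
    simp only [G, Finset.mul_sum, Finset.sum_mul]
  refine ⟨fun c l => (hx.mul he (hc c l)).mul he (hx.star' he),
    ⟨‖x‖ ^ 2 * (C * ‖x‖ ^ 2), by positivity, fun c => ?_⟩, ?_⟩
  · refine (Finset.sum_le_sum fun l _ => hle c l).trans ?_
    rw [← Finset.smul_sum, hxG, ← smul_smul]
    refine smul_le_smul_of_nonneg_left ?_ (sq_nonneg _)
    have h := conj_le (hbd c) (star x)
    rw [star_star, mul_smul_comm, smul_mul_assoc, mul_one] at h
    refine h.trans ?_
    rw [← smul_smul]
    exact smul_le_smul_of_nonneg_left (by simpa using star_self_le (star x)) hC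
  · refine squeeze_zero (fun c => Finset.sum_nonneg fun l _ => sq_nonneg _)
      (g := fun c => ‖x‖ ^ 2 * (n2 φ (star x) * n2 φ (G c * star x))) (fun c => ?_) ?_
    · have hxGx := (hx.mul he (hGc c)).mul he (hx.star' he)
      calc ∑ l, n2 φ (x * Z c l * star x) ^ 2
          = (φ (∑ l, star (x * Z c l * star x) * (x * Z c l * star x))).re := by
            rw [map_sum, Complex.re_sum]
            exact Finset.sum_congr rfl fun l _ =>
              n2_sq S he ((hx.mul he (hc c l)).mul he (hx.star' he))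
        _ ≤ (φ (‖x‖ ^ 2 • (x * G c * star x))).re := by
            refine tr_mono S he (Cor.sum _ fun l _ =>
              (((hx.mul he (hc c l)).mul he (hx.star' he)).star' he).mul he
                ((hx.mul he (hc c l)).mul he (hx.star' he))) (hxGx.rsmul _) ?_
            rw [← hxG, Finset.smul_sum]
            exact Finset.sum_le_sum fun l _ => hle c l
        _ ≤ _ := by
            rw [tr_rsmul]
            refine mul_le_mul_of_nonneg_left ?_ (sq_nonneg _)
            rw [mul_assoc]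
            have h := re_inner_le S he (hx.star' he) ((hGc c).mul he (hx.star' he))
            rwa [star_star] at h
    · simpa using ((right_tendsto hA heA he S hR (hx.star' he) (fun c => ⟨hGc c, hGn c⟩)
        hGlim).const_mul (n2 φ (star x))).const_mul (‖x‖ ^ 2)

theorem small_diag {P : (c : Cut A e) → Fin c.n → (H →L[ℂ] H)}
    (hP : ∀ c, Blocks M A e (P c)) (s : (c : Cut A e) → Finset (Fin c.n)) {N : Cut A e → ℕ}
    {Z : (c : Cut A e) → Fin (N c) → (H →L[ℂ] H)} (hZ : Small M e φ N Z) :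
    Small M e φ N fun c l => diag (P c) (s c) fun _ => Z c l := by
  obtain ⟨hc, ⟨C, hC, hbd⟩, hlim⟩ := hZ
  refine ⟨fun c l => cor_diag hA heA he S (hP c) _ fun _ => hc c l, ⟨C, hC, fun c => ?_⟩,
    squeeze_zero (fun c => Finset.sum_nonneg fun l _ => sq_nonneg _)
      (fun c => Finset.sum_le_sum fun l _ => n2_diag_le hA heA he S (hP c) _ (hc c l)) hlim⟩
  refine (Finset.sum_le_sum fun l _ => star_diag_le hA heA he S (hP c) _ _).trans ?_
  simp only [diag]
  rw [Finset.sum_comm]
  simp only [← Finset.sum_mul, ← Finset.mul_sum]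
  exact diag_le hA heA he S (hP c) _ hC fun _ => hbd c

/-- A small family collapses to a small operator. -/
theorem small_cross {P : (c : Cut A e) → Fin c.n → (H →L[ℂ] H)}
    (hP : ∀ c, Blocks M A e (P c)) (s : (c : Cut A e) → Finset (Fin c.n))
    {Z : (c : Cut A e) → Fin c.n → (H →L[ℂ] H)} (hZ : Small M e φ (fun c => c.n) Z) :
    Small M e φ (fun _ => 1) fun c _ => diag (P c) (s c) (Z c) := by
  obtain ⟨hc, ⟨C, hC, hbd⟩, hlim⟩ := hZ
  refine ⟨fun c _ => cor_diag hA heA he S (hP c) _ (hc c), ⟨C, hC, fun c => ?_⟩,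
    squeeze_zero (fun c => Finset.sum_nonneg fun l _ => sq_nonneg _)
      (fun c => by rw [Fin.sum_univ_one]; exact n2_diag_le_sum hA heA he S (hP c) _ (hc c)) hlim⟩
  rw [Fin.sum_univ_one]
  refine (star_diag_le hA heA he S (hP c) _ _).trans (diag_le hA heA he S (hP c) _ hC fun x => ?_)
  exact (Finset.single_le_sum (f := fun l => star (Z c l) * Z c l)
    (fun l _ => star_mul_self_nonneg _) (Finset.mem_univ x)).trans (hbd c)

/-- The blocks of an operator with null block diagonal give a small family. -/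
theorem small_adj {W : H →L[ℂ] H} (hW : Cor M e W)
    (h : Tendsto (fun c : Cut A e => Orth.diag2 φ (star W) c) (fine A e) (𝓝 0)) :
    Small M e φ (fun c => c.n) fun (c : Cut A e) l =>
      c.q l * W * c.q l * star W * c.q l := by
  have hW' := hW.star' he
  have hq := fun (c : Cut A e) l => cut_cor hA he c l
  have hq1 := fun (c : Cut A e) (l : Fin c.n) => (c.part.1 l).2.norm_le _
  have hXn : ∀ (c : Cut A e) l, ‖c.q l * W * c.q l‖ ≤ ‖W‖ := fun c l =>
    (norm_mul_le _ _).trans ((mul_le_of_le_one_right (norm_nonneg _) (hq1 c l)).trans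
      ((norm_mul_le _ _).trans (mul_le_of_le_one_left (norm_nonneg _) (hq1 c l))))
  refine ⟨fun c l => ((((hq c l).mul he hW).mul he (hq c l)).mul he hW').mul he (hq c l),
    ⟨(‖W‖ * ‖W‖) ^ 2, sq_nonneg _, fun c => ?_⟩, ?_⟩
  · refine (Finset.sum_le_sum (g := fun l => (‖W‖ * ‖W‖) ^ 2 • c.q l) fun l _ => ?_).trans ?_
    · have hn : ‖c.q l * W * c.q l * star W‖ ≤ ‖W‖ * ‖W‖ := (norm_mul_le _ _).trans
        (by rw [norm_star]; exact mul_le_mul_of_nonneg_right (hXn c l) (norm_nonneg _))
      have h1 := conj_le (star_self_le (c.q l * W * c.q l * star W)) (c.q l)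
      rw [mul_smul_comm, smul_mul_assoc, mul_one, cut_star, cut_mul, if_pos rfl] at h1
      refine le_trans (le_of_eq ?_) (h1.trans (smul_le_smul_right'
        (pow_le_pow_left₀ (norm_nonneg _) hn 2) (c.part.1 l).2.nonneg))
      simp only [star_mul, cut_star, star_star, mul_assoc]
    · rw [← Finset.smul_sum, c.part.2.2]
      exact smul_le_smul_of_nonneg_left (proj_le_one he) (sq_nonneg _)
  · refine squeeze_zero (fun c => Finset.sum_nonneg fun l _ => sq_nonneg _)
      (g := fun c => ‖W‖ ^ 2 * Orth.diag2 φ (star W) c) (fun c => ?_)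
      (by simpa using h.const_mul (‖W‖ ^ 2))
    have e1 : Orth.diag2 φ (star W) c = ∑ l, n2 φ (c.q l * star W * c.q l) ^ 2 :=
      n2_diag_sq hA heA he S (blocks_cut hA he c) Finset.univ fun _ => hW'
    rw [e1, Finset.mul_sum]
    refine Finset.sum_le_sum fun l _ => ?_
    rw [← mul_pow]
    refine pow_le_pow_left₀ (n2_nonneg _) ?_ 2
    have hy := ((hq c l).mul he hW').mul he (hq c l)
    have e2 : c.q l * W * c.q l * star W * c.q l =
        c.q l * W * c.q l * (c.q l * star W * c.q l) := by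
      calc c.q l * W * c.q l * star W * c.q l
          = c.q l * W * (c.q l * c.q l) * star W * c.q l := by rw [cut_mul, if_pos rfl]
        _ = _ := by simp only [mul_assoc]
    beta_reduce
    rw [e2]
    exact (n2_mul_le S he ((((hq c l).mul he hW).mul he (hq c l)).mul he hy) hy).trans
      (mul_le_mul_of_nonneg_right (hXn c l) (n2_nonneg _))

/-- The block diagonals of the conjugated cells of an operator without atoms give a small
family. -/
theorem small_sep {W : H →L[ℂ] H} (hW : Cor M e W)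
    (h : Tendsto (fun c : Cut A e => Orth.block4 φ W c) (fine A e) (𝓝 0))
    (s : (c : Cut A e) → Finset (Fin c.n)) :
    Small M e φ (fun c => c.n) fun (c : Cut A e) l =>
      diag c.q (s c) fun _ => star W * c.q l * W := by
  have hX : ∀ (c : Cut A e) l, Cor M e (star W * c.q l * W) := fun c l =>
    ((hW.star' he).mul he (cut_cor hA he c l)).mul he hW
  have hb := fun c : Cut A e => blocks_cut hA he c
  refine ⟨fun c l => cor_diag hA heA he S (hb c) _ fun _ => hX c l,
    ⟨‖W‖ ^ 2 * ‖W‖ ^ 2, by positivity, fun c => ?_⟩,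
    squeeze_zero (fun c => Finset.sum_nonneg fun l _ => sq_nonneg _)
      (fun c => Finset.sum_le_sum fun l _ => ?_) h⟩
  · refine (Finset.sum_le_sum fun l _ => star_diag_le hA heA he S (hb c) _ _).trans ?_
    simp only [diag]
    rw [Finset.sum_comm]
    simp only [← Finset.sum_mul, ← Finset.mul_sum]
    refine diag_le hA heA he S (hb c) _ (by positivity) fun _ => ?_
    refine (Finset.sum_le_sum (g := fun l => ‖W‖ ^ 2 • (star W * c.q l * W))
      fun l _ => ?_).trans ?_
    · have h1 := conj_le (conj_le (by simpa using star_self_le (star W) :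
        W * star W ≤ ‖W‖ ^ 2 • (1 : H →L[ℂ] H)) (c.q l)) W
      rw [cut_star, mul_smul_comm, smul_mul_assoc, mul_one, cut_mul, if_pos rfl, mul_smul_comm,
        smul_mul_assoc] at h1
      refine le_trans (le_of_eq ?_) h1
      simp only [star_mul, star_star, cut_star, mul_assoc]
    · rw [← Finset.smul_sum, ← smul_smul]
      refine smul_le_smul_of_nonneg_left ?_ (sq_nonneg _)
      rw [← Finset.sum_mul, ← Finset.mul_sum, c.part.2.2, mul_assoc, hW.mul_left he]
      exact star_self_le W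
  · rw [n2_diag_sq hA heA he S (hb c) _ fun _ => hX c l]
    refine (Finset.sum_le_sum_of_subset_of_nonneg (Finset.subset_univ _)
      fun x _ _ => sq_nonneg _).trans (le_of_eq ?_)
    exact (n2_diag_sq hA heA he S (hb c) Finset.univ fun _ => hX c l).symm

/-- The value of a small operator is null. -/
theorem small_value {Z : Cut A e → (H →L[ℂ] H)}
    (hZ : Small M e φ (fun _ => 1) fun c _ => Z c) :
    Tendsto (fun c => (φ (Z c)).re) (fine A e) (𝓝 0) := by
  obtain ⟨hc, -, hlim⟩ := hZ
  simp only [Fin.sum_univ_one] at hlim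
  have h1 : Tendsto (fun c => n2 φ (Z c)) (fine A e) (𝓝 0) := by
    simpa [Function.comp_def, Real.sqrt_sq (n2_nonneg _)] using
      (Real.continuous_sqrt.tendsto 0).comp hlim
  refine squeeze_zero_norm (fun c => ?_) (by simpa using h1.const_mul (n2 φ e))
  rw [Real.norm_eq_abs]
  refine (Complex.abs_re_le_norm _).trans ?_
  have h := norm_inner_le S he (cor_proj (hA.1 e heA) he) (hc c 0)
  rwa [he.isSelfAdjoint.star_eq, (hc c 0).mul_left he] at h

end Vale.Agent.P078.State.Core
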