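import Vale.Agent.P078.State.Reduce
import Vale.Agent.P078.Orth.Cyclic

/-!
Cyclic alternations of orthogonal operators and centred tuple sums have small averaged trace.
-/

namespace Vale.Agent.P078.State

open Filter Topology MKS Singular
open Orth (Cut cell fine avg Rand NorC Perp inj mem_inj cells cell_mem weight mean Centred norC_e
  prod_ofFn_sum prod_ofFn_smul)

set_option linter.unusedSectionVars false

variable {H : Type} [NormedAddCommGroup H] [InnerProductSpace ℂ H] [CompleteSpace H]
variable {M A : VonNeumannAlgebra H} {e : H →L[ℂ] H} {τ : (H →L[ℂ] H) →ₗ[ℂ] ℂ}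
variable {L : Type} [Fintype L] {μ : L → ℝ}

/-- The average of a product of functions of the labels factors over the cells. -/
theorem avg_prod (_S : Setting M A e τ μ) {n : ℕ} {O : Type} [Fintype O] (φ : O → L → ℝ)
    (i : O → Fin n) :
    avg μ (fun ω : Fin n → L => ∏ o, φ o (ω (i o))) =
      ∏ x, mean μ fun l => ∏ o ∈ Finset.univ.filter (fun o => i o = x), φ o l := by
  classical
  simp only [mean, avg, smul_eq_mul]
  rw [Fintype.prod_sum]
  refine Finset.sum_congr rfl fun ω _ => ?_
  rw [Finset.prod_mul_distrib, ← Finset.prod_fiberwise Finset.univ i fun o => φ o (ω (i o))]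
  congr 1
  refine Finset.prod_congr rfl fun x _ => Finset.prod_congr rfl fun o ho => ?_
  rw [(Finset.mem_filter.1 ho).2]

/-- For an injective relabelling only the blocks matter. -/
theorem avg_prod_blocks (S : Setting M A e τ μ) {n d : ℕ} {O : Type} [Fintype O]
    (φ : O → L → ℝ) (σ : O → Fin d) (j : Fin d → Fin n) (hj : Function.Injective j) :
    avg μ (fun ω : Fin n → L => ∏ o, φ o (ω (j (σ o)))) =
      ∏ b, mean μ fun l => ∏ o ∈ Finset.univ.filter (fun o => σ o = b), φ o l := by
  classical
  rw [avg_prod S φ fun o => j (σ o)]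
  refine (Finset.prod_subset (Finset.subset_univ (Finset.univ.image j)) fun x _ hx => ?_).symm.trans
    ?_
  · have : (Finset.univ.filter fun o => j (σ o) = x) = ∅ := by
      ext o
      simp only [Finset.mem_filter, Finset.notMem_empty, iff_false, not_and]
      exact fun _ h => hx (Finset.mem_image.2 ⟨σ o, Finset.mem_univ _, h⟩)
    simp [this, mean, S.sum]
  · rw [Finset.prod_image fun a _ b _ h => hj h]
    refine Finset.prod_congr rfl fun b _ => ?_
    congr 1
    funext l
    refine Finset.prod_congr ?_ fun _ _ => rfl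
    ext o
    simp [hj.eq_iff]

/-- Linear alternations have asymptotically vanishing value; only the last tuple may be empty. -/
theorem linear_tendsto (hCore : CoreStatement) (S : Setting M A e τ μ) {k : ℕ} (hk : 0 < k)
    (m : Fin k → (H →L[ℂ] H)) (hm : ∀ t, Perp M A e τ (m t)) (D : Fin k → ℕ)
    (h : ∀ t, Fin (D t) → (H →L[ℂ] H)) (f : ∀ t, Fin (D t) → L → ℝ)
    (hn : ∀ t s, NorC M A e (h t s)) (hf : ∀ t, Centred μ (f t))
    (hD : ∀ t : Fin k, (t : ℕ) + 1 < k → 0 < D t) :
    Tendsto (fun c : Cut A e =>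
      avg μ fun ω => τ (List.ofFn fun t => m t * Orth.val (h t) (f t) c ω).prod)
      (fine A e) (𝓝 0) := by
  classical
  set O := Σ t : Fin k, Fin (D t)
  set φ : O → L → ℝ := fun o => f o.1 o.2
  set P : (c : Cut A e) → (O → Fin c.n) → (H →L[ℂ] H) := fun c z =>
    (List.ofFn fun t => m t * cells (h t) c fun s => z ⟨t, s⟩).prod with hP
  set Z : (c : Cut A e) → Finset (O → Fin c.n) := fun c =>
    Finset.univ.filter fun z => ∀ t, Function.Injective fun s => z ⟨t, s⟩
  have hexp : ∀ c : Cut A e, (avg μ fun ω => τ (List.ofFn fun t => m t * Orth.val (h t) (f t) c ω).prod) =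
      ∑ z ∈ Z c, (avg μ fun ω => ∏ o, φ o (ω (z o))) • τ (P c z) := by
    intro c
    have h1 : ∀ ω : Fin c.n → L, τ (List.ofFn fun t => m t * Orth.val (h t) (f t) c ω).prod =
        ∑ z ∈ Z c, (∏ o, φ o (ω (z o))) • τ (P c z) := by
      intro ω
      simp only [Orth.val, Finset.mul_sum, mul_smul_comm]
      rw [prod_ofFn_sum (fun t => inj (D t) c.n)
        (fun t i => weight (f t) ω i • (m t * cells (h t) c i)), map_sum]
      refine Finset.sum_nbij' (fun z o => z o.1 o.2) (fun z t s => z ⟨t, s⟩) ?_ ?_ ?_ ?_ ?_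
      · intro z hz
        rw [Fintype.mem_piFinset] at hz
        exact Finset.mem_filter.2 ⟨Finset.mem_univ _, fun t => mem_inj.1 (hz t)⟩
      · intro z hz
        rw [Fintype.mem_piFinset]
        exact fun t => mem_inj.2 ((Finset.mem_filter.1 hz).2 t)
      · exact fun z _ => rfl
      · exact fun z _ => rfl
      · intro z _
        rw [prod_ofFn_smul (fun t => weight (f t) ω (z t)) fun t => m t * cells (h t) c (z t),
          LinearMap.map_smul_of_tower]
        congr 1
        rw [Fintype.prod_sigma]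
        rfl
    simp only [h1, avg, Finset.smul_sum]
    rw [Finset.sum_comm]
    exact Finset.sum_congr rfl fun z _ => by
      simp only [Finset.sum_smul, smul_smul, smul_eq_mul]
  set ker : (c : Cut A e) → (O → Fin c.n) → O → O → Bool := fun _ z a b => decide (z a = z b)
  have hgroup : ∀ c : Cut A e, (∑ z ∈ Z c, (avg μ fun ω => ∏ o, φ o (ω (z o))) • τ (P c z)) =
      ∑ r : O → O → Bool, ∑ z ∈ (Z c).filter (fun z => ker c z = r),
        (avg μ fun ω => ∏ o, φ o (ω (z o))) • τ (P c z) :=
    fun c => (Finset.sum_fiberwise (Z c) (ker c) _).symm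
  simp only [hexp, hgroup]
  rw [← Finset.sum_const_zero (s := (Finset.univ : Finset (O → O → Bool)))]
  refine tendsto_finsetSum _ fun r _ => ?_
  by_cases hr : ∃ (d : ℕ) (σ : O → Fin d), Function.Surjective σ ∧
      ∀ a b, r a b = decide (σ a = σ b)
  swap
  · refine tendsto_const_nhds.congr fun c => (Finset.sum_eq_zero fun z hz => absurd ?_ hr).symm
    rw [Finset.mem_filter] at hz
    let T := Set.range z
    refine ⟨Fintype.card T, fun o => Fintype.equivFin T ⟨z o, o, rfl⟩, fun b => ?_, fun a b => ?_⟩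
    · obtain ⟨o, ho⟩ := ((Fintype.equivFin T).symm b).2
      exact ⟨o, by simp [ho]⟩
    · rw [← hz.2]
      simp only [ker, EmbeddingLike.apply_eq_iff_eq, decide_eq_decide]
      exact ⟨fun h => Subtype.ext h, fun h => congrArg Subtype.val h⟩
  obtain ⟨d, σ, hσs, hσr⟩ := hr
  have hreind : ∀ c : Cut A e, (∑ z ∈ (Z c).filter (fun z => ker c z = r),
      (avg μ fun ω => ∏ o, φ o (ω (z o))) • τ (P c z)) =
      ∑ j ∈ (inj d c.n).filter (fun j => ∀ t, Function.Injective fun s => σ ⟨t, s⟩),
        (∏ b, mean μ fun l => ∏ o ∈ Finset.univ.filter (fun o => σ o = b), φ o l) •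
          τ (P c (j ∘ σ)) := by
    intro c
    have hsame : ∀ z : O → Fin c.n, ker c z = r → ∀ a b, z a = z b ↔ σ a = σ b := by
      intro z hz a b
      have := congrFun (congrFun hz a) b
      rw [hσr] at this
      simpa [ker] using this
    refine Finset.sum_nbij' (fun z => z ∘ Function.surjInv hσs) (fun j => j ∘ σ) ?_ ?_ ?_ ?_ ?_
    · intro z hz
      simp only [Finset.mem_filter, mem_inj, Z, Finset.mem_univ, true_and] at hz ⊢
      refine ⟨fun a b hab => ?_, fun t a b hab => hz.1 t ((hsame z hz.2 _ _).2 hab)⟩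
      have := (hsame z hz.2 _ _).1 hab
      rwa [Function.surjInv_eq hσs, Function.surjInv_eq hσs] at this
    · intro j hj
      simp only [Finset.mem_filter, mem_inj, Z, Finset.mem_univ, true_and] at hj ⊢
      refine ⟨fun t => hj.1.comp (hj.2 t), ?_⟩
      funext a b
      simp [ker, hσr, hj.1.eq_iff]
    · intro z hz
      simp only [Finset.mem_filter] at hz
      funext o
      exact (hsame z hz.2 _ _).2 (Function.surjInv_eq hσs _)
    · intro j _
      funext b
      simp [Function.surjInv_eq hσs]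
    · intro z hz
      simp only [Finset.mem_filter, Z, Finset.mem_univ, true_and] at hz
      have hz' : z = (z ∘ Function.surjInv hσs) ∘ σ := by
        funext o
        exact ((hsame z hz.2 _ _).2 (Function.surjInv_eq hσs _)).symm
      have hinj : Function.Injective (z ∘ Function.surjInv hσs) := fun a b hab => by
        have := (hsame z hz.2 _ _).1 hab
        rwa [Function.surjInv_eq hσs, Function.surjInv_eq hσs] at this
      rw [← hz']
      congr 1
      conv_lhs => rw [hz']
      exact avg_prod_blocks S φ σ _ hinj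
  simp only [hreind]
  set K := ∏ b, mean μ fun l => ∏ o ∈ Finset.univ.filter (fun o => σ o = b), φ o l
  by_cases hinj : ∀ t, Function.Injective fun s => σ ⟨t, s⟩
  swap
  · refine tendsto_const_nhds.congr fun c => (Finset.sum_eq_zero fun j hj => ?_).symm
    exact absurd (Finset.mem_filter.1 hj).2 hinj
  by_cases hK : K = 0
  · simpa [hK] using tendsto_const_nhds
  have hblock : ∀ b, ∃ s t, s ≠ t ∧ (∃ u, σ ⟨s, u⟩ = b) ∧ ∃ u, σ ⟨t, u⟩ = b := by
    intro b
    obtain ⟨⟨s, u⟩, ho⟩ := hσs b
    by_contra hno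
    push Not at hno
    refine hK (Finset.prod_eq_zero (Finset.mem_univ b) ?_)
    rw [show (Finset.univ.filter fun o => σ o = b) = {(⟨s, u⟩ : O)} from ?_]
    · simp only [Finset.prod_singleton]
      exact hf s u
    ext ⟨t, v⟩
    simp only [Finset.mem_filter, Finset.mem_univ, true_and, Finset.mem_singleton]
    refine ⟨fun hv => ?_, fun hv => by rw [hv]; exact ho⟩
    rcases eq_or_ne s t with rfl | hst
    · rw [show v = u from hinj s (hv.trans ho.symm)]
    · exact absurd hv (hno s t hst ⟨u, ho⟩ v)
  set B : Fin k → Finset (Fin d) := fun t => Finset.univ.image fun s => σ ⟨t, s⟩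
  set hh : Fin k → Fin d → (H →L[ℂ] H) := fun t b =>
    if hb : ∃ s, σ ⟨t, s⟩ = b then h t hb.choose else e
  have hcore := hCore H M A e τ S.hA S.heA S.he S.hS k d m B hh hk hm
    (fun t ht => ⟨σ ⟨t, ⟨0, hD t ht⟩⟩, Finset.mem_image.2 ⟨_, Finset.mem_univ _, rfl⟩⟩)
    (fun b => by
      obtain ⟨s, t, hst, ⟨u, hu⟩, ⟨v, hv⟩⟩ := hblock b
      exact ⟨s, t, hst, Finset.mem_image.2 ⟨u, Finset.mem_univ _, hu⟩,
        Finset.mem_image.2 ⟨v, Finset.mem_univ _, hv⟩⟩)
    (fun t b => by
      simp only [hh]
      split_ifs with hb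
      · exact ⟨(hn t _).1, (hn t _).2⟩
      · exact ⟨(norC_e S.hA S.heA S.he).1, (norC_e S.hA S.heA S.he).2⟩)
  have hcore' := hcore.const_smul K
  rw [smul_zero] at hcore'
  refine hcore'.congr fun c => ?_
  rw [Finset.smul_sum,
    show (inj d c.n).filter (fun _ => ∀ t, Function.Injective fun s => σ ⟨t, s⟩) = inj d c.n from
      Finset.filter_true_of_mem fun _ _ => hinj]
  refine Finset.sum_congr rfl fun j _ => ?_
  congr 2
  simp only [hP]
  congr 1
  refine congrArg List.ofFn (funext fun t => ?_)
  rw [cells, ← mul_assoc (m t), (hm t).1.mul_right S.he]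
  congr 1
  have hch : ∀ s, hh t (σ ⟨t, s⟩) = h t s := fun s => by
    simp only [hh]
    rw [dif_pos ⟨s, rfl⟩]
    congr 1
    exact hinj t (Exists.choose_spec (⟨s, rfl⟩ : ∃ s', σ ⟨t, s'⟩ = σ ⟨t, s⟩))
  have hl : (List.ofFn fun s => σ ⟨t, s⟩).Perm
      ((List.finRange d).filter fun b => b ∈ B t) := by
    refine List.perm_of_nodup_nodup_toFinset_eq (List.nodup_ofFn.2 (hinj t))
      ((List.nodup_finRange d).filter _) ?_
    ext b
    simp only [B, List.mem_toFinset, List.mem_ofFn, List.mem_filter, List.mem_finRange, true_and,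
      decide_eq_true_eq, Finset.mem_image, Finset.mem_univ]
  rw [show (List.ofFn fun s => cell (h t s) c ((j ∘ σ) ⟨t, s⟩)) =
      (List.ofFn fun s => σ ⟨t, s⟩).map fun b => cell (hh t b) c (j b) by
    rw [List.map_ofFn]
    exact congrArg List.ofFn (funext fun s => by simp [hch s])]
  refine List.Perm.prod_eq' (hl.symm.map _) ?_
  refine List.pairwise_of_forall_mem_list fun x hx y hy => ?_
  have hmem : ∀ z ∈ ((List.finRange d).filter fun b => b ∈ B t).map
      (fun b => cell (hh t b) c (j b)), z ∈ A := by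
    intro z hz
    obtain ⟨b, -, rfl⟩ := List.mem_map.1 hz
    refine cell_mem (M := M) ?_ c _
    simp only [hh]
    split_ifs with hb
    · exact (hn t _).1
    · exact (norC_e S.hA S.heA S.he).1
  exact S.hA.2.1 _ (hmem x hx) _ (hmem y hy)

end Vale.Agent.P078.State
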