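import Vale.Agent.P078.Orth.Defs

/-!
Faithful normal states on corners which commute with a MASA, and the statements of the steps which
replace the traces of paving by such states.
-/

namespace Vale.Agent.P078.State

open Filter Topology MKS Singular

variable {H : Type} [NormedAddCommGroup H] [InnerProductSpace ℂ H] [CompleteSpace H]

/-- A faithful normal positive functional on the corner `e M e` (normal: so-continuous on the unit
ball) in whose centraliser `A` lies. -/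
def IsState (M A : VonNeumannAlgebra H) (e : H →L[ℂ] H) (φ : (H →L[ℂ] H) →ₗ[ℂ] ℂ) : Prop :=
  (∀ y ∈ M, e * y * e = y → 0 ≤ (φ (star y * y)).re ∧ (φ (star y * y)).im = 0) ∧
    (∀ y ∈ M, e * y * e = y → φ (star y * y) = 0 → y = 0) ∧
    (∀ a ∈ A, ∀ y ∈ M, e * y * e = y → φ (a * y) = φ (y * a)) ∧
    ∀ ε : ℝ, 0 < ε → ∃ (F : Finset H) (δ : ℝ), 0 < δ ∧
      ∀ y ∈ M, e * y * e = y → ‖y‖ ≤ 1 → (∀ ξ ∈ F, ‖y ξ‖ < δ) → ‖φ y‖ < ε

/-- Projections of `A` below `p` whose corners carry such functionals tend strongly to `p`. -/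
def StatesFill (M A : VonNeumannAlgebra H) (p : H →L[ℂ] H) : Prop :=
  ∀ (F : Finset H) (δ : ℝ), 0 < δ → ∃ (e : H →L[ℂ] H) (φ : (H →L[ℂ] H) →ₗ[ℂ] ℂ),
    e ∈ A ∧ IsStarProjection e ∧ e * p = e ∧ IsState M A e φ ∧ ∀ ξ ∈ F, ‖(p - e) ξ‖ < δ

/-- The part of a MASA separated by normal central functionals is filled by states. -/
def FillStatement : Prop :=
  ∀ (H : Type) [NormedAddCommGroup H] [InnerProductSpace ℂ H] [CompleteSpace H]
    (M A : VonNeumannAlgebra H), IsMASA M A → ∀ p₀ ∈ A, IsStarProjection p₀ →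
    (∀ e ∈ A, IsStarProjection e → e * p₀ = 0 → e ≠ 0 →
      ∃ f, IsNormalCentral M A f ∧ f e ≠ 0) →
    StatesFill M A (1 - p₀)

/-- On bounded sets the 2-norm of a state and the strong topology control each other. -/
def SoStatement : Prop :=
  ∀ (H : Type) [NormedAddCommGroup H] [InnerProductSpace ℂ H] [CompleteSpace H]
    (M A : VonNeumannAlgebra H) (e : H →L[ℂ] H) (φ : (H →L[ℂ] H) →ₗ[ℂ] ℂ),
    IsMASA M A → e ∈ A → IsStarProjection e → IsState M A e φ → ∀ C : ℝ,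
    (∀ (F : Finset H) (δ : ℝ), 0 < δ → ∃ η : ℝ, 0 < η ∧
      ∀ y, Cor M e y → ‖y‖ ≤ C → n2 φ y ≤ η → ∀ ξ ∈ F, ‖y ξ‖ < δ) ∧
    ∀ η : ℝ, 0 < η → ∃ (F : Finset H) (δ : ℝ), 0 < δ ∧
      ∀ y, Cor M e y → ‖y‖ ≤ C → (∀ ξ ∈ F, ‖y ξ‖ < δ) → n2 φ y ≤ η

/-- Right multiplication by a fixed operator is continuous for the 2-norm on bounded sets. -/
def RightStatement : Prop :=
  ∀ (H : Type) [NormedAddCommGroup H] [InnerProductSpace ℂ H] [CompleteSpace H]
    (M A : VonNeumannAlgebra H) (e : H →L[ℂ] H) (φ : (H →L[ℂ] H) →ₗ[ℂ] ℂ),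
    IsMASA M A → e ∈ A → IsStarProjection e → IsState M A e φ →
    ∀ z, Cor M e z → ∀ C η : ℝ, 0 < η → ∃ δ : ℝ, 0 < δ ∧
      ∀ y, Cor M e y → ‖y‖ ≤ C → n2 φ y ≤ δ → n2 φ (y * z) ≤ η

/-- Bounded sequences which are Cauchy in the 2-norm converge in it and strongly. -/
def CompleteStatement : Prop :=
  ∀ (H : Type) [NormedAddCommGroup H] [InnerProductSpace ℂ H] [CompleteSpace H]
    (M A : VonNeumannAlgebra H) (e : H →L[ℂ] H) (φ : (H →L[ℂ] H) →ₗ[ℂ] ℂ),
    IsMASA M A → e ∈ A → IsStarProjection e → IsState M A e φ →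
    ∀ (T : ℕ → (H →L[ℂ] H)) (C : ℝ), (∀ n, Cor M e (T n) ∧ ‖T n‖ ≤ C) →
      (∀ η : ℝ, 0 < η → ∃ N, ∀ i ≥ N, ∀ j ≥ N, n2 φ (T i - T j) ≤ η) →
      ∃ L : H →L[ℂ] H, Cor M e L ∧ ‖L‖ ≤ C ∧
        Tendsto (fun n => n2 φ (T n - L)) atTop (𝓝 0) ∧
        ∀ v, Tendsto (fun n => T n v) atTop (𝓝 (L v))

/-- Pinchings by fine cuts converge in the 2-norm to an element of `A` of the same value against
`A`. -/
def DiagLimitStatement : Prop :=
  ∀ (H : Type) [NormedAddCommGroup H] [InnerProductSpace ℂ H] [CompleteSpace H]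
    (M A : VonNeumannAlgebra H) (e : H →L[ℂ] H) (φ : (H →L[ℂ] H) →ₗ[ℂ] ℂ),
    IsMASA M A → e ∈ A → IsStarProjection e → IsState M A e φ →
    ∀ x : H →L[ℂ] H, Cor M e x → ∃ a ∈ A, Cor M e a ∧ ‖a‖ ≤ ‖x‖ ∧
      (IsSelfAdjoint x → IsSelfAdjoint a) ∧ (∀ b ∈ A, φ (b * a) = φ (b * x)) ∧
      Tendsto (fun c : Orth.Cut A e => n2 φ (MKS.pinch c.q x - a)) (Orth.fine A e) (𝓝 0)

/-- The conditional expectation onto the algebra of the normaliser which preserves a state. -/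
def SplitStatement : Prop :=
  ∀ (H : Type) [NormedAddCommGroup H] [InnerProductSpace ℂ H] [CompleteSpace H]
    (M A : VonNeumannAlgebra H) (e : H →L[ℂ] H) (φ : (H →L[ℂ] H) →ₗ[ℂ] ℂ)
    (hA : IsMASA M A), e ∈ A → IsStarProjection e → IsState M A e φ →
    ∀ x : H →L[ℂ] H, Cor M e x → IsSelfAdjoint x →
      ∃ y : H →L[ℂ] H, Cor M e y ∧ IsSelfAdjoint y ∧ ‖y‖ ≤ ‖x‖ ∧
        y ∈ Set.centralizer (Set.centralizer (normStar hA : Set (H →L[ℂ] H))) ∧
        Orth.Perp M A e φ (x - y)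

/-- Operators orthogonal to the normaliser have no atoms. -/
def AtomStatement : Prop :=
  ∀ (H : Type) [NormedAddCommGroup H] [InnerProductSpace ℂ H] [CompleteSpace H]
    (M A : VonNeumannAlgebra H) (e : H →L[ℂ] H) (φ : (H →L[ℂ] H) →ₗ[ℂ] ℂ),
    IsMASA M A → e ∈ A → IsStarProjection e → IsState M A e φ →
    ∀ m : H →L[ℂ] H, Orth.Perp M A e φ m →
      Tendsto (fun c : Orth.Cut A e => Orth.diag2 φ m c) (Orth.fine A e) (𝓝 0) ∧
      Tendsto (fun c : Orth.Cut A e => Orth.block4 φ m c) (Orth.fine A e) (𝓝 0)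

/-- An alternation of operators orthogonal to the normaliser and translated cells (only the last
letter may be empty), with distinct cells for distinct blocks and every block in at least two
places, has small value. -/
def CoreStatement : Prop :=
  ∀ (H : Type) [NormedAddCommGroup H] [InnerProductSpace ℂ H] [CompleteSpace H]
    (M A : VonNeumannAlgebra H) (e : H →L[ℂ] H) (φ : (H →L[ℂ] H) →ₗ[ℂ] ℂ),
    IsMASA M A → e ∈ A → IsStarProjection e → IsState M A e φ →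
    ∀ (k d : ℕ) (m : Fin k → (H →L[ℂ] H)) (B : Fin k → Finset (Fin d))
      (h : Fin k → Fin d → (H →L[ℂ] H)),
      0 < k → (∀ t, Orth.Perp M A e φ (m t)) →
      (∀ t : Fin k, (t : ℕ) + 1 < k → (B t).Nonempty) →
      (∀ b, ∃ s t, s ≠ t ∧ b ∈ B s ∧ b ∈ B t) →
      (∀ t b, h t b ∈ normaliser M A ∧ e * h t b * e = h t b) →
      Tendsto (fun c : Orth.Cut A e =>
        ∑ i ∈ (Finset.univ : Finset (Fin d → Fin c.n)).filter Function.Injective,
          φ (List.ofFn fun t : Fin k => m t *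
            (((List.finRange d).filter fun b => b ∈ B t).map fun b =>
              Orth.cell (h t b) c (i b)).prod).prod)
        (Orth.fine A e) (𝓝 0)

/-- Translates by the normaliser respect orthogonality: the orthogonal operators form a
two-sided module, closed under adjoints, over the span of the normaliser. -/
def PerpStatement : Prop :=
  ∀ (H : Type) [NormedAddCommGroup H] [InnerProductSpace ℂ H] [CompleteSpace H]
    (M A : VonNeumannAlgebra H) (e : H →L[ℂ] H) (φ : (H →L[ℂ] H) →ₗ[ℂ] ℂ),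
    IsMASA M A → e ∈ A → IsStarProjection e → IsState M A e φ →
    ∀ m : H →L[ℂ] H, Orth.Perp M A e φ m →
      Orth.Perp M A e φ (star m) ∧
      ∀ z ∈ normSpan M A e, Orth.Perp M A e φ (z * m) ∧ Orth.Perp M A e φ (m * z)

/-- One partition paves an operator orthogonal to the normaliser on both sides. -/
def NoiseStatement : Prop :=
  ∀ (H : Type) [NormedAddCommGroup H] [InnerProductSpace ℂ H] [CompleteSpace H]
    (M A : VonNeumannAlgebra H) (e : H →L[ℂ] H) (φ : (H →L[ℂ] H) →ₗ[ℂ] ℂ),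
    IsMASA M A → e ∈ A → IsStarProjection e → IsState M A e φ →
    ∀ m : H →L[ℂ] H, Orth.Perp M A e φ m → IsSelfAdjoint m →
      ∀ (r : ℕ) (u δ : ℝ), 0 < r → 2 * ‖m‖ / Real.sqrt r < u → 0 < δ →
        ∃ P : Fin r → (H →L[ℂ] H), IsPartition A e P ∧
          (φ (excess u (MKS.pinch P m) * excess u (MKS.pinch P m))).re ≤ δ ∧
          (φ (excess u (-MKS.pinch P m) * excess u (-MKS.pinch P m))).re ≤ δ

/-- A random partition by fields with mean at most `κ` paves an operator orthogonal to the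
normaliser: on average the excesses of `±` the pinching above `u`, `u > 2 √κ ‖m‖`, are small. -/
def GeneralNoiseStatement : Prop :=
  ∀ (H : Type) [NormedAddCommGroup H] [InnerProductSpace ℂ H] [CompleteSpace H]
    (M A : VonNeumannAlgebra H) (e : H →L[ℂ] H) (φ : (H →L[ℂ] H) →ₗ[ℂ] ℂ),
    IsMASA M A → e ∈ A → IsStarProjection e → IsState M A e φ →
    ∀ (L : Type) [Fintype L] (μ : L → ℝ), (∀ l, 0 ≤ μ l) → ∑ l, μ l = 1 →
    ∀ (r : ℕ) (κ : ℝ) (P : (c : Orth.Cut A e) → (Fin c.n → L) → Fin r → (H →L[ℂ] H)),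
      0 ≤ κ → (∀ c ω, IsPartition A e (P c ω)) →
      (∀ s, Orth.IsField M A e φ μ fun c ω => P c ω s) →
      (∀ᶠ c in Orth.fine A e, ∀ s, Orth.avg μ (fun ω => P c ω s) ≤ κ • e) →
    ∀ m : H →L[ℂ] H, Orth.Perp M A e φ m → IsSelfAdjoint m →
      ∀ u δ : ℝ, 2 * Real.sqrt κ * ‖m‖ < u → 0 < δ →
        ∀ᶠ c in Orth.fine A e, Orth.avg μ (fun ω =>
          (φ (excess u (MKS.pinch (P c ω) m) * excess u (MKS.pinch (P c ω) m))).re +
          (φ (excess u (-MKS.pinch (P c ω) m) * excess u (-MKS.pinch (P c ω) m))).re) ≤ δ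

/-- Two projections close to `e` contain, up to a small norm error, a common one close to `e`. -/
def CommonStatement : Prop :=
  ∀ (H : Type) [NormedAddCommGroup H] [InnerProductSpace ℂ H] [CompleteSpace H]
    (M : VonNeumannAlgebra H) (e : H →L[ℂ] H), e ∈ M → IsStarProjection e →
    ∀ (F : Finset H) (δ η : ℝ), 0 < δ → 0 < η → ∃ δ' : ℝ, 0 < δ' ∧
      ∀ q₁ q₂ : H →L[ℂ] H, Cor M e q₁ → Cor M e q₂ → IsStarProjection q₁ → IsStarProjection q₂ →
        (∀ ξ ∈ F, ‖(e - q₁) ξ‖ < δ' ∧ ‖(e - q₂) ξ‖ < δ') →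
        ∃ q : H →L[ℂ] H, Cor M e q ∧ IsStarProjection q ∧ q * q₁ = q ∧ ‖q₂ * q - q‖ ≤ η ∧
          ∀ ξ ∈ F, ‖(e - q) ξ‖ < δ

end Vale.Agent.P078.State
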