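import Vale.Agent.P078.State.Perp

/-!
The density of a state carried back along a normalising partial isometry: for some `a` in `A`
between `0` and `e`, the functional carried back and cut by `e - a` is the state cut by `a`.
-/

namespace Vale.Agent.P078.State

open Filter Topology MKS Singular
open scoped InnerProductSpace

set_option linter.unusedSectionVars false

variable {H : Type} [NormedAddCommGroup H] [InnerProductSpace ℂ H] [CompleteSpace H]
variable {M A : VonNeumannAlgebra H} {e : H →L[ℂ] H} {φ : (H →L[ℂ] H) →ₗ[ℂ] ℂ}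

/-- Decreasing nonnegative steps below `g 0` are small. -/
theorem step_le {g : ℕ → ℝ} (h0 : ∀ n, 0 ≤ g n)
    (hd : ∀ n, g (n + 1) - g (n + 2) ≤ g n - g (n + 1)) (n : ℕ) :
    ((n : ℝ) + 1) * (g n - g (n + 1)) ≤ g 0 := by
  have key : ∀ k : ℕ, ((k : ℝ) + 1) * (g k - g (k + 1)) + g (k + 1) ≤ g 0 := by
    intro k
    induction k with
    | zero => simp
    | succ k ih =>
      push_cast
      have := mul_le_mul_of_nonneg_left (hd k) (show (0 : ℝ) ≤ (k : ℝ) + 1 by positivity)
      linarith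
  linarith [key n, h0 (n + 1)]

/-- Nonnegative quadratics near zero have nonnegative slope. -/
theorem slope_nonneg {L K : ℝ} (h : ∀ t : ℝ, 0 < t → t ≤ 1 → 0 ≤ 2 * t * L + t ^ 2 * K) :
    0 ≤ L := by
  by_contra hL
  push Not at hL
  set t := min 1 (-L / (|K| + 1)) with ht
  have ht0 : 0 < t := lt_min one_pos (div_pos (by linarith) (by positivity))
  have h1 := h t ht0 (min_le_left _ _)
  have h2 : t * (|K| + 1) ≤ -L := (le_div_iff₀ (by positivity)).1 (min_le_right _ _)
  nlinarith [le_abs_self K, mul_pos ht0 ht0, mul_neg_of_pos_of_neg ht0 hL]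

section

variable (hA : IsMASA M A) (heA : e ∈ A) (he : IsStarProjection e) (S : IsState M A e φ)
include hA heA he S

/-- A product of commuting positive elements of the corner of `A`. -/
theorem pos_mul {x y : H →L[ℂ] H} (hx : x ∈ A ∧ Cor M e x ∧ 0 ≤ x)
    (hy : y ∈ A ∧ Cor M e y ∧ 0 ≤ y) : x * y ∈ A ∧ Cor M e (x * y) ∧ 0 ≤ x * y :=
  ⟨mul_mem hx.1 hy.1, hx.2.1.mul he hy.2.1,
    Commute.mul_nonneg hx.2.2 hy.2.2 (hA.2.1 _ hx.1 _ hy.1)⟩

/-- Elements of the corner of `A` are combinations of those between `0` and `e`. -/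
theorem eq_zero_of_pos {L : (H →L[ℂ] H) →ₗ[ℂ] ℂ}
    (h : ∀ b ∈ A, Cor M e b → 0 ≤ b → b ≤ e → L b = 0) {b : H →L[ℂ] H} (hb : b ∈ A)
    (hbc : Cor M e b) : L b = 0 := by
  have hec : Cor M e e := cor_proj (hA.1 e heA) he
  have hLe : L e = 0 := h e heA hec he.nonneg le_rfl
  have hsa : ∀ b ∈ A, Cor M e b → IsSelfAdjoint b → L b = 0 := by
    intro b hb hbc hbs
    set C := ‖b‖ + 1
    have hC : 0 < C := by positivity
    obtain ⟨h1, h2⟩ := bounds_of_norm_le hbs (show ‖b‖ ≤ C by simp [C])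
    obtain ⟨k1, k2⟩ := conj_bounds he h1 h2
    rw [hbc.2] at k1 k2
    set s : ℝ := (2 * C)⁻¹
    have hs : 0 < s := by positivity
    set b' := s • (b + C • e) with hb'
    have hb'c : Cor M e b' := (hbc.add (hec.rsmul C)).rsmul s
    have hb'A : b' ∈ A := vn_smul A _ (add_mem hb (vn_smul A _ heA))
    have hb'0 : 0 ≤ b' := by
      refine smul_nonneg hs.le ?_
      have := add_le_add k1 (le_refl (C • e))
      rwa [neg_smul, neg_add_cancel] at this
    have hb'1 : b' ≤ e := by
      have h3 := smul_le_smul_of_nonneg_left (add_le_add k2 (le_refl (C • e))) hs.le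
      rw [← add_smul, smul_smul, show s * (C + C) = 1 by simp only [s]; field_simp; ring,
        one_smul] at h3
      exact h3
    have h4 := h b' hb'A hb'c hb'0 hb'1
    rw [hb', LinearMap.map_smul_of_tower, map_add, LinearMap.map_smul_of_tower, hLe, smul_zero,
      add_zero, smul_eq_zero] at h4
    exact h4.resolve_left hs.ne'
  have hsb := star_mem hb
  have hsc := hbc.star' he
  have h1 := hsa (b + star b) (add_mem hb hsb) (hbc.add hsc) (IsSelfAdjoint.add_star_self b)
  have h2 := hsa (Complex.I • (b - star b)) (A.toStarSubalgebra.smul_mem (sub_mem hb hsb) _)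
    ((hbc.sub hsc).csmul _) (by simp [IsSelfAdjoint, star_smul, smul_sub, neg_add_eq_sub])
  rw [map_add] at h1
  rw [map_smul, map_sub, smul_eq_mul, mul_eq_zero] at h2
  linear_combination (1/2 : ℂ) * h1 + (1/2 : ℂ) * h2.resolve_left Complex.I_ne_zero

/-- The value of a positive element carried back. -/
theorem back_pos {v x : H →L[ℂ] H} (hv : Cor M e v) (hx : Cor M e x) (h0 : 0 ≤ x) :
    0 ≤ (φ (star v * (x * v))).re :=
  tr_nonneg S he ((hv.star' he).mul he (hx.mul he hv)) (by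
    rw [← mul_assoc]; exact star_left_conjugate_nonneg h0 v)

/-- The minimiser of the defining quadratic expression. -/
theorem exists_min (hR : RightStatement) (hC : CompleteStatement) {v : H →L[ℂ] H}
    (hv : Cor M e v) :
    ∃ a ∈ A, Cor M e a ∧ IsSelfAdjoint a ∧ 0 ≤ a ∧ a ≤ e ∧ ∀ b ∈ A, Cor M e b → 0 ≤ b → b ≤ e →
      n2 φ a ^ 2 + n2 φ (a * v) ^ 2 - 2 * (φ (star v * (a * v))).re ≤
      n2 φ b ^ 2 + n2 φ (b * v) ^ 2 - 2 * (φ (star v * (b * v))).re := by
  have heM := hA.1 e heA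
  have hec : Cor M e e := cor_proj heM he
  set K : Set (H →L[ℂ] H) := {b | b ∈ A ∧ Cor M e b ∧ 0 ≤ b ∧ b ≤ e} with hK
  set Q : (H →L[ℂ] H) → ℝ := fun b =>
    n2 φ b ^ 2 + n2 φ (b * v) ^ 2 - 2 * (φ (star v * (b * v))).re with hQ
  have hne : (Q '' K).Nonempty := ⟨_, 0, ⟨zero_mem A, Cor.zero, le_rfl, he.nonneg⟩, rfl⟩
  have hbdd : BddBelow (Q '' K) := by
    refine ⟨-2 * (φ (star v * (e * v))).re, ?_⟩
    rintro _ ⟨b, ⟨-, hb, -, hbe⟩, rfl⟩
    have h := back_pos hA heA he S hv (hec.sub hb) (sub_nonneg.2 hbe)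
    rw [sub_mul, mul_sub, map_sub, Complex.sub_re] at h
    simp only [hQ]
    nlinarith [sq_nonneg (n2 φ b), sq_nonneg (n2 φ (b * v))]
  set d := sInf (Q '' K)
  have hd : ∀ b ∈ K, d ≤ Q b := fun b hb => csInf_le hbdd ⟨b, hb, rfl⟩
  have hex : ∀ n : ℕ, ∃ b ∈ K, Q b < d + 1 / (n + 1) := fun n => by
    obtain ⟨_, ⟨c, hc, rfl⟩, h⟩ := exists_lt_of_csInf_lt hne
      (lt_add_of_pos_right d (show (0 : ℝ) < 1 / (n + 1) by positivity))
    exact ⟨c, hc, h⟩
  choose T hTK hTQ using hex
  have hTn : ∀ n, ‖T n‖ ≤ 1 := fun n => by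
    obtain ⟨-, -, h0, h1⟩ := hTK n
    refine norm_le_of_bounds (IsSelfAdjoint.of_nonneg h0) zero_le_one ?_ ?_
    · rw [neg_smul, one_smul]; exact le_trans (neg_nonpos.2 (zero_le_one' (H →L[ℂ] H))) h0
    · rw [one_smul]; exact h1.trans (proj_le_one he)
  have hcau : ∀ η : ℝ, 0 < η → ∃ N, ∀ i ≥ N, ∀ j ≥ N, n2 φ (T i - T j) ≤ η := by
    intro η hη
    obtain ⟨N, hN⟩ := exists_nat_gt (4 / η ^ 2)
    rw [div_lt_iff₀ (by positivity)] at hN
    refine ⟨N, fun i hi j hj => ?_⟩
    obtain ⟨a1, a2, a3, a4⟩ := hTK i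
    obtain ⟨b1, b2, b3, b4⟩ := hTK j
    set c := (2⁻¹ : ℝ) • (T i + T j) with hc
    have hcK : c ∈ K := ⟨vn_smul A _ (add_mem a1 b1), (a2.add b2).rsmul _,
      smul_nonneg (by norm_num) (add_nonneg a3 b3), by
        have h := smul_le_smul_of_nonneg_left (add_le_add a4 b4) (show (0:ℝ) ≤ 2⁻¹ by norm_num)
        rw [← hc] at h
        refine h.trans (le_of_eq ?_)
        rw [← two_smul ℝ e, smul_smul]; norm_num⟩
    have p1 := parallelogram S he a2 b2
    have p2 := parallelogram S he (a2.mul he hv) (b2.mul he hv)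
    rw [← add_mul, ← sub_mul] at p2
    have e1 : n2 φ c = 2⁻¹ * n2 φ (T i + T j) := n2_rsmul (by norm_num) _
    have e2 : n2 φ (c * v) = 2⁻¹ * n2 φ ((T i + T j) * v) := by
      rw [hc, smul_mul_assoc]; exact n2_rsmul (by norm_num) _
    have e3 : (φ (star v * (c * v))).re =
        2⁻¹ * ((φ (star v * (T i * v))).re + (φ (star v * (T j * v))).re) := by
      rw [hc, smul_mul_assoc, mul_smul_comm, tr_rsmul, add_mul, mul_add, map_add, Complex.add_re]
    have hm := hd c hcK
    have hi' := hTQ i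
    have hj' := hTQ j
    simp only [hQ, e1, e2, e3, mul_pow] at hm hi' hj'
    have hb : ∀ k : ℕ, N ≤ k → 1 / ((k : ℝ) + 1) ≤ η ^ 2 / 4 := fun k hk => by
      rw [div_le_iff₀ (by positivity)]
      nlinarith [(Nat.cast_le (α := ℝ)).2 hk, sq_nonneg η]
    have := hb i hi
    have := hb j hj
    refine le_of_sq_le_sq ?_ hη.le
    nlinarith [sq_nonneg (n2 φ ((T i - T j) * v))]
  obtain ⟨a, hac, han, hlim, hpt⟩ := hC H M A e φ hA heA he S T 1
    (fun n => ⟨(hTK n).2.1, hTn n⟩) hcau
  have haA : a ∈ A := hA.2.2 a hac.1 fun z hz => by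
    ext w
    exact tendsto_nhds_unique ((z.continuous.tendsto _).comp (hpt w))
      ((hpt (z w)).congr fun n => (DFunLike.congr_fun (hA.2.1 z hz _ (hTK n).1) w).symm)
  have hpos : 0 ≤ a ∧ a ≤ e := by
    have key : ∀ (U : ℕ → (H →L[ℂ] H)) (L : H →L[ℂ] H), (∀ n, 0 ≤ U n) →
        (∀ w, Tendsto (fun n => U n w) atTop (𝓝 (L w))) → 0 ≤ L := by
      intro U L hU hUL
      rw [ContinuousLinearMap.nonneg_iff_isPositive, ContinuousLinearMap.isPositive_iff_complex]
      intro w
      have hl : Tendsto (fun n => ⟪U n w, w⟫_ℂ) atTop (𝓝 ⟪L w, w⟫_ℂ) :=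
        (hUL w).inner tendsto_const_nhds
      have h' : ∀ n, 0 ≤ (⟪U n w, w⟫_ℂ).re ∧ (⟪U n w, w⟫_ℂ).im = 0 := fun n => by
        have h := (ContinuousLinearMap.isPositive_iff_complex _).1
          ((ContinuousLinearMap.nonneg_iff_isPositive _).1 (hU n)) w
        exact ⟨h.2, by rw [← h.1]; simp⟩
      refine ⟨Complex.ext (by simp) ?_,
        ge_of_tendsto' ((Complex.continuous_re.tendsto _).comp hl) fun n => (h' n).1⟩
      rw [tendsto_nhds_unique ((Complex.continuous_im.tendsto _).comp hl)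
        (tendsto_const_nhds.congr fun n => (h' n).2.symm)]
      exact Complex.ofReal_im _
    refine ⟨key T a (fun n => (hTK n).2.2.1) hpt, sub_nonneg.1 (key (fun n => e - T n) (e - a)
      (fun n => sub_nonneg.2 (hTK n).2.2.2) fun w => ?_)⟩
    simpa only [sub_apply] using (hpt w).const_sub (e w)
  refine ⟨a, haA, hac, IsSelfAdjoint.of_nonneg hpos.1, hpos.1, hpos.2, fun b hbA hbc hb0 hb1 => ?_⟩
  suffices hl : Tendsto (fun n => Q (T n)) atTop (𝓝 (Q a)) by
    refine le_trans ?_ (hd b ⟨hbA, hbc, hb0, hb1⟩)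
    refine le_of_tendsto_of_tendsto' hl
      (g := fun n : ℕ => d + 1 / ((n : ℝ) + 1)) ?_ fun n => (hTQ n).le
    simpa using tendsto_one_div_add_atTop_nhds_zero_nat.const_add d
  have hdc : ∀ n, Cor M e (T n - a) := fun n => (hTK n).2.1.sub hac
  have hv0 : Tendsto (fun n => n2 φ ((T n - a) * v)) atTop (𝓝 0) := by
    refine Metric.tendsto_atTop.2 fun η hη => ?_
    obtain ⟨δ, hδ, hsmall⟩ := hR H M A e φ hA heA he S v hv 2 (η / 2) (half_pos hη)
    obtain ⟨N, hN⟩ := Metric.tendsto_atTop.1 hlim δ hδ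
    refine ⟨N, fun n hn => ?_⟩
    have h1 := hN n hn
    rw [Real.dist_eq, sub_zero, abs_of_nonneg (n2_nonneg _)] at h1 ⊢
    have := hsmall _ (hdc n) ((norm_sub_le _ _).trans (by linarith [hTn n])) h1.le
    linarith
  have habs : ∀ (U : ℕ → (H →L[ℂ] H)) (L : H →L[ℂ] H), (∀ n, Cor M e (U n)) → Cor M e L →
      Tendsto (fun n => n2 φ (U n - L)) atTop (𝓝 0) →
      Tendsto (fun n => n2 φ (U n)) atTop (𝓝 (n2 φ L)) := by
    intro U L hU hL hUL
    refine tendsto_iff_norm_sub_tendsto_zero.2 (squeeze_zero (fun n => norm_nonneg _)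
      (fun n => ?_) hUL)
    rw [Real.norm_eq_abs, abs_le]
    have h1 := n2_add_le S he ((hU n).sub hL) hL
    have h2 := n2_sub_le S he (hU n) ((hU n).sub hL)
    rw [sub_add_cancel] at h1
    rw [sub_sub_cancel] at h2
    constructor <;> linarith
  have h1 := habs T a (fun n => (hTK n).2.1) hac hlim
  have h2 := habs (fun n => T n * v) (a * v) (fun n => (hTK n).2.1.mul he hv) (hac.mul he hv)
    (by simpa only [sub_mul] using hv0)
  have h3 : Tendsto (fun n => (φ (star v * (T n * v))).re) atTop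
      (𝓝 (φ (star v * (a * v))).re) := by
    refine tendsto_iff_norm_sub_tendsto_zero.2 (squeeze_zero (fun n => norm_nonneg _)
      (fun n => ?_) (by simpa using hv0.const_mul (n2 φ v)))
    rw [← Complex.sub_re, ← map_sub, ← mul_sub, ← sub_mul, Real.norm_eq_abs]
    exact (Complex.abs_re_le_norm _).trans (norm_inner_le S he hv ((hdc n).mul he hv))
  exact ((h1.pow 2).add (h2.pow 2)).sub (h3.const_mul 2)

/-- The density: `φ (v* (e - a) Y v) = φ (a Y)`. -/
theorem exists_density (hR : RightStatement) (hC : CompleteStatement) (hD : DiagLimitStatement)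
    {v : H →L[ℂ] H} (hv : Orth.NorC M A e v) :
    ∃ a ∈ A, Cor M e a ∧ IsSelfAdjoint a ∧ 0 ≤ a ∧ a ≤ e ∧
      (∀ Y, Cor M e Y → φ (star v * ((e - a) * Y * v)) = φ (a * Y)) ∧
      Tendsto (fun n : ℕ => n2 φ (a ^ (n + 1))) atTop (𝓝 0) := by
  obtain ⟨a, haA, hac, has, ha0, hae, hmin⟩ := exists_min hA heA he S hR hC hv.cor
  have hvc := hv.cor
  have hec : Cor M e e := cor_proj (hA.1 e heA) he
  set g := e - a with hg
  have haP : a ∈ A ∧ Cor M e a ∧ 0 ≤ a := ⟨haA, hac, ha0⟩
  have hgP : g ∈ A ∧ Cor M e g ∧ 0 ≤ g := ⟨sub_mem heA haA, hec.sub hac, sub_nonneg.2 hae⟩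
  set L : (H →L[ℂ] H) →ₗ[ℂ] ℂ :=
    { toFun := fun c => φ (a * c) - φ (star v * (g * c * v))
      map_add' := fun x y => by simp only [mul_add, add_mul, map_add]; ring
      map_smul' := fun t x => by
        simp only [mul_smul_comm, smul_mul_assoc, map_smul, smul_eq_mul, RingHom.id_apply]; ring }
    with hL
  have hLap : ∀ c, L c = φ (a * c) - φ (star v * (g * c * v)) := fun c => rfl
  have hmono : ∀ x : H →L[ℂ] H, Cor M e x → 0 ≤ x →
      0 ≤ (φ x).re ∧ 0 ≤ (φ (star v * (x * v))).re := fun x hx h0 =>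
    ⟨tr_nonneg S he hx h0, back_pos hA heA he S hvc hx h0⟩
  -- variations keeping between `0` and `e`
  have hvar : ∀ c ∈ A, Cor M e c → IsSelfAdjoint c →
      (∀ t : ℝ, 0 < t → t ≤ 1 → 0 ≤ a + t • c ∧ a + t • c ≤ e) → 0 ≤ (L c).re := by
    intro c hcA hcc hcs hfeas
    refine slope_nonneg (K := n2 φ c ^ 2 + n2 φ (c * v) ^ 2) fun t ht0 ht1 => ?_
    have h := hmin _ (add_mem haA (vn_smul A t hcA)) (hac.add (hcc.rsmul t))
      (hfeas t ht0 ht1).1 (hfeas t ht0 ht1).2
    have hsq : ∀ x y : H →L[ℂ] H, Cor M e x → Cor M e y → n2 φ (x + t • y) ^ 2 =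
        n2 φ x ^ 2 + 2 * t * (φ (star x * y)).re + t ^ 2 * n2 φ y ^ 2 := fun x y hx hy => by
      rw [n2_sq S he (hx.add (hy.rsmul t)), n2_sq S he hx, n2_sq S he hy]
      simp only [star_add, star_smul, star_trivial, add_mul, mul_add, smul_mul_assoc,
        mul_smul_comm, map_add, Complex.add_re, tr_rsmul, re_comm S he hx hy]
      ring
    rw [hsq a c hac hcc, add_mul, smul_mul_assoc, hsq _ _ (hac.mul he hvc) (hcc.mul he hvc),
      mul_add, map_add, Complex.add_re, mul_smul_comm, tr_rsmul] at h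
    have e1 : (φ (star (a * v) * (c * v))).re - (φ (star v * (c * v))).re =
        -(φ (star v * (g * c * v))).re := by
      rw [← Complex.sub_re, ← map_sub, ← Complex.neg_re, ← map_neg]
      congr 2
      rw [hg, sub_mul e a c, hcc.mul_left he, star_mul, has.star_eq]
      simp only [sub_mul, mul_sub, mul_assoc]
      abel
    rw [has.star_eq] at h
    rw [hLap, Complex.sub_re]
    nlinarith
  have hup : ∀ b, b ∈ A ∧ Cor M e b ∧ 0 ≤ b → b ≤ e → 0 ≤ (L (g * b)).re := by
    intro b hb hbe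
    obtain ⟨hcA, hcc, hc0⟩ := pos_mul hA heA he S hgP hb
    refine hvar _ hcA hcc (IsSelfAdjoint.of_nonneg hc0) fun t ht0 ht1 => ⟨?_, ?_⟩
    · exact add_nonneg ha0 (smul_nonneg ht0.le hc0)
    · have hbP : e - t • b ∈ A ∧ Cor M e (e - t • b) ∧ 0 ≤ e - t • b :=
        ⟨sub_mem heA (vn_smul A _ hb.1), hec.sub (hb.2.1.rsmul t), sub_nonneg.2
          (((smul_le_smul_right' ht1 hb.2.2).trans_eq (one_smul ℝ b)).trans hbe)⟩
      have h := (pos_mul hA heA he S hgP hbP).2.2
      rw [← sub_nonneg]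
      refine h.trans (le_of_eq ?_)
      rw [mul_sub, mul_smul_comm, hgP.2.1.mul_right he, hg, sub_sub]
  have hdown : ∀ b, b ∈ A ∧ Cor M e b ∧ 0 ≤ b → b ≤ e → (L (a * b)).re ≤ 0 := by
    intro b hb hbe
    obtain ⟨hcA, hcc, hc0⟩ := pos_mul hA heA he S haP hb
    have h := hvar _ (neg_mem hcA) hcc.neg (IsSelfAdjoint.of_nonneg hc0).neg
      fun t ht0 ht1 => ⟨?_, ?_⟩
    · rw [map_neg, Complex.neg_re] at h; linarith
    · have hbP : e - t • b ∈ A ∧ Cor M e (e - t • b) ∧ 0 ≤ e - t • b :=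
        ⟨sub_mem heA (vn_smul A _ hb.1), hec.sub (hb.2.1.rsmul t), sub_nonneg.2
          (((smul_le_smul_right' ht1 hb.2.2).trans_eq (one_smul ℝ b)).trans hbe)⟩
      have h := (pos_mul hA heA he S haP hbP).2.2
      rwa [mul_sub, mul_smul_comm, hac.mul_right he, sub_eq_add_neg, ← smul_neg] at h
    · rw [smul_neg, ← sub_eq_add_neg]
      exact (sub_le_self _ (smul_nonneg ht0.le hc0)).trans hae
  -- the two halves vanish
  have hmain : ∀ b, b ∈ A ∧ Cor M e b ∧ 0 ≤ b → b ≤ e → (L b).re = 0 := by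
    intro b hb hbe
    have hshrink : ∀ x, x ∈ A ∧ Cor M e x ∧ 0 ≤ x → x ≤ e → ∀ y, y ∈ A ∧ Cor M e y ∧ 0 ≤ y →
        y ≤ e → x * y ≤ e := by
      intro x hx hxe y hy hye
      have h1 := (pos_mul hA heA he S ⟨sub_mem heA hx.1, hec.sub hx.2.1, sub_nonneg.2 hxe⟩ hy).2.2
      rw [sub_mul, hy.2.1.mul_left he, sub_nonneg] at h1
      exact h1.trans hye
    have hge : g ≤ e := sub_le_self _ ha0
    set u : (H →L[ℂ] H) → ℕ → (H →L[ℂ] H) := fun x n => (x * ·)^[n] b with hu
    have hus : ∀ x n, u x (n + 1) = x * u x n := fun x n => by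
      simp only [hu, Function.iterate_succ_apply']
    have hu1 : ∀ x, x ∈ A ∧ Cor M e x ∧ 0 ≤ x → x ≤ e → ∀ n,
        (u x n ∈ A ∧ Cor M e (u x n) ∧ 0 ≤ u x n) ∧ u x n ≤ e := by
      intro x hx hxe n
      induction n with
      | zero => exact ⟨hb, hbe⟩
      | succ n ih =>
        rw [hus]
        exact ⟨pos_mul hA heA he S hx ih.1, hshrink x hx hxe _ ih.1 ih.2⟩
    -- powers of an element times its complement have small values
    have hdec : ∀ x, x ∈ A ∧ Cor M e x ∧ 0 ≤ x → x ≤ e → ∀ F : (H →L[ℂ] H) →ₗ[ℂ] ℂ,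
        (∀ y, Cor M e y → 0 ≤ y → 0 ≤ (F y).re) →
        ∀ n : ℕ, ((n : ℝ) + 1) * (F ((e - x) * u x n)).re ≤ (F b).re := by
      intro x hx hxe F hF n
      have hy : e - x ∈ A ∧ Cor M e (e - x) ∧ 0 ≤ e - x :=
        ⟨sub_mem heA hx.1, hec.sub hx.2.1, sub_nonneg.2 hxe⟩
      have hstep : ∀ k, (e - x) * u x k = u x k - u x (k + 1) := fun k => by
        rw [sub_mul, (hu1 x hx hxe k).1.2.1.mul_left he, hus]
      have h := step_le (g := fun k => (F (u x k)).re)
        (fun k => hF _ (hu1 x hx hxe k).1.2.1 (hu1 x hx hxe k).1.2.2) (fun k => ?_) n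
      · rw [hstep, map_sub, Complex.sub_re]; exact h
      · have h1 := pos_mul hA heA he S hy (pos_mul hA heA he S hy (hu1 x hx hxe k).1)
        have := hF _ h1.2.1 h1.2.2
        rw [hstep, mul_sub, hstep, hus x k, ← mul_assoc,
          hA.2.1 _ hy.1 _ hx.1, mul_assoc, hstep, mul_sub, ← hus, ← hus, map_sub, map_sub,
          map_sub, Complex.sub_re, Complex.sub_re, Complex.sub_re] at this
        show (F (u x (k + 1))).re - (F (u x (k + 2))).re ≤ (F (u x k)).re - (F (u x (k + 1))).re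
        linarith
    set Fv : (H →L[ℂ] H) →ₗ[ℂ] ℂ :=
      { toFun := fun x => φ (star v * (x * v))
        map_add' := fun x y => by simp only [add_mul, mul_add, map_add]
        map_smul' := fun t x => by simp }
    have hag : e - g = a := by simp [g]
    -- the part cut by `g`
    have hz2 : (L (g * b)).re = 0 := by
      have hconst : ∀ n, (L (u g (n + 1))).re = (L (g * b)).re := by
        intro n
        induction n with
        | zero => rfl
        | succ n ih =>
          have hn := hu1 g hgP hge n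
          have h1 := hdown _ (pos_mul hA heA he S hgP (hu1 g hgP hge n).1)
            (hshrink g hgP hge _ hn.1 hn.2)
          have h2 := hup _ (pos_mul hA heA he S haP (hu1 g hgP hge n).1)
            (hshrink a haP hae _ hn.1 hn.2)
          rw [← mul_assoc, hA.2.1 g hgP.1 a haA, mul_assoc] at h2
          have h3 : a * (g * u g n) = u g (n + 1) - u g (n + 2) := by
            rw [hus g (n + 1), hus g n, ← hag, sub_mul,
              (pos_mul hA heA he S hgP hn.1).2.1.mul_left he]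
          rw [h3, map_sub, Complex.sub_re] at h1 h2
          linarith
      refine le_antisymm (le_of_forall_gt_imp_ge_of_dense fun η hη => ?_) (hup b hb hbe)
      obtain ⟨n, hn⟩ := exists_nat_gt ((φ b).re / η)
      rw [div_lt_iff₀ hη] at hn
      have hn' := hu1 g hgP hge (n + 1)
      have h1 := hdec g hgP hge φ (fun y hy h0 => (hmono y hy h0).1) (n + 1)
      rw [hag] at h1
      have h2 := pos_mul hA heA he S hgP hn'.1
      have h3 := (hmono _ h2.2.1 h2.2.2).2
      have h4 := (hmono _ (pos_mul hA heA he S haP hn'.1).2.1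
        (pos_mul hA heA he S haP hn'.1).2.2).1
      rw [← hconst n, hLap, Complex.sub_re]
      push_cast at h1
      nlinarith
    -- the part cut by `a`
    have hz1 : (L (a * b)).re = 0 := by
      have hconst : ∀ n, (L (u a (n + 1))).re = (L (a * b)).re := by
        intro n
        induction n with
        | zero => rfl
        | succ n ih =>
          have hn := hu1 a haP hae n
          have h1 := hdown _ (pos_mul hA heA he S hgP (hu1 a haP hae n).1)
            (hshrink g hgP hge _ hn.1 hn.2)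
          have h2 := hup _ (pos_mul hA heA he S haP (hu1 a haP hae n).1)
            (hshrink a haP hae _ hn.1 hn.2)
          rw [← mul_assoc, hA.2.1 a haA g hgP.1, mul_assoc] at h1
          have h3 : g * (a * u a n) = u a (n + 1) - u a (n + 2) := by
            rw [hus a (n + 1), hus a n, hg, sub_mul,
              (pos_mul hA heA he S haP hn.1).2.1.mul_left he]
          rw [h3, map_sub, Complex.sub_re] at h1 h2
          linarith
      refine le_antisymm (hdown b hb hbe) (le_of_forall_lt_imp_le_of_dense fun η hη => ?_)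
      obtain ⟨n, hn⟩ := exists_nat_gt ((Fv b).re / -η)
      rw [div_lt_iff₀ (neg_pos.2 hη)] at hn
      have hn' := hu1 a haP hae (n + 1)
      have h1 : _ * (Fv (g * u a (n + 1))).re ≤ _ :=
        hdec a haP hae Fv (fun y hy h0 => (hmono y hy h0).2) (n + 1)
      have h2 := pos_mul hA heA he S haP hn'.1
      have h3 := (hmono _ h2.2.1 h2.2.2).1
      have h4 : 0 ≤ (Fv (g * u a (n + 1))).re := (hmono _ (pos_mul hA heA he S hgP hn'.1).2.1
        (pos_mul hA heA he S hgP hn'.1).2.2).2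
      rw [← hconst n, hLap, Complex.sub_re]
      show η ≤ _ - (Fv (g * u a (n + 1))).re
      push_cast at h1
      nlinarith
    have e0 : b = a * b + g * b := by
      rw [← add_mul, hg, add_sub_cancel, hb.2.1.mul_left he]
    rw [e0, map_add, Complex.add_re, hz1, hz2, add_zero]
  have hzero : ∀ b ∈ A, Cor M e b → L b = 0 := fun b hb hbc =>
    eq_zero_of_pos hA heA he S (fun c hc hcc hc0 hce =>
      Complex.ext (hmain c ⟨hc, hcc, hc0⟩ hce) (by
        have hsc := IsSelfAdjoint.of_nonneg hc0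
        have h1 := (pos_mul hA heA he S haP ⟨hc, hcc, hc0⟩)
        have h2 := (pos_mul hA heA he S hgP ⟨hc, hcc, hc0⟩)
        have him : ∀ x : H →L[ℂ] H, Cor M e x → IsSelfAdjoint x → (φ x).im = 0 := fun x hx hxs => by
          have := congrArg Complex.im (tr_star S he (hA.1 e heA) hx)
          rw [hxs.star_eq, Complex.star_def, Complex.conj_im] at this
          linarith
        rw [hLap, Complex.sub_im, him _ h1.2.1 (IsSelfAdjoint.of_nonneg h1.2.2),
          him (star v * (g * c * v)) ((hvc.star' he).mul he (h2.2.1.mul he hvc)) ?_]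
        · simp
        · have := (IsSelfAdjoint.of_nonneg h2.2.2).conjugate' v
          simpa only [mul_assoc] using this)) hb hbc
  refine ⟨a, haA, hac, has, ha0, hae, fun Y hY => ?_, ?_⟩
  · obtain ⟨E, hEA, hEc, -, -, hval, -⟩ := hD H M A e φ hA heA he S Y hY
    have hX : ∀ b' ∈ A, φ (b' * (g * (Y - E))) = 0 := fun b' hb' => by
      rw [← mul_assoc, mul_sub, map_sub, hval _ (mul_mem hb' hgP.1), sub_self]
    have h1 := covariance hR hD hA heA he S (hgP.2.1.mul he (hY.sub hEc)) hX hv heA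
    rw [mul_sub g, sub_mul _ _ v, mul_sub (star v), mul_sub e, map_sub,
      ((hvc.star' he).mul he ((hgP.2.1.mul he hY).mul he hvc)).mul_left he,
      ((hvc.star' he).mul he ((hgP.2.1.mul he hEc).mul he hvc)).mul_left he, sub_eq_zero] at h1
    have h2 := hzero E hEA hEc
    rw [hLap, sub_eq_zero] at h2
    rw [h1, ← h2, hval a haA]
  · refine squeeze_zero (f := fun n : ℕ => n2 φ (a ^ (n + 1)))
      (g := fun n : ℕ => Real.sqrt ((φ (star v * (e * v))).re * (1 / (n + 1))))
      (fun n => n2_nonneg _) (fun n => ?_) (by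
        simpa using (tendsto_one_div_add_atTop_nhds_zero_nat.const_mul
          (φ (star v * (e * v))).re).sqrt)
    refine Real.le_sqrt_of_sq_le ?_
    have hk : ∀ k : ℕ, a ^ (k + 1) ∈ A ∧ Cor M e (a ^ (k + 1)) ∧ 0 ≤ a ^ (k + 1) ∧
        a ^ (k + 1) ≤ e := by
      intro k
      induction k with
      | zero => simpa using ⟨haA, hac, ha0, hae⟩
      | succ k ih =>
        obtain ⟨i1, i2, i3, i4⟩ := ih
        obtain ⟨j1, j2, j3⟩ := pos_mul hA heA he S ⟨i1, i2, i3⟩ haP
        rw [pow_succ]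
        refine ⟨j1, j2, j3, ?_⟩
        have h1 := (pos_mul hA heA he S ⟨i1, i2, i3⟩ hgP).2.2
        rw [hg, mul_sub, i2.mul_right he, sub_nonneg] at h1
        exact h1.trans i4
    set y : ℕ → ℝ := fun k => (φ (star v * (a ^ (k + 1) * v))).re with hy
    have hy0 : ∀ k, 0 ≤ y k := fun k => (hmono _ (hk k).2.1 (hk k).2.2.1).2
    have hval' : ∀ k, (φ (a ^ (k + 2))).re = y k - y (k + 1) := fun k => by
      have h := hzero _ (hk k).1 (hk k).2.1
      rw [hLap, sub_eq_zero, ← pow_succ'] at h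
      rw [h, hy]
      simp only
      rw [← Complex.sub_re, ← map_sub, ← mul_sub, ← sub_mul]
      congr 4
      rw [hg, sub_mul, (hk k).2.1.mul_left he, ← pow_succ']
    have hdd : ∀ k, y (k + 1) - y (k + 2) ≤ y k - y (k + 1) := fun k => by
      rw [← hval' k, ← hval' (k + 1)]
      refine tr_mono S he (hk (k + 2)).2.1 (hk (k + 1)).2.1 ?_
      have h1 := (pos_mul hA heA he S ⟨(hk (k+1)).1, (hk (k+1)).2.1, (hk (k+1)).2.2.1⟩ hgP).2.2
      rw [hg, mul_sub, (hk (k+1)).2.1.mul_right he, sub_nonneg, ← pow_succ] at h1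
      exact h1
    have h5 := step_le hy0 hdd (2 * n)
    rw [← hval', show 2 * n + 2 = (n + 1) + (n + 1) by ring, pow_add] at h5
    rw [n2_sq S he (hk n).2.1, (has.pow (n + 1)).star_eq, mul_one_div,
      le_div_iff₀ (by positivity)]
    have h6 : y 0 ≤ (φ (star v * (e * v))).re := by
      have := (hmono _ hgP.2.1 hgP.2.2).2
      rw [hg, sub_mul, mul_sub, map_sub, Complex.sub_re] at this
      simp only [hy, zero_add, pow_one]
      linarith
    have h7 : 0 ≤ (φ (a ^ (n + 1) * a ^ (n + 1))).re := by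
      rw [← pow_add, show (n + 1) + (n + 1) = (2 * n + 1) + 1 by ring]
      exact (hmono _ (hk _).2.1 (hk _).2.2.1).1
    push_cast at h5
    nlinarith

end

end Vale.Agent.P078.State
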