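import Vale.Agent.P078.State.Complete
import Vale.Agent.P078.Orth.DiagLimit

/-!
Pinchings by arbitrarily fine cuts converge in the 2-norm of a state to an element of the MASA.
-/

namespace Vale.Agent.P078.State

namespace DiagLimit

open MKS Orth

variable {H : Type} [NormedAddCommGroup H] [InnerProductSpace ℂ H] [CompleteSpace H]
variable {M A : VonNeumannAlgebra H} {e : H →L[ℂ] H} {φ : (H →L[ℂ] H) →ₗ[ℂ] ℂ}

/-- Pinchings are orthogonal projections up to a factor two. -/
theorem n2_sub_sq_le (S : IsState M A e φ) (he : IsStarProjection e) (hA : IsMASA M A)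
    (heA : e ∈ A) {a c : Cut A e} (h : a.Refines c) {x : H →L[ℂ] H} (hx : Cor M e x) :
    n2 φ (MKS.pinch c.q x - MKS.pinch a.q x) ^ 2 ≤
      2 * (n2 φ (MKS.pinch a.q x) ^ 2 - n2 φ (MKS.pinch c.q x) ^ 2) := by
  set y := MKS.pinch a.q x
  set z := MKS.pinch c.q x
  have hy : Cor M e y := State.cor_pinch hA a.part hx.1
  have hz : Cor M e z := State.cor_pinch hA c.part hx.1
  have hzy : MKS.pinch c.q y = z := pinch_pinch_refines hA h x
  have hzz : MKS.pinch c.q z = z := pinch_pinch_refines hA (refines_refl c) x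
  have h1 := State.n2_pinch_le S he hA heA c.part (hy.add hz)
  rw [MKS.pinch_add, hzy, hzz, ← two_smul ℝ z, State.n2_rsmul two_pos.le] at h1
  have h2 := State.parallelogram S he hz hy
  rw [add_comm y z] at h1
  have h3 := pow_le_pow_left₀ (mul_nonneg two_pos.le (n2_nonneg (τ := φ) z)) h1 2
  nlinarith

end DiagLimit

open DiagLimit MKS Filter Topology Orth in
open scoped InnerProductSpace in
/-- Pinchings by fine cuts converge to an element of `A`. -/
theorem diag_limit_ok : DiagLimitStatement := by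
  intro H _ _ _ M A e φ hA heA he S x hx
  have hc : ∀ c : Cut A e, Cor M e (MKS.pinch c.q x) := fun c => State.cor_pinch hA c.part hx.1
  set f : Cut A e → ℝ := fun c => n2 φ (MKS.pinch c.q x) with hfdef
  have : Nonempty (Cut A e) := ⟨topCut heA he⟩
  have hbdd : BddBelow (Set.range f) := ⟨0, by rintro _ ⟨c, rfl⟩; exact n2_nonneg _⟩
  set s := sInf (Set.range f)
  have hs : ∀ c, s ≤ f c := fun c => csInf_le hbdd ⟨c, rfl⟩
  have hs0 : 0 ≤ s := le_csInf (Set.range_nonempty f) (by rintro _ ⟨c, rfl⟩; exact n2_nonneg _)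
  have hex : ∀ n : ℕ, ∃ c, f c < s + 1 / (n + 1) := fun n => by
    obtain ⟨_, ⟨c, rfl⟩, h⟩ := exists_lt_of_csInf_lt (Set.range_nonempty f)
      (lt_add_of_pos_right s (show (0 : ℝ) < 1 / (n + 1) by positivity))
    exact ⟨c, h⟩
  choose c₀ hc₀ using hex
  let C : ℕ → Cut A e := fun n => Nat.rec (c₀ 0) (fun k Ck => meet hA Ck (c₀ (k + 1))) n
  have hC : ∀ n m, n ≤ m → (C n).Refines (C m) := by
    intro n m hnm
    induction hnm with
    | refl => exact refines_refl _
    | step _ ih => exact refines_trans ih (refines_meet_left hA _ _)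
  have hCf : ∀ n, f (C n) < s + 1 / (n + 1) := by
    intro n
    refine lt_of_le_of_lt ?_ (hc₀ n)
    cases n with
    | zero => exact le_rfl
    | succ k => exact State.n2_pinch_mono S he hA heA (refines_meet_right hA _ _) hx
  have hclose : ∀ η : ℝ, 0 < η → ∃ N, ∀ n ≥ N, ∀ c, (C n).Refines c →
      n2 φ (MKS.pinch c.q x - MKS.pinch (C n).q x) ≤ η := by
    intro η hη
    obtain ⟨N, hN⟩ := exists_nat_gt (2 * (2 * s + 1) / η ^ 2)
    rw [div_lt_iff₀ (by positivity)] at hN
    refine ⟨N, fun n hn c hcr => le_of_sq_le_sq ?_ hη.le⟩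
    refine (n2_sub_sq_le S he hA heA hcr hx).trans ?_
    have h1 : f (C n) ^ 2 ≤ (s + 1 / (n + 1)) ^ 2 :=
      pow_le_pow_left₀ (n2_nonneg _) (hCf n).le 2
    have h2 : s ^ 2 ≤ f c ^ 2 := pow_le_pow_left₀ hs0 (hs c) 2
    have h3 : (1 : ℝ) / (n + 1) ≤ 1 := by rw [div_le_one (by positivity)]; simp
    have h4 : 2 * (2 * s + 1) * (1 / ((n : ℝ) + 1)) ≤ η ^ 2 := by
      rw [mul_one_div, div_le_iff₀ (by positivity)]
      nlinarith [(Nat.cast_le (α := ℝ)).2 hn, sq_nonneg η]
    have h5 : (0 : ℝ) ≤ 1 / (n + 1) := by positivity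
    change 2 * (f (C n) ^ 2 - f c ^ 2) ≤ η ^ 2
    nlinarith
  obtain ⟨a, hac, han, hlim, hpt⟩ := complete_ok H M A e φ hA heA he S
    (fun n => MKS.pinch (C n).q x) ‖x‖
    (fun n => ⟨hc _, Orth.DiagLimit.norm_pinch_le heA he (C n).part hx⟩) fun η hη => by
      obtain ⟨N, hN⟩ := hclose (η / 2) (half_pos hη)
      refine ⟨N, fun i hi j hj => ?_⟩
      have hi' := hN N le_rfl (C i) (hC N i hi)
      have hj' := hN N le_rfl (C j) (hC N j hj)
      rw [← sub_sub_sub_cancel_right (MKS.pinch (C i).q x) (MKS.pinch (C j).q x)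
        (MKS.pinch (C N).q x)]
      exact (State.n2_sub_le S he ((hc _).sub (hc _)) ((hc _).sub (hc _))).trans (by linarith)
  have hev : ∀ η : ℝ, 0 < η → ∀ᶠ c in fine A e, n2 φ (MKS.pinch c.q x - a) ≤ η := by
    intro η hη
    obtain ⟨N, hN⟩ := hclose (η / 2) (half_pos hη)
    obtain ⟨N', hN'⟩ := Metric.tendsto_atTop.1 hlim (η / 2) (half_pos hη)
    filter_upwards [eventually_refines hA heA he (C (max N N'))] with c hcr
    have h1 := hN _ (le_max_left N N') c hcr
    have h2 := hN' _ (le_max_right N N')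
    rw [Real.dist_eq, sub_zero, abs_of_nonneg (n2_nonneg _)] at h2
    rw [← sub_add_sub_cancel (MKS.pinch c.q x) (MKS.pinch (C (max N N')).q x) a]
    exact (State.n2_add_le S he ((hc _).sub (hc _)) ((hc _).sub hac)).trans (by linarith)
  have hfix : ∀ q : Cut A e, MKS.pinch q.q a = a := by
    intro q
    refine sub_eq_zero.1 (State.eq_zero_of_n2 S he
      ((State.cor_pinch hA q.part hac.1).sub hac) ?_)
    refine le_antisymm (le_of_forall_gt_imp_ge_of_dense fun η hη => ?_) (n2_nonneg _)
    have := fine_neBot hA heA he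
    obtain ⟨c, hcη, hcr⟩ := ((hev (η / 2) (half_pos hη)).and
      (eventually_refines hA heA he q)).exists
    have hcq : MKS.pinch q.q (MKS.pinch c.q x) = MKS.pinch c.q x := by
      rw [MKS.pinch_pinch_comm hA q.part c.part, pinch_pinch_refines hA hcr]
    have h1 := State.n2_pinch_le S he hA heA q.part ((hc c).sub hac)
    rw [MKS.pinch_sub, hcq] at h1
    rw [← sub_sub_sub_cancel_left a (MKS.pinch q.q a) (MKS.pinch c.q x)]
    refine (State.n2_sub_le S he ((hc c).sub hac)
      ((hc c).sub (State.cor_pinch hA q.part hac.1))).trans ?_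
    linarith
  have haA : a ∈ A := by
    refine hA.2.2 a hac.1 fun z hz => commute_of_proj hA.2.1 (fun p hp => ?_) hz
    set q := p * e with hqdef
    have hq : IsPr A q := isPr_mul hA.2.1 hp ⟨heA, he⟩
    have hqe : q * e = q := by rw [hqdef, mul_assoc, he.isIdempotentElem.eq]
    have heq : e * q = q := by rw [hA.2.1 e heA q hq.1, hqe]
    have hq' : IsPr A (e - q) := isPr_sub hA.2.1 hq ⟨heA, he⟩ hqe
    have hP : IsPartition A e ![q, e - q] := by
      refine ⟨fun i => by fin_cases i <;> simp [hq.1, hq.2, hq'.1, hq'.2], fun i j hij => ?_,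
        by simp [Fin.sum_univ_two]⟩
      fin_cases i <;> fin_cases j <;> first
        | exact absurd rfl hij
        | simp [mul_sub, sub_mul, hq.2.isIdempotentElem.eq, hqe, heq]
    have h : q * a * q + (e - q) * a * (e - q) = a := by
      simpa [MKS.pinch, Fin.sum_univ_two] using hfix ⟨2, _, hP⟩
    have h0 : q * (e - q) = 0 := by rw [mul_sub, hqe, hq.2.isIdempotentElem.eq, sub_self]
    have h0' : (e - q) * q = 0 := by rw [sub_mul, heq, hq.2.isIdempotentElem.eq, sub_self]
    have h1 : q * a = q * a * q := by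
      conv_lhs => rw [← h]
      simp only [mul_add, ← mul_assoc, hq.2.isIdempotentElem.eq, h0, zero_mul, add_zero]
    have h2 : a * q = q * a * q := by
      conv_lhs => rw [← h]
      simp only [add_mul, mul_assoc, hq.2.isIdempotentElem.eq, h0', mul_zero, add_zero]
    calc p * a = q * a := by rw [hqdef, mul_assoc, hac.mul_left he]
      _ = a * q := h1.trans h2.symm
      _ = a * p := by rw [hqdef, hA.2.1 p hp.1 e heA, ← mul_assoc, hac.mul_right he]
  refine ⟨a, haA, hac, han, fun hxs => ?_, fun b hb => ?_, Metric.tendsto_nhds.2 fun η hη => ?_⟩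
  · refine ContinuousLinearMap.isSelfAdjoint_iff_isSymmetric.2 fun v w => ?_
    exact tendsto_nhds_unique (((hpt v).inner tendsto_const_nhds))
      ((tendsto_const_nhds.inner (hpt w)).congr fun n =>
        ((pinch_selfAdjoint' (C n).part hxs).isSymmetric v w).symm)
  · refine sub_eq_zero.1 (norm_le_zero_iff.1 (le_of_forall_gt_imp_ge_of_dense fun η hη => ?_))
    have := fine_neBot hA heA he
    have hbe : Cor M e (b * e) :=
      (State.cor_mul_mem hA heA he hb (MKS.cor_proj (hA.1 e heA) he)).1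
    set m := n2 φ (star (b * e))
    have hm : 0 ≤ m := n2_nonneg _
    obtain ⟨c, hcη⟩ := (hev (η / (m + 1)) (by positivity)).exists
    have hbx := (State.cor_mul_mem hA heA he hb hx).1
    have e1 : MKS.pinch c.q (b * x) = b * MKS.pinch c.q x := by
      simp only [MKS.pinch, Finset.mul_sum, ← mul_assoc]
      exact Finset.sum_congr rfl fun i _ => by rw [hA.2.1 _ (c.part.1 i).1 b hb]
    have e3 : ∀ y, Cor M e y → star (star (b * e)) * y = b * y := fun y hy => by
      rw [star_star, mul_assoc, hy.mul_left he]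
    have e2 : φ (b * a) - φ (b * x) = -φ (star (star (b * e)) * (MKS.pinch c.q x - a)) := by
      rw [e3 _ ((hc c).sub hac), ← State.tr_pinch S he hA heA c.part hbx, e1, mul_sub, map_sub]
      ring
    rw [e2, norm_neg]
    refine (State.norm_inner_le S he (hbe.star' he) ((hc c).sub hac)).trans ?_
    refine (mul_le_mul_of_nonneg_left hcη hm).trans ?_
    rw [mul_div_assoc', div_le_iff₀ (by positivity)]
    nlinarith
  · filter_upwards [hev (η / 2) (half_pos hη)] with c hcη
    rw [Real.dist_eq, sub_zero, abs_of_nonneg (n2_nonneg _)]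
    linarith

end Vale.Agent.P078.State
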