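import Vale.Agent.P078.State.Basic
import Vale.Agent.P078.Orth.Prods
import Vale.Agent.P078.Orth.DiagLimit

/-!
Two translates of the same cell are one translate times an element of `A`, in the 2-norm.
-/

namespace Vale.Agent.P078.State

open Filter Topology MKS Singular
open Orth (Cut cell NorC fine fine_neBot cut_mul cut_cor cut_star)

set_option linter.unusedSectionVars false

variable {H : Type} [NormedAddCommGroup H] [InnerProductSpace ℂ H] [CompleteSpace H]
variable {M A : VonNeumannAlgebra H} {e : H →L[ℂ] H} {τ : (H →L[ℂ] H) →ₗ[ℂ] ℂ}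
variable (hR : RightStatement) (hD : DiagLimitStatement)
variable (hA : IsMASA M A) (heA : e ∈ A) (he : IsStarProjection e) (hτ : IsState M A e τ)
include hR hD hA heA he hτ

/-- For normalising `h`, `k` there is `a ∈ A` with `h q k* ≈ h q h* a` summed over fine cells. -/
theorem exists_merge_coef {h k : H →L[ℂ] H} (hn : NorC M A e h) (kn : NorC M A e k) :
    ∃ a ∈ A, Cor M e a ∧ Tendsto (fun c : Cut A e =>
      ∑ x, n2 τ (cell h c x * cell k c x - cell h c x * a) ^ 2) (fine A e) (𝓝 0) := by
  set w := star h * k with hwdef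
  have hw : Cor M e w := (hn.cor.star' he).mul he kn.cor
  obtain ⟨a₀, ha₀, hac, ha₀n, -, -, hlim⟩ := hD H M A e τ hA heA he hτ w hw
  have hd := hn.dom_mem
  have kd := kn.dom_mem
  have hne : h * e = h := hn.cor.mul_right he
  have hX : ∀ b ∈ A, star h * b * h ∈ A := fun b hb => (hn.1.2.2 b hb).2
  have hY : ∀ b ∈ A, star k * b * k ∈ A := fun b hb => (kn.1.2.2 b hb).2
  have hsh : star h * h * star h = star h := by
    simpa [mul_assoc] using (normaliser_star hn.1).2.1
  -- the limit intertwines the two translations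
  have htw : ∀ b ∈ A, star h * b * h * a₀ = a₀ * (star k * b * k) := by
    intro b hb
    set θ := star h * b * h with hθ
    set θ' := star k * b * k with hθ'
    have hθw : θ * w = w * θ' := by
      have e1 : θ * w = star h * b * k := by
        calc θ * w = star h * (b * (h * star h)) * k := by simp only [hθ, hwdef, mul_assoc]
          _ = star h * ((h * star h) * b) * k := by rw [hA.2.1 b hb _ hd.2]
          _ = (star h * h * star h) * (b * k) := by simp only [mul_assoc]
          _ = star h * b * k := by rw [hsh]; simp only [mul_assoc]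
      rw [e1]
      calc star h * b * k = star h * b * (k * star k * k) := by rw [kn.1.2.1]
        _ = star h * (b * (k * star k)) * k := by simp only [mul_assoc]
        _ = star h * ((k * star k) * b) * k := by rw [hA.2.1 b hb _ kd.2]
        _ = _ := by simp only [hθ', hwdef, mul_assoc]
    have hθc : Cor M e θ := ⟨hA.1 _ (hX b hb), by
      rw [hθ, ← mul_assoc, ← mul_assoc, (hn.cor.star' he).mul_left he]
      rw [mul_assoc, hne]⟩
    have hθ'c : Cor M e θ' := ⟨hA.1 _ (hY b hb), by
      rw [hθ', ← mul_assoc, ← mul_assoc, (kn.cor.star' he).mul_left he]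
      rw [mul_assoc, kn.cor.mul_right he]⟩
    have hdiff : Cor M e (θ * a₀ - a₀ * θ') := (hθc.mul he hac).sub (hac.mul he hθ'c)
    refine sub_eq_zero.1 (eq_zero_of_n2 hτ he hdiff
      (le_antisymm (le_of_forall_gt_imp_ge_of_dense fun η hη => ?_) (n2_nonneg _)))
    set C := ‖θ‖ + ‖θ'‖ + 1
    have hC : 0 < C := by positivity
    have := fine_neBot hA heA he
    obtain ⟨c, hc⟩ := (Metric.tendsto_nhds.1 hlim (η / C) (by positivity)).exists
    rw [Real.dist_eq, sub_zero, abs_of_nonneg (n2_nonneg _)] at hc
    have hp : θ * MKS.pinch c.q w = MKS.pinch c.q w * θ' := by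
      have e1 : θ * MKS.pinch c.q w = MKS.pinch c.q (θ * w) := by
        simp only [MKS.pinch, Finset.mul_sum]
        refine Finset.sum_congr rfl fun i _ => ?_
        rw [← mul_assoc, ← mul_assoc, hA.2.1 _ (hX b hb) _ (c.part.1 i).1, mul_assoc (c.q i) θ w]
      have e2 : MKS.pinch c.q w * θ' = MKS.pinch c.q (w * θ') := by
        simp only [MKS.pinch, Finset.sum_mul]
        refine Finset.sum_congr rfl fun i _ => ?_
        rw [mul_assoc, hA.2.1 _ (c.part.1 i).1 _ (hY b hb), ← mul_assoc, mul_assoc (c.q i) w θ']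
      rw [e1, e2, hθw]
    have hpc : Cor M e (MKS.pinch c.q w) := cor_pinch hA c.part hw.1
    have hD' := hpc.sub hac
    have hsplit : θ * a₀ - a₀ * θ' =
        -(θ * (MKS.pinch c.q w - a₀)) + (MKS.pinch c.q w - a₀) * θ' := by
      rw [mul_sub, sub_mul, hp]; abel
    rw [hsplit]
    refine (n2_add_le hτ he (hθc.mul he hD').neg (hD'.mul he hθ'c)).trans ?_
    rw [n2_neg]
    refine (add_le_add (n2_mul_le hτ he (hθc.mul he hD') hD')
      (n2_mul_mem_le hτ he hA heA hD' (hY b hb))).trans ?_
    rw [← add_mul]
    refine (mul_le_mul (show ‖θ‖ + ‖θ'‖ ≤ C by simp [C]) hc.le (n2_nonneg _) hC.le).trans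
      (le_of_eq ?_)
    field_simp
  set a := h * a₀ * star k with hadef
  have hac' : Cor M e a := (hn.cor.mul he hac).mul he (kn.cor.star' he)
  have haA : a ∈ A := by
    refine hA.2.2 a hac'.1 fun b hb => ?_
    calc b * a = b * (h * star h * h) * a₀ * star k := by
          rw [hn.1.2.1, hadef]; simp only [mul_assoc]
      _ = (h * star h) * b * h * a₀ * star k := by
          rw [← mul_assoc, ← mul_assoc, mul_assoc b h, hA.2.1 b hb _ hd.2]
      _ = h * (star h * b * h * a₀) * star k := by simp only [mul_assoc]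
      _ = h * a₀ * (star k * (b * (k * star k))) := by rw [htw b hb]; simp only [mul_assoc]
      _ = h * a₀ * (star k * (k * star k * b)) := by rw [hA.2.1 b hb _ kd.2]
      _ = h * a₀ * ((star k * k * star k) * b) := by simp only [mul_assoc]
      _ = a * b := by
          rw [show star k * k * star k = star k by
            simpa [mul_assoc] using (normaliser_star kn.1).2.1, hadef]
          simp only [mul_assoc]
  refine ⟨a, haA, hac', ?_⟩
  have hks := kn.cor.star' he
  have hlim' : Tendsto (fun c : Cut A e => n2 τ ((MKS.pinch c.q w - a₀) * star k)) (fine A e)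
      (𝓝 0) := by
    refine Metric.tendsto_nhds.2 fun η hη => ?_
    obtain ⟨δ, hδ, hR'⟩ := hR H M A e τ hA heA he hτ (star k) hks (‖w‖ + ‖w‖) (η / 2) (half_pos hη)
    filter_upwards [Metric.tendsto_nhds.1 hlim δ hδ] with c hc
    rw [Real.dist_eq, sub_zero, abs_of_nonneg (n2_nonneg _)] at hc ⊢
    have := hR' _ ((cor_pinch hA c.part hw.1).sub hac)
      ((norm_sub_le _ _).trans (add_le_add (Orth.DiagLimit.norm_pinch_le heA he c.part hw) ha₀n)) hc.le
    linarith
  refine squeeze_zero (fun c => Finset.sum_nonneg fun x _ => sq_nonneg _) (fun c => ?_)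
    (by simpa using hlim'.pow 2)
  have hpc : Cor M e (MKS.pinch c.q w) := cor_pinch hA c.part hw.1
  set Z := MKS.pinch c.q w - a₀ with hZ
  have hZc : Cor M e Z := hpc.sub hac
  have hx : ∀ x, cell h c x * cell k c x - cell h c x * a = h * (c.q x * Z) * star k := by
    intro x
    have e1 : c.q x * MKS.pinch c.q w = c.q x * w * c.q x := by
      simp only [MKS.pinch, Finset.mul_sum]
      rw [Finset.sum_eq_single x (fun y _ hyx => by
        rw [← mul_assoc, ← mul_assoc, cut_mul, if_neg (Ne.symm hyx), zero_mul, zero_mul])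
        (by simp), ← mul_assoc, ← mul_assoc, cut_mul, if_pos rfl]
    rw [hZ, mul_sub (c.q x), e1, mul_sub, sub_mul]
    congr 1
    calc cell h c x * a = h * (c.q x * (star h * h)) * a₀ * star k := by
            simp only [cell, hadef, mul_assoc]
      _ = h * ((star h * h) * c.q x) * a₀ * star k := by
            rw [hA.2.1 _ (c.part.1 x).1 _ hd.1]
      _ = (h * star h * h) * (c.q x * a₀) * star k := by simp only [mul_assoc]
      _ = _ := by rw [hn.1.2.1]
  have hq : ∀ x, Cor M e (c.q x * Z) := fun x => (cut_cor hA he c x).mul he hZc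
  have hW : Cor M e (Z * star k) := hZc.mul he hks
  calc ∑ x, n2 τ (cell h c x * cell k c x - cell h c x * a) ^ 2
      ≤ ∑ x, n2 τ (c.q x * (Z * star k)) ^ 2 := Finset.sum_le_sum fun x _ => by
        rw [hx, mul_assoc h, mul_assoc (c.q x)]
        refine pow_le_pow_left₀ (n2_nonneg _) ?_ 2
        exact (n2_mul_le hτ he (hn.cor.mul he ((cut_cor hA he c x).mul he hW))
          ((cut_cor hA he c x).mul he hW)).trans
          (mul_le_of_le_one_left (n2_nonneg _) hn.norm_le)
    _ = n2 τ (Z * star k) ^ 2 := by
        set W := Z * star k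
        have hterm : ∀ x, n2 τ (c.q x * W) ^ 2 = (τ (star W * c.q x * W)).re := fun x => by
          rw [n2_sq hτ he ((cut_cor hA he c x).mul he hW), star_mul, cut_star, mul_assoc,
            ← mul_assoc (c.q x), cut_mul, if_pos rfl, ← mul_assoc]
        simp only [hterm]
        rw [← Complex.re_sum, ← map_sum, ← Finset.sum_mul, ← Finset.mul_sum, c.part.2.2,
          (hW.star' he).mul_right he, n2_sq hτ he hW]

end Vale.Agent.P078.State
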