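import Vale.Agent.P078.State.Words
import Vale.Agent.P078.State.Split
import Vale.Agent.P078.State.SpanNear
import Vale.Agent.P078.Orth.Span

/-!
The span of the alternating words of a state is invariant under the corner and under random
fields.
-/

namespace Vale.Agent.P078.State

open Filter Topology MKS Singular
open Orth (Cut fine Rand cst nr Good good_cst NorC Perp Ltr PiW FW KW Sums Dec Lin normSpan_mul'
  alg_mem_normSpan cst_mul norC_e)

set_option linter.unusedSectionVars false

variable {H : Type} [NormedAddCommGroup H] [InnerProductSpace ℂ H] [CompleteSpace H]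
variable {M A : VonNeumannAlgebra H} {e : H →L[ℂ] H} {τ : (H →L[ℂ] H) →ₗ[ℂ] ℂ}
variable {L : Type} [Fintype L] {μ : L → ℝ}

section

variable (S : Setting M A e τ μ)
include S

theorem kw_good {G : Rand A e L} (h : KW M A e τ μ G) : Good M G := by
  rcases h with ⟨z, hz, rfl⟩ | h
  exacts [good_cst (span_cor S hz), fw_good S h]

theorem kw_goodR {G : Rand A e L} (h : KW M A e τ μ G) : GoodR M τ G := by
  rcases h with ⟨z, hz, rfl⟩ | h
  exacts [goodR_cst S (span_cor S hz), fw_goodR S h]

theorem words_sums_good {P : Rand A e L → Prop} (hP : ∀ G, P G → Good M G) {F : Rand A e L}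
    (h : Sums P F) : Good M F := by
  induction h with
  | zero => exact Good.zero
  | cons G K hG _ ih => exact (hP G hG).add ih

theorem dec_good {G : Rand A e L} (h : Dec M A e τ μ G) : Good M G := by
  obtain ⟨K, Q, hK, hQ, rfl⟩ := h
  exact (words_sums_good S (fun G => kw_good S) hK).add (words_sums_good S (fun G => piW_good S) hQ)

theorem words_sums_goodR {P : Rand A e L → Prop} (hP : ∀ G, P G → GoodR M τ G) {F : Rand A e L}
    (h : Sums P F) : GoodR M τ F := by
  induction h with
  | zero => exact GoodR.zero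
  | cons G K hG _ ih => exact (hP G hG).add S ih

theorem dec_goodR {G : Rand A e L} (h : Dec M A e τ μ G) : GoodR M τ G := by
  obtain ⟨K, Q, hK, hQ, rfl⟩ := h
  exact (words_sums_goodR S (fun G => kw_goodR S) hK).add S
    (words_sums_goodR S (fun G => piW_goodR S) hQ)

theorem ltr_comm {w : Ltr H L} (hw : w.Ok M A e μ) {a : H →L[ℂ] H} (ha : a ∈ A) :
    (cst a * w.val : Rand A e L) = w.val * cst a :=
  (val_comm S hw.1 w.f ha).symm

theorem piW_kw {m : H →L[ℂ] H} (hm : Perp M A e τ m) {K : Rand A e L} (hK : KW M A e τ μ K) :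
    PiW M A e τ μ (cst m * K) := by
  rcases hK with ⟨z, hz, rfl⟩ | hK
  · exact PiW.base _ (perp_right' S hm hz)
  · cases hK with
    | last w hw z hz => exact PiW.last _ hm w hw z hz
    | step w hw G hG => exact PiW.step _ hm w hw G hG

theorem piW_head {G : Rand A e L} (h : PiW M A e τ μ G) :
    ∃ m K, Perp M A e τ m ∧ KW M A e τ μ K ∧ G = cst m * K := by
  cases h with
  | base m hm =>
    exact ⟨m, cst e, hm, Or.inl ⟨e, e_mem_span S, rfl⟩, (mul_cst_e S (good_cst hm.1)).symm⟩
  | last m hm w hw z hz => exact ⟨m, _, hm, Or.inr (FW.last w hw z hz), rfl⟩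
  | step m hm w hw G hG => exact ⟨m, _, hm, Or.inr (FW.step w hw G hG), rfl⟩

theorem span_fw : ∀ {z : H →L[ℂ] H}, z ∈ normSpan M A e → ∀ F : Rand A e L, FW M A e τ μ F →
    Sums (KW M A e τ μ) (cst z * F) := by
  intro z hz
  induction hz using Submodule.span_induction with
  | zero =>
    intro F _
    rw [show (cst (0 : H →L[ℂ] H) * F : Rand A e L) = 0 by funext c ω; simp [cst]]
    exact Sums.zero
  | add x y _ _ hx hy =>
    intro F hF
    rw [show (cst (x + y) * F : Rand A e L) = cst x * F + cst y * F by rw [← add_mul]; rfl]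
    exact (hx F hF).add (hy F hF)
  | smul t x _ hx =>
    intro F hF
    have hte : t • e ∈ normSpan M A e := Submodule.smul_mem _ _ (e_mem_span S)
    have hteA : t • e ∈ A := A.toStarSubalgebra.smul_mem S.heA t
    have hFg := fw_good S hF
    have h' : (cst (t • x) * F : Rand A e L) = cst x * (cst (t • e) * F) := by
      obtain ⟨_, _, hg⟩ := hFg
      funext c ω
      show t • x * F c ω = x * (t • e * F c ω)
      rw [smul_mul_assoc, smul_mul_assoc, (hg c ω).1.mul_left S.he, mul_smul_comm]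
    rw [h']
    refine hx _ ?_
    cases hF with
    | last w hw u hu =>
      rw [← mul_assoc, ltr_comm S hw hteA,
        mul_assoc, cst_mul]
      exact FW.last w hw _ (normSpan_mul' S.hA S.heA S.he hte hu)
    | step w hw G hG =>
      rw [← mul_assoc, ltr_comm S hw hteA,
        mul_assoc]
      exact FW.step w hw _ (piW_cmul S hG hte)
  | mem g hg =>
    intro F hF
    obtain ⟨hge, a, ha, v, hv, rfl⟩ := hg
    obtain ⟨b, hb, w, hw, heq⟩ := gen_split S.hA S.heA S.he ha hv hge
    rw [heq]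
    exact Sums.single (Or.inr (fw_gen S hb hw
      (heq ▸ Submodule.subset_span ⟨hge, a, ha, v, hv, rfl⟩) hF))

/-- An element of the corner is close to a sum of an element of the span of the normaliser and
one orthogonal to it, with a bound on the norms. -/
theorem split_near {x : H →L[ℂ] H} (hx : Cor M e x) {η : ℝ} (hη : 0 < η) :
    ∃ z ∈ normSpan M A e, ∃ m, Perp M A e τ m ∧ ‖x - (z + m)‖ ≤ 7 * ‖x‖ ∧
      n2 τ (x - (z + m)) ≤ η := by
  have key : ∀ a : H →L[ℂ] H, Cor M e a → IsSelfAdjoint a → ∀ η : ℝ, 0 < η →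
      ∃ z ∈ normSpan M A e, ∃ m, Perp M A e τ m ∧ ‖z + m‖ ≤ 3 * ‖a‖ ∧
        n2 τ (a - (z + m)) ≤ η := by
    intro a ha has η hη
    obtain ⟨y, hy, hys, hyn, hyb, hperp⟩ := split_ok H M A e τ S.hA S.heA S.he S.hS a ha has
    obtain ⟨u, hu, -, hun, hd⟩ := span_near_sa so_ok S.hA S.heA S.he S.hS hy hys hyb hη
    refine ⟨u, hu, a - y, hperp, ?_, ?_⟩
    · linarith [norm_add_le u (a - y), norm_sub_le a y]
    · rwa [show a - (u + (a - y)) = y - u by abel]
  set a := (2⁻¹ : ℂ) • (x + star x) with hadef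
  set b := (-Complex.I * 2⁻¹) • (x - star x) with hbdef
  have hxs := hx.star' S.he
  have has : IsSelfAdjoint a := by
    show star a = a
    simp [hadef, star_smul, add_comm]
  have hbs : IsSelfAdjoint b := by
    show star b = b
    simp only [hbdef, star_smul, star_sub, star_star, star_mul', star_neg, Complex.star_def,
      Complex.conj_I, neg_neg]
    rw [← neg_sub x (star x), smul_neg, ← neg_smul]
    simp [map_ofNat]
  have hab : x = a + Complex.I • b := by
    rw [hadef, hbdef, smul_smul]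
    have : Complex.I * (-Complex.I * 2⁻¹) = 2⁻¹ := by
      rw [← mul_assoc, mul_neg, Complex.I_mul_I, neg_neg, one_mul]
    rw [this, ← smul_add, add_add_sub_cancel, ← two_smul ℂ x, smul_smul]
    simp
  have hn : ∀ c : ℂ, ‖c‖ = 2⁻¹ → ∀ w : H →L[ℂ] H, ‖w‖ ≤ 2 * ‖x‖ → ‖c • w‖ ≤ ‖x‖ := by
    intro c hc w hw
    rw [norm_smul, hc]; linarith
  have hna : ‖a‖ ≤ ‖x‖ := hn _ (by simp) _ ((norm_add_le _ _).trans (by rw [norm_star]; linarith))
  have hnb : ‖b‖ ≤ ‖x‖ := hn _ (by simp) _ ((norm_sub_le _ _).trans (by rw [norm_star]; linarith))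
  obtain ⟨z₁, hz₁, m₁, hm₁, n₁, h1⟩ := key a ((hx.add hxs).csmul _) has (η / 2) (half_pos hη)
  obtain ⟨z₂, hz₂, m₂, hm₂, n₂, h2⟩ := key b ((hx.sub hxs).csmul _) hbs (η / 2) (half_pos hη)
  refine ⟨z₁ + Complex.I • z₂, add_mem hz₁ (Submodule.smul_mem _ _ hz₂), m₁ + Complex.I • m₂,
    hm₁.add (hm₂.smul _), ?_, ?_⟩
  · rw [show z₁ + Complex.I • z₂ + (m₁ + Complex.I • m₂) =
      (z₁ + m₁) + Complex.I • (z₂ + m₂) by rw [smul_add]; abel]
    refine (norm_sub_le _ _).trans ?_
    have := norm_add_le (z₁ + m₁) (Complex.I • (z₂ + m₂))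
    rw [norm_smul, Complex.norm_I, one_mul] at this
    linarith
  · have e1 : x - (z₁ + Complex.I • z₂ + (m₁ + Complex.I • m₂)) =
        (a - (z₁ + m₁)) + Complex.I • (b - (z₂ + m₂)) := by
      rw [hab, smul_sub, smul_add]; abel
    have c1 : Cor M e (a - (z₁ + m₁)) :=
      ((hx.add hxs).csmul _).sub ((span_cor S hz₁).add hm₁.1)
    have c2 : Cor M e (b - (z₂ + m₂)) :=
      ((hx.sub hxs).csmul _).sub ((span_cor S hz₂).add hm₂.1)
    rw [e1]
    refine (n2_add_le S.hS S.he c1 (c2.csmul _)).trans ?_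
    rw [n2_csmul, Complex.norm_I, one_mul]
    linarith

theorem near_dec_kw {x : H →L[ℂ] H} (hx : Cor M e x) {K : Rand A e L} (hK : KW M A e τ μ K) :
    Near M τ μ (Dec M A e τ μ) (cst x * K) := by
  intro η hη
  rcases hK with ⟨z, hz, rfl⟩ | hF
  · obtain ⟨z', hz', m', hm', -, hd⟩ := split_near S (hx.mul S.he (span_cor S hz)) hη
    refine ⟨cst (z' + m'), ?_, goodR_cst S ((span_cor S hz').add hm'.1),
      Eventually.of_forall fun c => ?_⟩
    · exact (Dec.of_k (Sums.single (Or.inl ⟨z', hz', rfl⟩))).add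
        (Dec.of_q (Sums.single (PiW.base m' hm')))
    · show nr τ μ (cst (x * z - (z' + m'))) c ≤ η
      rw [nr_cst S]; exact hd
  · have hKR := fw_goodR S hF
    obtain ⟨δ, hδ, hR⟩ := nr_right S hKR (7 * ‖x‖) hη
    obtain ⟨z', hz', m', hm', hn, hd⟩ := split_near S hx hδ
    have huc := (span_cor S hz').add hm'.1
    refine ⟨cst (z' + m') * K, ?_, (goodR_cst S huc).mul S hKR,
      Eventually.of_forall fun c => ?_⟩
    · rw [show (cst (z' + m') * K : Rand A e L) = cst z' * K + cst m' * K by rw [← add_mul]; rfl]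
      exact (Dec.of_k (span_fw S hz' K hF)).add
        (Dec.of_q (Sums.single (piW_kw S hm' (Or.inr hF))))
    · rw [← sub_mul]
      have hb : ∀ (c' : Cut A e) (ω : Fin c'.n → L),
          Cor M e ((cst (x - (z' + m')) : Rand A e L) c' ω) ∧
            ‖(cst (x - (z' + m')) : Rand A e L) c' ω‖ ≤ 7 * ‖x‖ :=
        fun _ _ => ⟨hx.sub huc, hn⟩
      show nr τ μ ((cst (x - (z' + m')) : Rand A e L) * K) c ≤ η
      exact hR _ hb c ((nr_cst S _ c).trans_le hd)

theorem near_sums {P : Rand A e L → Prop} (hP : ∀ G, P G → Good M G) {R : Rand A e L}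
    (hR : Good M R) (h : ∀ G, P G → Near M τ μ (Dec M A e τ μ) (R * G)) {F : Rand A e L}
    (hF : Sums P F) : Near M τ μ (Dec M A e τ μ) (R * F) := by
  induction hF with
  | zero => rw [mul_zero]; exact Near.self Dec.zero GoodR.zero
  | cons G K hG hK ih =>
    rw [mul_add]
    exact Near.add S (hR.mul S.he (hP G hG)) (hR.mul S.he (words_sums_good S hP hK)) (h G hG) ih
      fun a b => Dec.add

/-- Left multiplication by the corner preserves the span. -/
theorem near_dec_cmul {x : H →L[ℂ] H} (hx : Cor M e x) {G : Rand A e L}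
    (hG : Dec M A e τ μ G) : Near M τ μ (Dec M A e τ μ) (cst x * G) := by
  obtain ⟨K, Q, hK, hQ, rfl⟩ := hG
  rw [mul_add]
  refine Near.add S ((good_cst hx).mul S.he (words_sums_good S (fun G => kw_good S) hK))
    ((good_cst hx).mul S.he (words_sums_good S (fun G => piW_good S) hQ))
    (near_sums S (fun G => kw_good S) (good_cst hx) (fun G hG => near_dec_kw S hx hG) hK)
    (near_sums S (fun G => piW_good S) (good_cst hx) (fun G hG => ?_) hQ) fun a b => Dec.add
  obtain ⟨m, K', hm, hK', rfl⟩ := piW_head S hG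
  rw [← mul_assoc, cst_mul]
  exact near_dec_kw S (hx.mul S.he hm.1) hK'

theorem cmul_kw {a : H →L[ℂ] H} (ha : a ∈ A) (hc : Cor M e a) {K : Rand A e L}
    (hK : KW M A e τ μ K) : KW M A e τ μ (cst a * K) := by
  have hz := alg_mem_normSpan ha hc.2 (M := M)
  rcases hK with ⟨z, hz', rfl⟩ | hF
  · exact Or.inl ⟨a * z, normSpan_mul' S.hA S.heA S.he hz hz', rfl⟩
  · refine Or.inr ?_
    cases hF with
    | last w hw z hz' =>
      rw [← mul_assoc, ltr_comm S hw ha, mul_assoc,
        cst_mul]
      exact FW.last w hw _ (normSpan_mul' S.hA S.heA S.he hz hz')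
    | step w hw G hG =>
      rw [← mul_assoc, ltr_comm S hw ha, mul_assoc]
      exact FW.step w hw _ (piW_cmul S hG hz)

theorem lin_mul_base {G T : Rand A e L} (hG : Lin M A e μ G)
    (hT : (∃ z ∈ normSpan M A e, T = cst z) ∨ PiW M A e τ μ T) : Dec M A e τ μ (G * T) := by
  induction hG with
  | base a ha hc =>
    rcases hT with hT | hT
    · exact Dec.of_k (Sums.single (cmul_kw S ha hc (Or.inl hT)))
    · exact Dec.of_q (Sums.single (piW_cmul S hT (alg_mem_normSpan ha hc.2)))
  | val a ha hc h hn f hf =>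
    refine Dec.of_k (Sums.single ?_)
    rw [mul_assoc]
    refine cmul_kw S ha hc (Or.inr ?_)
    rcases hT with ⟨z, hz, rfl⟩ | hT
    · exact FW.last ⟨_, h, f⟩ ⟨hn, hf⟩ z hz
    · exact FW.step ⟨_, h, f⟩ ⟨hn, hf⟩ T hT
  | add G G' _ _ h h' => rw [add_mul]; exact h.add h'

theorem near_lin_word {R T : Rand A e L} (hR : Lin M A e μ R)
    (hT : KW M A e τ μ T ∨ PiW M A e τ μ T) : Near M τ μ (Dec M A e τ μ) (R * T) := by
  rcases hT with (hT | hT) | hT
  · exact Near.self (lin_mul_base S hR (Or.inl hT))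
      ((goodR_lin S hR).mul S (kw_goodR S (Or.inl hT)))
  · -- two tuple sums meet
    have key : ∀ (w : Ltr H L), w.Ok M A e μ → ∀ T' : Rand A e L,
        ((∃ z ∈ normSpan M A e, T' = cst z) ∨ PiW M A e τ μ T') → GoodR M τ T' →
        Near M τ μ (Dec M A e τ μ) (R * (w.val * T')) := by
      intro w hw T' hT' hT'g
      rw [← mul_assoc]
      refine Lim.near ?_
      refine ((near_poly_val S hw.1 w.f).mul_left S (lin_good S hR) (good_ltr S hw)
        fun G hG _ => near_lin_mul_poly S hR hG).mul_right S hT'g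
          ((lin_good S hR).mul S.he (good_ltr S hw)) fun G hG hGg => ?_
      exact Lim.self (lin_mul_base S hG hT') (hGg.mul S hT'g)
    cases hT with
    | last w hw z hz => exact key w hw _ (Or.inl ⟨z, hz, rfl⟩) (goodR_cst S (span_cor S hz))
    | step w hw G hG => exact key w hw _ (Or.inr hG) (piW_goodR S hG)
  · exact Near.self (lin_mul_base S hR (Or.inr hT)) ((goodR_lin S hR).mul S (piW_goodR S hT))

/-- Left multiplication by a combination of tuple sums preserves the span. -/
theorem near_dec_lin {R : Rand A e L} (hR : Lin M A e μ R) {G : Rand A e L}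
    (hG : Dec M A e τ μ G) : Near M τ μ (Dec M A e τ μ) (R * G) := by
  obtain ⟨K, Q, hK, hQ, rfl⟩ := hG
  rw [mul_add]
  exact Near.add S ((lin_good S hR).mul S.he (words_sums_good S (fun G => kw_good S) hK))
    ((lin_good S hR).mul S.he (words_sums_good S (fun G => piW_good S) hQ))
    (near_sums S (fun G => kw_good S) (lin_good S hR)
      (fun G hG => near_lin_word S hR (Or.inl hG)) hK)
    (near_sums S (fun G => piW_good S) (lin_good S hR)
      (fun G hG => near_lin_word S hR (Or.inr hG)) hQ) fun a b => Dec.add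

end

end Vale.Agent.P078.State
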