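import Vale.Agent.P078.State.Bound
import Vale.Agent.P078.State.Uniform
import Vale.Agent.P078.State.Span
import Vale.Agent.P078.State.Closed

/-!
Random fields pave operators orthogonal to the normaliser of a MASA, for states.
-/

namespace Vale.Agent.P078.State

open Filter Topology MKS Singular
open Orth (Rand Cut avg Centred val weight mean inj mem_inj VPoly Lin)

set_option linter.unusedSectionVars false

variable {H : Type} [NormedAddCommGroup H] [InnerProductSpace ℂ H] [CompleteSpace H]
variable {M A : VonNeumannAlgebra H} {e : H →L[ℂ] H} {φ : (H →L[ℂ] H) →ₗ[ℂ] ℂ}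
variable {L : Type} [Fintype L] {μ : L → ℝ}

/-- Centred tuple sums have mean zero. -/
theorem avg_val_zero (S : Setting M A e φ μ) {d : ℕ} {h : Fin (d + 1) → (H →L[ℂ] H)}
    {f : Fin (d + 1) → L → ℝ} (hf : Centred μ f) (c : Cut A e) :
    avg μ (fun ω => val h f c ω) = 0 := by
  simp only [val, avg, Finset.smul_sum, smul_smul]
  rw [Finset.sum_comm]
  refine Finset.sum_eq_zero fun i hi => ?_
  rw [← Finset.sum_smul]
  have h1 := avg_prod_blocks S f id i (mem_inj.1 hi)
  simp only [avg, id, smul_eq_mul] at h1
  simp only [weight]
  rw [h1, Finset.prod_eq_zero (Finset.mem_univ (0 : Fin (d + 1))), zero_smul]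
  rw [show (Finset.univ.filter fun o : Fin (d + 1) => o = 0) = {0} by ext; simp]
  simpa using hf 0

/-- The words satisfy what the bound needs. -/
theorem word_facts (S : Setting M A e φ μ) : WordFacts M A e φ μ where
  inner _ _ hG hK := tendsto_inner S core_closed hG hK
  piW_goodR _ h := piW_goodR S h
  kw_goodR _ h := kw_goodR S h
  piW_kw _ hm _ hK := piW_kw S hm hK
  cmul_kw _ ha hc _ hK := cmul_kw S ha hc hK
  dec_cmul _ hx _ hG := near_dec_cmul S hx hG
  dec_lin _ hR _ hG := near_dec_lin S hR hG
  lin_of_poly _ h := near_lin_of_poly S h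
  avg_val _ _ _ hf c := avg_val_zero S hf c

/-- Random fields with small mean pave operators orthogonal to the normaliser. -/
theorem general_noise_ok : GeneralNoiseStatement :=
  general_noise_of_facts fun _ _ _ _ _ _ _ _ _ _ _ S => word_facts S

/-- Uniform colours pave operators orthogonal to the normaliser. -/
theorem noise_ok : NoiseStatement :=
  noise_of_general general_noise_ok

end Vale.Agent.P078.State
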