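import Vale.Agent.P078.State.Letters
import Vale.Agent.P078.Orth.Reduce

/-!
Polynomials in translated functions of the labels reduce to combinations of centred tuple sums.
-/

namespace Vale.Agent.P078.State

open Filter Topology MKS Singular
open Orth (Cut cell fine NorC Rand cst nr Good good_cst inj mem_inj cells cells_zero cells_corner
  weight val veeR merge weight_update vee sum_cell mean center Centred VPoly Lin val_zero
  val_mul_vee)

set_option linter.unusedSectionVars false

variable {H : Type} [NormedAddCommGroup H] [InnerProductSpace ℂ H] [CompleteSpace H]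
variable {M A : VonNeumannAlgebra H} {e : H →L[ℂ] H} {τ : (H →L[ℂ] H) →ₗ[ℂ] ℂ}
variable {L : Type} [Fintype L] {μ : L → ℝ}

section

variable (S : Setting M A e τ μ)
include S

theorem mean_center (g : L → ℝ) : mean μ (center μ g) = 0 := by
  simp [mean, center, mul_sub, Finset.sum_sub_distrib, ← Finset.sum_mul, S.sum]

theorem cst_e_mul {G : Rand A e L} (hG : Good M G) : cst e * G = G := by
  obtain ⟨_, _, hG⟩ := hG
  funext c ω
  exact (hG c ω).1.mul_left S.he

theorem poly_good {G : Rand A e L} (h : VPoly M A e G) : Good M G := by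
  induction h with
  | base a _ hc => exact good_cst hc
  | vee G k g kn _ ih => exact ih.mul S.he (good_vee S kn g)
  | add G G' _ _ h h' => exact h.add h'

theorem lin_good {G : Rand A e L} (h : Lin M A e μ G) : Good M G := by
  induction h with
  | base a _ hc => exact good_cst hc
  | val a _ hc h hn f _ => exact (good_cst hc).mul S.he (good_val S hn f)
  | add G G' _ _ h h' => exact h.add h'

theorem goodR_poly {G : Rand A e L} (h : VPoly M A e G) : GoodR M τ G := by
  induction h with
  | base a _ hc => exact goodR_cst S hc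
  | vee G k g kn _ ih => exact ih.mul S (goodR_vee S kn g)
  | add G G' _ _ h h' => exact h.add S h'

theorem goodR_lin {G : Rand A e L} (h : Lin M A e μ G) : GoodR M τ G := by
  induction h with
  | base a _ hc => exact goodR_cst S hc
  | val a _ hc h hn f _ => exact (goodR_cst S hc).mul S (goodR_val S hn f)
  | add G G' _ _ h h' => exact h.add S h'

theorem lim_of {P : Rand A e L → Prop} {F G : Rand A e L} (hP : P G) (hG : GoodR M τ G)
    (h : Tendsto (nr τ μ (F - G)) (fine A e) (𝓝 0)) : Lim M τ μ P F := ⟨G, hP, hG, h⟩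

theorem lin_cmul {b : H →L[ℂ] H} (hb : b ∈ A) (bc : Cor M e b) {G : Rand A e L}
    (h : Lin M A e μ G) : Lin M A e μ (cst b * G) := by
  induction h with
  | base a ha hc => exact Lin.base (b * a) (mul_mem hb ha) (bc.mul S.he hc)
  | val a ha hc h hn f hf =>
    rw [← mul_assoc]
    exact Lin.val (b * a) (mul_mem hb ha) (bc.mul S.he hc) h hn f hf
  | add G G' _ _ h h' => rw [mul_add]; exact h.add _ _ h'

theorem poly_cmul {b : H →L[ℂ] H} (hb : b ∈ A) (bc : Cor M e b) {G : Rand A e L}
    (h : VPoly M A e G) : VPoly M A e (cst b * G) := by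
  induction h with
  | base a ha hc => exact VPoly.base (b * a) (mul_mem hb ha) (bc.mul S.he hc)
  | vee G k g kn _ ih => rw [← mul_assoc]; exact ih.vee _ k g kn
  | add G G' _ _ h h' => rw [mul_add]; exact h.add _ _ h'

theorem lin_zero : Lin M A e μ (0 : Rand A e L) := Lin.base 0 (zero_mem A) Cor.zero

theorem near_lin_sub {F G : Rand A e L} (hF : Good M F) (hG : Good M G)
    (h : Lim M τ μ (Lin M A e μ) F) (h' : Lim M τ μ (Lin M A e μ) G) :
    Lim M τ μ (Lin M A e μ) (F - G) := by
  have hneg : F - G = F + cst (-e) * G := by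
    rw [sub_eq_add_neg]
    congr 1
    obtain ⟨_, _, hG⟩ := hG
    funext c ω
    show -G c ω = -e * G c ω
    rw [neg_mul, (hG c ω).1.mul_left S.he]
  rw [hneg]
  exact Lim.add S hF ((good_cst (cor_e S).neg).mul S.he hG) h
    (h'.mul_left S (good_cst (cor_e S).neg) hG fun K hK hKg => Lim.self
      (lin_cmul S (neg_mem S.heA) (cor_e S).neg hK) ((goodR_cst S (cor_e S).neg).mul S hKg))
    fun a b ha hb => ha.add _ _ hb

theorem near_cmul {P : Rand A e L → Prop} (hP : ∀ b ∈ A, Cor M e b → ∀ G, P G → P (cst b * G))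
    {b : H →L[ℂ] H} (hb : b ∈ A) (bc : Cor M e b) {F : Rand A e L} (hF : Good M F)
    (h : Lim M τ μ P F) : Lim M τ μ P (cst b * F) :=
  h.mul_left S (good_cst bc) hF fun K hK hKg =>
    Lim.self (hP b hb bc K hK) ((goodR_cst S bc).mul S hKg)

theorem veeR_one {k : H →L[ℂ] H} (kn : NorC M A e k) :
    (veeR k (fun _ => 1) : Rand A e L) = cst (k * star k) := by
  funext c ω
  simp only [veeR, vee, one_smul]
  exact sum_cell (kn.cor.mul_right S.he) c

theorem veeR_split {k : H →L[ℂ] H} (kn : NorC M A e k) (g : L → ℝ) :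
    (veeR k g : Rand A e L) =
      veeR k (center μ g) + cst ((mean μ g) • (k * star k)) := by
  funext c ω
  simp only [veeR, vee, cst, Pi.add_apply, center, sub_smul, Finset.sum_sub_distrib,
    ← Finset.smul_sum, sum_cell (kn.cor.mul_right S.he) c, sub_add_cancel]

theorem val_update_split {d : ℕ} {h : Fin d → (H →L[ℂ] H)} (hn : ∀ t, NorC M A e (h t))
    (f : Fin d → L → ℝ) (s : Fin d) (g : L → ℝ) :
    (val h (Function.update f s g) : Rand A e L) = val h (Function.update f s (center μ g)) +
      cst (mean μ g • e) * val h (Function.update f s fun _ => 1) := by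
  funext c ω
  simp only [Pi.add_apply, Pi.mul_apply, cst, val, Finset.mul_sum, ← Finset.sum_add_distrib]
  refine Finset.sum_congr rfl fun i _ => ?_
  rw [smul_mul_smul_comm, (cells_corner S.hA S.heA S.he (fun t => (hn t).1) c i).mul_left S.he,
    ← add_smul]
  congr 1
  simp only [weight_update, center]
  ring

theorem perm_last {d : ℕ} {h : Fin (d + 1) → (H →L[ℂ] H)} (hn : ∀ t, NorC M A e (h t))
    (f : Fin (d + 1) → L → ℝ) (s : Fin (d + 1)) (g : L → ℝ) :
    ∃ (h₀ : Fin d → (H →L[ℂ] H)) (f₀ : Fin d → L → ℝ) (k : H →L[ℂ] H),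
      (∀ t, NorC M A e (h₀ t)) ∧ NorC M A e k ∧ (∀ t, ∃ u, u ≠ s ∧ f₀ t = f u) ∧
      (val h (Function.update f s g) : Rand A e L) = val (Fin.snoc h₀ k) (Fin.snoc f₀ g) := by
  set σ := Equiv.swap s (Fin.last d) with hσ
  refine ⟨fun t => h (σ t.castSucc), fun t => f (σ t.castSucc), h s, fun t => hn _, hn s,
    fun t => ⟨σ t.castSucc, fun hs => ?_, rfl⟩, ?_⟩
  · have := congrArg σ hs
    rw [hσ, Equiv.swap_apply_self, Equiv.swap_apply_left] at this
    exact absurd this (Fin.castSucc_lt_last t).ne
  · rw [← val_perm S hn (Function.update f s g) σ]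
    congr 1
    · funext t
      induction t using Fin.lastCases with
      | last => simp [hσ]
      | cast u => simp
    · funext t
      induction t using Fin.lastCases with
      | last => simp [hσ]
      | cast u =>
        have hne : σ u.castSucc ≠ s := fun hs => by
          have := congrArg σ hs
          rw [hσ, Equiv.swap_apply_self, Equiv.swap_apply_left] at this
          exact absurd this (Fin.castSucc_lt_last u).ne
        simp [hne]

theorem good_cmul_val {d : ℕ} {a : H →L[ℂ] H} (hc : Cor M e a) {h : Fin d → (H →L[ℂ] H)}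
    (hn : ∀ t, NorC M A e (h t)) (f : Fin d → L → ℝ) :
    Good M (cst a * val h f : Rand A e L) :=
  (good_cst hc).mul S.he (good_val S hn f)

theorem goodR_cmul_val {d : ℕ} {a : H →L[ℂ] H} (hc : Cor M e a) {h : Fin d → (H →L[ℂ] H)}
    (hn : ∀ t, NorC M A e (h t)) (f : Fin d → L → ℝ) :
    GoodR M τ (cst a * val h f : Rand A e L) :=
  (goodR_cst S hc).mul S (goodR_val S hn f)

theorem lin_val_any {d : ℕ} {h : Fin d → (H →L[ℂ] H)} (hn : ∀ t, NorC M A e (h t))
    {f : Fin d → L → ℝ} (hf : Centred μ f) : Lin M A e μ (val h f) := by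
  cases d with
  | zero => rw [val_zero]; exact Lin.base e S.heA (cor_e S)
  | succ d =>
    rw [← cst_e_mul S (good_val S hn f)]
    exact Lin.val e S.heA (cor_e S) h hn f hf

/-- A tuple sum with one unweighted entry. -/
theorem near_one {d : ℕ} {h : Fin d → (H →L[ℂ] H)} (hn : ∀ t, NorC M A e (h t))
    (f : Fin d → L → ℝ) (s : Fin d) (hf : ∀ t, t ≠ s → mean μ (f t) = 0) :
    Lim M τ μ (Lin M A e μ) (val h (Function.update f s fun _ => 1) : Rand A e L) := by
  cases d with
  | zero => exact s.elim0
  | succ d =>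
    obtain ⟨h₀, f₀, k, h₀n, kn, hf₀, heq⟩ := perm_last S hn f s fun _ => (1 : ℝ)
    have f₀c : Centred μ f₀ := fun t => by
      obtain ⟨u, hu, hut⟩ := hf₀ t
      rw [hut]; exact hf u hu
    have hg0 := good_val S h₀n f₀ (A := A)
    rw [heq, show (val (Fin.snoc h₀ k) (Fin.snoc f₀ fun _ => (1 : ℝ)) : Rand A e L) =
      cst (k * star k) * val h₀ f₀ - ∑ t, merge h₀ f₀ k (fun _ => 1) t by
        rw [← val_comm S h₀n f₀ kn.dom_mem.2, ← veeR_one S kn, val_mul_vee, add_sub_cancel_right]]
    have kc : Cor M e (k * star k) := kn.cor.mul S.he (kn.cor.star' S.he)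
    refine near_lin_sub S (good_cmul_val S kc h₀n f₀)
      (Good.sum _ fun t _ => good_merge S h₀n f₀ kn _ t)
      (Lim.self (lin_cmul S kn.dom_mem.2 kc (lin_val_any S h₀n f₀c)) (goodR_cmul_val S kc h₀n f₀))
      (Lim.sum S _ (fun a b ha hb => ha.add _ _ hb) (lin_zero S)
        (fun t _ => good_merge S h₀n f₀ kn _ t) fun t _ => ?_)
    obtain ⟨a, ha, hac, hlim⟩ := merge_approx S h₀n f₀ kn (fun _ => (1 : ℝ)) t
    rw [show Function.update f₀ t (f₀ t * fun _ => (1 : ℝ)) = f₀ by
      rw [show (f₀ t * fun _ => (1 : ℝ)) = f₀ t from funext fun l => mul_one _,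
        Function.update_eq_self]] at hlim
    exact lim_of S (lin_cmul S ha hac (lin_val_any S h₀n f₀c))
      (goodR_cmul_val S hac h₀n f₀) hlim

/-- A repeated cell in a centred tuple sum. -/
theorem near_merge {d : ℕ} {h : Fin d → (H →L[ℂ] H)} (hn : ∀ t, NorC M A e (h t))
    {f : Fin d → L → ℝ} (hf : Centred μ f) {k : H →L[ℂ] H} (kn : NorC M A e k) (g : L → ℝ)
    (s : Fin d) : Lim M τ μ (Lin M A e μ) (merge h f k g s : Rand A e L) := by
  obtain ⟨a, ha, hac, hlim⟩ := merge_approx S hn f kn g s
  set F : Rand A e L := cst a * val h (Function.update f s (f s * g))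
  have hF : Good M F := good_cmul_val S hac hn _
  refine (lim_of S (P := fun G => G = F) rfl (goodR_cmul_val S hac hn _) hlim).bind S (good_merge S hn f kn g s)
    fun G hG _ => hG ▸ ?_
  refine near_cmul S (fun b hb bc G hG => lin_cmul S hb bc hG) ha hac (good_val S hn _) ?_
  rw [val_update_split S hn]
  have mc : Cor M e (mean μ (f s * g) • e) := (cor_e S).rsmul _
  refine Lim.add S (good_val S hn _) (good_cmul_val S mc hn _)
    (Lim.self (lin_val_any S hn fun t => ?_) (goodR_val S hn _))
    (near_cmul S (fun b hb bc G hG => lin_cmul S hb bc hG) (vn_smul A _ S.heA) mc (good_val S hn _)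
      (near_one S hn f s fun t _ => hf t))
    fun a b ha hb => ha.add _ _ hb
  rcases eq_or_ne t s with rfl | ht
  · rw [Function.update_self]; exact mean_center S _
  · rw [Function.update_of_ne ht]; exact hf t

/-- A centred tuple sum times one translated label function. -/
theorem near_val_vee {d : ℕ} {h : Fin d → (H →L[ℂ] H)} (hn : ∀ t, NorC M A e (h t))
    {f : Fin d → L → ℝ} (hf : Centred μ f) {k : H →L[ℂ] H} (kn : NorC M A e k) (g : L → ℝ) :
    Lim M τ μ (Lin M A e μ) (val h f * veeR k g : Rand A e L) := by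
  have kc : Cor M e (mean μ g • (k * star k)) := (kn.cor.mul S.he (kn.cor.star' S.he)).rsmul _
  have kA : mean μ g • (k * star k) ∈ A := vn_smul A _ kn.dom_mem.2
  have hv := good_val S hn f (A := A)
  rw [veeR_split S kn g, mul_add, val_comm S hn f kA, val_mul_vee]
  have hsn : ∀ t, NorC M A e (Fin.snoc (α := fun _ => H →L[ℂ] H) h k t) := fun t => by
    induction t using Fin.lastCases with
    | last => simpa using kn
    | cast u => simpa using hn u
  have hmg := fun t => good_merge S hn f kn (center μ g) t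
  refine Lim.add S ((good_val S hsn _).add (Good.sum _ fun t _ => hmg t)) (good_cmul_val S kc hn f)
    (Lim.add S (good_val S hsn _) (Good.sum _ fun t _ => hmg t)
      (Lim.self (lin_val_any S hsn fun t => ?_) (goodR_val S hsn _))
      (Lim.sum S _ (fun a b ha hb => ha.add _ _ hb) (lin_zero S) (fun t _ => hmg t)
        fun t _ => near_merge S hn hf kn _ t)
      fun a b ha hb => ha.add _ _ hb)
    (Lim.self (lin_cmul S kA kc (lin_val_any S hn hf)) (goodR_cmul_val S kc hn f))
    fun a b ha hb => ha.add _ _ hb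
  induction t using Fin.lastCases with
  | last => simpa using mean_center S g
  | cast u => simpa using hf u

theorem near_lin_vee {G : Rand A e L} (hG : Lin M A e μ G) {k : H →L[ℂ] H} (kn : NorC M A e k)
    (g : L → ℝ) : Lim M τ μ (Lin M A e μ) (G * veeR k g) := by
  have hv := good_vee S kn g
  induction hG with
  | base a ha hc =>
    refine near_cmul S (fun b hb bc G hG => lin_cmul S hb bc hG) ha hc hv ?_
    have h0 := near_val_vee S (h := Fin.elim0) (f := Fin.elim0) (fun t => t.elim0)
      (fun t => t.elim0) kn g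
    rwa [val_zero, cst_e_mul S hv] at h0
  | val a ha hc h hn f hf =>
    rw [mul_assoc]
    exact near_cmul S (fun b hb bc G hG => lin_cmul S hb bc hG) ha hc
      ((good_val S hn f).mul S.he hv) (near_val_vee S hn hf kn g)
  | add G G' hG hG' h h' =>
    rw [add_mul]
    exact Lim.add S ((lin_good S hG).mul S.he hv) ((lin_good S hG').mul S.he hv) h h'
      fun a b ha hb => ha.add _ _ hb

theorem near_lin_mul_poly {F : Rand A e L} (hF : Lin M A e μ F) {G : Rand A e L}
    (hG : VPoly M A e G) : Lim M τ μ (Lin M A e μ) (F * G) := by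
  have hFg := lin_good S hF
  induction hG with
  | base a ha hc =>
    have : F * cst a = cst a * F := by
      clear hFg
      induction hF with
      | base b hb _ => funext c ω; exact S.hA.2.1 _ hb _ ha
      | val b hb _ h hn f _ =>
        rw [mul_assoc, val_comm S hn f ha, ← mul_assoc, ← mul_assoc,
          show (cst b * cst a : Rand A e L) = cst a * cst b from
            funext fun c => funext fun ω => S.hA.2.1 _ hb _ ha]
      | add G G' _ _ h h' => rw [add_mul, mul_add, h, h']
    rw [this]
    exact Lim.self (lin_cmul S ha hc hF) ((goodR_cst S hc).mul S (goodR_lin S hF))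
  | vee G k g kn hG ih =>
    rw [← mul_assoc]
    exact ih.mul_right S (goodR_vee S kn g) (hFg.mul S.he (poly_good S hG))
      fun K hK _ => near_lin_vee S hK kn g
  | add G G' hG hG' h h' =>
    rw [mul_add]
    exact Lim.add S (hFg.mul S.he (poly_good S hG)) (hFg.mul S.he (poly_good S hG')) h h'
      fun a b ha hb => ha.add _ _ hb

theorem near_poly_val : ∀ {d : ℕ} {h : Fin d → (H →L[ℂ] H)}, (∀ t, NorC M A e (h t)) →
    ∀ f : Fin d → L → ℝ, Lim M τ μ (VPoly M A e) (val h f : Rand A e L)
  | 0, h, _, f => by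
    rw [val_zero]
    exact Lim.self (VPoly.base e S.heA (cor_e S)) (goodR_cst S (cor_e S))
  | d + 1, h, hn, f => by
    have h₀n : ∀ t, NorC M A e (Fin.init h t) := fun t => hn t.castSucc
    have kn := hn (Fin.last d)
    have hv := good_vee S kn (f (Fin.last d))
    have hadd := fun a b (ha : VPoly M A e a) (hb : VPoly M A e b) =>
      (VPoly.add a b ha hb : VPoly M A e (a + b : Rand A e L))
    rw [← Fin.snoc_init_self h, ← Fin.snoc_init_self f,
      show (val (Fin.snoc (Fin.init h) (h (Fin.last d)))
          (Fin.snoc (Fin.init f) (f (Fin.last d))) : Rand A e L) =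
        val (Fin.init h) (Fin.init f) * veeR (h (Fin.last d)) (f (Fin.last d)) +
          ∑ t, cst (-e) * merge (Fin.init h) (Fin.init f) (h (Fin.last d)) (f (Fin.last d)) t by
        rw [val_mul_vee, add_assoc, ← Finset.sum_add_distrib, Finset.sum_eq_zero, add_zero]
        intro t _
        funext c ω
        obtain ⟨_, _, hm⟩ := good_merge S h₀n (Fin.init f) kn (f (Fin.last d)) t (A := A)
        show merge _ _ _ _ t c ω + -e * merge _ _ _ _ t c ω = 0
        rw [neg_mul, (hm c ω).1.mul_left S.he, add_neg_cancel]]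
    have ec := (cor_e S).neg
    have hmg := fun t => good_merge S h₀n (Fin.init f) kn (f (Fin.last d)) t (A := A)
    refine Lim.add S ((good_val S h₀n _).mul S.he hv)
      (Good.sum _ fun t _ => (good_cst ec).mul S.he (hmg t))
      ((near_poly_val h₀n _).mul_right S (goodR_vee S kn _) (good_val S h₀n _) fun G hG hGg =>
        Lim.self (hG.vee _ _ _ kn) (hGg.mul S (goodR_vee S kn _)))
      (Lim.sum S _ hadd (VPoly.base 0 (zero_mem A) Cor.zero)
        (fun t _ => (good_cst ec).mul S.he (hmg t)) fun t _ => ?_) hadd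
    refine near_cmul S (fun b hb bc G hG => poly_cmul S hb bc hG) (neg_mem S.heA) ec (hmg t) ?_
    obtain ⟨a, ha, hac, hlim⟩ := merge_approx S h₀n (Fin.init f) kn (f (Fin.last d)) t
    exact (lim_of S (P := fun G => G = _) rfl (goodR_cmul_val S hac h₀n _) hlim).bind S
      (hmg t) fun G hG _ => hG ▸ near_cmul S (fun b hb bc G hG => poly_cmul S hb bc hG) ha hac
        (good_val S h₀n _) (near_poly_val h₀n _)

/-- A product of two centred tuple sums reduces. -/
theorem near_val_mul_val {d d' : ℕ} {h : Fin d → (H →L[ℂ] H)} (hn : ∀ t, NorC M A e (h t))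
    {f : Fin d → L → ℝ} (hf : Centred μ f) {h' : Fin d' → (H →L[ℂ] H)}
    (hn' : ∀ t, NorC M A e (h' t)) (f' : Fin d' → L → ℝ) :
    Lim M τ μ (Lin M A e μ) (val h f * val h' f' : Rand A e L) :=
  (near_poly_val S hn' f').mul_left S (good_val S hn f) (good_val S hn' f')
    fun _ hG _ => near_lin_mul_poly S (lin_val_any S hn hf) hG

theorem near_lin_of_poly {G : Rand A e L} (hG : VPoly M A e G) :
    Lim M τ μ (Lin M A e μ) G := by
  have := near_lin_mul_poly S (Lin.base (μ := μ) e S.heA (cor_e S)) hG
  rwa [cst_e_mul S (poly_good S hG)] at this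

end

end Vale.Agent.P078.State
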