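import Vale.Agent.P078.State.Basic

/-!
Resolvents at `i` of self-adjoint operators, cut to a corner.
-/

namespace Vale.Agent.P078.State

open MKS Singular
open scoped InnerProductSpace

variable {H : Type} [NormedAddCommGroup H] [InnerProductSpace ℂ H] [CompleteSpace H]
variable {M : VonNeumannAlgebra H} {e z : H →L[ℂ] H}

/-- The operator `z - i`. -/
noncomputable def shift (z : H →L[ℂ] H) : H →L[ℂ] H := z - Complex.I • 1

/-- The resolvent at `i` cut to the corner. -/
noncomputable def res (e z : H →L[ℂ] H) : H →L[ℂ] H := e * Ring.inverse (shift z)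

theorem isUnit_shift (hz : IsSelfAdjoint z) : IsUnit (shift z) := by
  have h : Complex.I ∉ spectrum ℂ z := fun h => by
    have := hz.mem_spectrum_eq_re h
    simpa using congrArg Complex.im this
  rw [spectrum.mem_iff, not_not, Algebra.algebraMap_eq_smul_one] at h
  rw [shift, ← neg_sub]
  exact h.neg

theorem norm_shift_ge (hz : IsSelfAdjoint z) (v : H) : ‖v‖ ≤ ‖shift z v‖ := by
  refine le_of_sq_le_sq ?_ (norm_nonneg _)
  have h0 : (⟪z v, v⟫_ℂ).im = 0 := hz.isSymmetric.im_inner_apply_self v
  have h : ‖shift z v‖ ^ 2 = ‖z v‖ ^ 2 + ‖v‖ ^ 2 := by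
    rw [shift, sub_apply, smul_apply, one_apply_eq_self, norm_sub_sq (𝕜 := ℂ), norm_smul,
      Complex.norm_I, one_mul, inner_smul_right]
    simp [h0]
  rw [h]
  nlinarith [sq_nonneg ‖z v‖]

theorem norm_inverse_shift_le (hz : IsSelfAdjoint z) : ‖Ring.inverse (shift z)‖ ≤ 1 := by
  refine ContinuousLinearMap.opNorm_le_bound _ zero_le_one fun v => ?_
  rw [one_mul]
  refine (norm_shift_ge hz _).trans (le_of_eq ?_)
  rw [← mul_apply_eq_comp, Ring.mul_inverse_cancel _ (isUnit_shift hz), one_apply_eq_self]

theorem norm_res_le (he : IsStarProjection e) (hz : IsSelfAdjoint z) : ‖res e z‖ ≤ 1 :=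
  (norm_mul_le _ _).trans (mul_le_one₀ he.norm_le (norm_nonneg _) (norm_inverse_shift_le hz))

theorem commute_inverse (hz : IsSelfAdjoint z) {T : H →L[ℂ] H} (hT : T * z = z * T) :
    T * Ring.inverse (shift z) = Ring.inverse (shift z) * T := by
  set I' := Ring.inverse (shift z)
  have h1 : I' * shift z = 1 := Ring.inverse_mul_cancel _ (isUnit_shift hz)
  have h2 : shift z * I' = 1 := Ring.mul_inverse_cancel _ (isUnit_shift hz)
  have hTs : T * shift z = shift z * T := by
    rw [shift, mul_sub, sub_mul, hT, mul_smul_comm, smul_mul_assoc, mul_one, one_mul]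
  calc T * I' = I' * shift z * T * I' := by rw [h1, one_mul]
    _ = I' * (T * shift z) * I' := by rw [hTs]; simp only [mul_assoc]
    _ = I' * T * (shift z * I') := by simp only [mul_assoc]
    _ = I' * T := by rw [h2, mul_one]

theorem commute_res (hz : IsSelfAdjoint z) {T : H →L[ℂ] H} (hT : T * z = z * T)
    (hTe : T * e = e * T) : T * res e z = res e z * T := by
  rw [res, ← mul_assoc, hTe, mul_assoc, commute_inverse hz hT, mul_assoc]

theorem cor_res (heM : e ∈ M) (he : IsStarProjection e) (hz : IsSelfAdjoint z)
    (hzc : Cor M e z) : Cor M e (res e z) := by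
  have hez : e * z = z * e := by rw [hzc.mul_left he, hzc.mul_right he]
  have hM : res e z ∈ M := mem_of_forall_commute M fun T hT =>
    commute_res hz (commutant_commute hT hzc.1).symm (commutant_commute hT heM).symm
  refine Cor.of_abs he hM (by rw [res, ← mul_assoc, he.isIdempotentElem.eq]) ?_
  rw [res, mul_assoc, ← commute_inverse hz hez, ← mul_assoc, he.isIdempotentElem.eq]

theorem res_shift (he : IsStarProjection e) (hz : IsSelfAdjoint z) {w : H →L[ℂ] H}
    (hw : Cor M e w) : res e z * (z * w - Complex.I • w) = w := by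
  have h : z * w - Complex.I • w = shift z * w := by
    rw [shift, sub_mul, smul_mul_assoc, one_mul]
  rw [h, res, mul_assoc, ← mul_assoc (Ring.inverse (shift z)),
    Ring.inverse_mul_cancel _ (isUnit_shift hz), one_mul, hw.mul_left he]

theorem shift_res (he : IsStarProjection e) (hz : IsSelfAdjoint z) (hzc : Cor M e z) :
    (z - Complex.I • e) * res e z = e := by
  have hez : e * z = z * e := by rw [hzc.mul_left he, hzc.mul_right he]
  have h : (z - Complex.I • e) * e = shift z * e := by
    rw [shift, sub_mul, sub_mul, smul_mul_assoc, smul_mul_assoc, he.isIdempotentElem.eq, one_mul]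
  have hse : shift z * e = e * shift z := by
    rw [shift, sub_mul, mul_sub, smul_mul_assoc, mul_smul_comm, mul_one, one_mul, hez]
  rw [res, ← mul_assoc, h, hse, mul_assoc, Ring.mul_inverse_cancel _ (isUnit_shift hz), mul_one]

theorem res_neg (he : IsStarProjection e) (hz : IsSelfAdjoint z) (hzc : Cor M e z) :
    res e (-z) = -star (res e z) := by
  have hez : e * z = z * e := by rw [hzc.mul_left he, hzc.mul_right he]
  have hs : shift (-z) = -star (shift z) := by
    simp only [shift, star_sub, star_smul, star_one, hz.star_eq, Complex.star_def, Complex.conj_I,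
      neg_smul, sub_neg_eq_add, neg_add, ← sub_eq_add_neg]
  have hu : IsUnit (star (shift z)) := (isUnit_shift hz).star
  have hi : Ring.inverse (-star (shift z)) = -Ring.inverse (star (shift z)) := by
    have h2 : (-star (shift z)) * (-Ring.inverse (star (shift z))) = 1 := by
      rw [neg_mul_neg, Ring.mul_inverse_cancel _ hu]
    calc Ring.inverse (-star (shift z))
        = Ring.inverse (-star (shift z)) *
          ((-star (shift z)) * (-Ring.inverse (star (shift z)))) := by rw [h2, mul_one]
      _ = _ := by rw [← mul_assoc, Ring.inverse_mul_cancel _ hu.neg, one_mul]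
  rw [res, res, hs, hi, mul_neg, star_mul, he.isSelfAdjoint.star_eq, Ring.inverse_star]
  congr 1
  have h := congrArg star (commute_inverse hz hez)
  rw [star_mul, star_mul, he.isSelfAdjoint.star_eq] at h
  exact h.symm

end Vale.Agent.P078.State
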