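import Vale.Agent.P078.State.SplitSeq
import Vale.Agent.P078.State.SpanNear
import Vale.Agent.P078.State.Resolvent
import Vale.Agent.P078.State.So
import Vale.Agent.P078.State.DiagLimit

/-!
The resolvents of a minimising sequence converge, and their limit is bounded below on the algebra
of the normaliser.
-/

namespace Vale.Agent.P078.State

open Filter Topology MKS Singular
open scoped InnerProductSpace

set_option linter.unusedSectionVars false

variable {H : Type} [NormedAddCommGroup H] [InnerProductSpace ℂ H] [CompleteSpace H]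
variable {M A : VonNeumannAlgebra H} {e : H →L[ℂ] H} {φ : (H →L[ℂ] H) →ₗ[ℂ] ℂ}

theorem step_arith {d K A' R : ℝ} (hd : 0 < d) (hK : 2 ≤ K) (hA0 : 0 ≤ A')
    (hA1 : A' ≤ d + d / (16 * K ^ 2)) (hR0 : d - 2 * (d / (16 * K ^ 2)) ≤ R)
    (hR1 : R ≤ d + d / (16 * K ^ 2)) :
    A' ^ 2 - R ^ 2 / K ^ 2 + 2 * (d / (16 * K ^ 2)) * R / K ≤ d ^ 2 - d ^ 2 / (4 * K ^ 2) := by
  obtain ⟨s, rfl⟩ : ∃ s, d = 16 * K ^ 2 * s := ⟨d / (16 * K ^ 2), by field_simp⟩
  have hK0 : 0 < K := by linarith
  rw [mul_div_cancel_left₀ _ (by positivity)] at *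
  have hs : 0 < s := pos_of_mul_pos_right hd (by positivity)
  have hR2 : 0 ≤ 16 * K ^ 2 * s - 2 * s := by
    nlinarith [mul_nonneg hs.le (show (0:ℝ) ≤ K ^ 2 - 4 by nlinarith)]
  have h1 := pow_le_pow_left₀ hA0 hA1 2
  have h2 := pow_le_pow_left₀ hR2 hR0 2
  have key : K ^ 2 * ((16 * K ^ 2 * s + s) ^ 2 - (16 * K ^ 2 * s) ^ 2) -
      (16 * K ^ 2 * s - 2 * s) ^ 2 + 2 * s * (16 * K ^ 2 * s + s) * K +
      (16 * K ^ 2 * s) ^ 2 / 4 ≤ 0 := by
    have e1 : K ^ 2 * ((16 * K ^ 2 * s + s) ^ 2 - (16 * K ^ 2 * s) ^ 2) -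
      (16 * K ^ 2 * s - 2 * s) ^ 2 + 2 * s * (16 * K ^ 2 * s + s) * K +
      (16 * K ^ 2 * s) ^ 2 / 4 =
      s ^ 2 * (-160 * K ^ 4 + 32 * K ^ 3 + 65 * K ^ 2 + 2 * K - 4) := by ring
    rw [e1]
    refine mul_nonpos_of_nonneg_of_nonpos (sq_nonneg s) ?_
    nlinarith [pow_pos hK0 3, mul_le_mul_of_nonneg_left hK (pow_nonneg hK0.le 3),
      mul_le_mul_of_nonneg_left hK (pow_nonneg hK0.le 2), mul_le_mul_of_nonneg_left hK hK0.le]
  rw [← sub_nonpos]
  have e2 : A' ^ 2 - R ^ 2 / K ^ 2 + 2 * s * R / K -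
      ((16 * K ^ 2 * s) ^ 2 - (16 * K ^ 2 * s) ^ 2 / (4 * K ^ 2)) =
      (K ^ 2 * (A' ^ 2 - (16 * K ^ 2 * s) ^ 2) - R ^ 2 + 2 * s * R * K +
        (16 * K ^ 2 * s) ^ 2 / 4) / K ^ 2 := by field_simp; ring
  rw [e2]
  refine div_nonpos_of_nonpos_of_nonneg ?_ (sq_nonneg K)
  nlinarith [mul_le_mul_of_nonneg_left h1 (sq_nonneg K),
    mul_le_mul_of_nonneg_left hR1 (show 0 ≤ 2 * s * K by positivity)]

/-- Products of bounded strongly convergent sequences converge strongly. -/
theorem strong_mul {T U : ℕ → (H →L[ℂ] H)} {T' U' : H →L[ℂ] H} (hb : ∀ n, ‖T n‖ ≤ 1)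
    (hT : ∀ v, Tendsto (fun n => T n v) atTop (𝓝 (T' v)))
    (hU : ∀ v, Tendsto (fun n => U n v) atTop (𝓝 (U' v))) (v : H) :
    Tendsto (fun n => T n (U n v)) atTop (𝓝 (T' (U' v))) := by
  have h1 : Tendsto (fun n => T n (U n v - U' v)) atTop (𝓝 0) := by
    refine squeeze_zero_norm (fun n => ?_) (tendsto_iff_norm_sub_tendsto_zero.1 (hU v))
    exact ((T n).le_opNorm _).trans (mul_le_of_le_one_left (norm_nonneg _) (hb n))
  have h2 := h1.add (hT (U' v))
  rw [zero_add] at h2
  refine h2.congr fun n => ?_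
  rw [map_sub, sub_add_cancel]

section

variable (hA : IsMASA M A) (heA : e ∈ A) (he : IsStarProjection e) (S : IsState M A e φ)
include hA heA he S

theorem Seq.neg {x : H →L[ℂ] H} {z : ℕ → (H →L[ℂ] H)} (hz : Seq M A e φ x z) :
    Seq M A e φ (-x) (fun n => -z n) := by
  refine ⟨fun n => ?_, fun n => (hz.sa n).neg, ?_, fun η hη => ?_, fun u hu => ?_⟩
  · rw [← neg_one_smul ℂ]
    exact (hz.bd n).smul hA heA he S _
  · obtain ⟨B, hB, h⟩ := hz.far
    refine ⟨B, hB, fun n => ?_⟩
    rw [← neg_sub', n2_neg]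
    exact h n
  · obtain ⟨N, hN⟩ := hz.cauchy η hη
    refine ⟨N, fun i hi j hj => ?_⟩
    rw [← neg_sub', n2_neg]
    exact hN i hi j hj
  · have h := (hz.test u hu).neg
    rw [neg_zero] at h
    refine h.congr fun n => ?_
    rw [← neg_sub', mul_neg, map_neg]

/-- Elements of the span commute with the centraliser of the normaliser. -/
theorem centralizer_span {T u : H →L[ℂ] H}
    (hT : T ∈ Set.centralizer (normStar hA : Set (H →L[ℂ] H))) (hu : u ∈ normSpan M A e) :
    T * u = u * T := (hT u (Orth.normSpan_to_one hu)).symm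

/-- The difference between a BdSpan element moved by `z i` and by `z j`. -/
theorem Seq.cauchy_mul {x : H →L[ℂ] H} {z : ℕ → (H →L[ℂ] H)} (hz : Seq M A e φ x z)
    {w : H →L[ℂ] H} (hw : BdSpan M A e φ w) {η : ℝ} (hη : 0 < η) :
    ∃ N, ∀ i ≥ N, ∀ j ≥ N, n2 φ ((z i - z j) * w) ≤ η := by
  obtain ⟨C, hC, hwb⟩ := hw.2.1
  obtain ⟨N, hN⟩ := hz.cauchy (η / (C + 1)) (by positivity)
  refine ⟨N, fun i hi j hj => (hwb _ (((hz.bd i).cor hA heA he S).sub
    ((hz.bd j).cor hA heA he S))).trans ?_⟩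
  refine (mul_le_mul_of_nonneg_left (hN i hi j hj) hC).trans ?_
  rw [mul_div_assoc', div_le_iff₀ (by positivity)]
  nlinarith

variable {x : H →L[ℂ] H} (hx : Cor M e x) (hxs : IsSelfAdjoint x)
variable {z : ℕ → (H →L[ℂ] H)} (hz : Seq M A e φ x z)
include hx hxs hz

/-- Left multiplication by the sequence is eventually bounded by the norm of `x`. -/
theorem Seq.left_bound {w : H →L[ℂ] H} (hw : BdSpan M A e φ w) {η : ℝ} (hη : 0 < η) :
    ∀ᶠ n in atTop, n2 φ (z n * w) ≤ ‖x‖ * n2 φ w + η := by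
  obtain ⟨N, hN⟩ := hz.cauchy_mul hA heA he S hw hη
  have hwc : Cor M e w := hw.cor hA heA he S
  refine eventually_atTop.2 ⟨N, fun n hn => ?_⟩
  set u := z n * w with hu
  have hub : BdSpan M A e φ u := (hz.bd n).mul hA heA he S hw
  have huc := hub.cor hA heA he S
  have hzc : ∀ j, Cor M e (z j) := fun j => (hz.bd j).cor hA heA he S
  have hlim := (Complex.continuous_re.tendsto _).comp
    (hz.test2 hA heA he S right_ok complete_ok diag_limit_ok hx hxs hub hw.1)
  have hsq : n2 φ u * n2 φ u ≤ n2 φ u * (‖x‖ * n2 φ w + η) := by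
    have h1 : Tendsto (fun j => (φ (star u * (x * w))).re -
        (φ (star u * ((x - z j) * w))).re + n2 φ u * η) atTop
        (𝓝 ((φ (star u * (x * w))).re - 0 + n2 φ u * η)) :=
      ((tendsto_const_nhds.sub hlim).add tendsto_const_nhds)
    refine le_trans (ge_of_tendsto h1 (eventually_atTop.2 ⟨N, fun j hj => ?_⟩)) ?_
    · rw [← sq, n2_sq S he huc]
      have e1 : star u * u =
          star u * (x * w) - star u * ((x - z j) * w) + star u * ((z n - z j) * w) := by
        simp only [hu, sub_mul, mul_sub]; abel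
      rw [e1, map_add, map_sub, Complex.add_re, Complex.sub_re]
      gcongr
      exact (re_inner_le S he huc (((hzc n).sub (hzc j)).mul he hwc)).trans
        (mul_le_mul_of_nonneg_left (hN n hn j hj) (n2_nonneg _))
    · rw [sub_zero, mul_add]
      gcongr
      exact (re_inner_le S he huc (hx.mul he hwc)).trans
        (mul_le_mul_of_nonneg_left (n2_mul_le S he (hx.mul he hwc) hwc) (n2_nonneg _))
  rcases (n2_nonneg (τ := φ) u).eq_or_lt with h | h
  · rw [← h]; positivity [n2_nonneg (τ := φ) w]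
  · exact le_of_mul_le_mul_left hsq h

/-- The range of `z - i` comes near `e`. -/
theorem Seq.near_one {ε : ℝ} (hε : 0 < ε) : ∃ w, BdSpan M A e φ w ∧
    ∀ᶠ n in atTop, n2 φ (z n * w - Complex.I • w - e) ≤ ε := by
  have hec : Cor M e e := cor_proj (hA.1 e heA) he
  have hzc : ∀ j, Cor M e (z j) := fun j => (hz.bd j).cor hA heA he S
  set K : Set ℝ := {c | ∃ w, BdSpan M A e φ w ∧
    ∀ᶠ n in atTop, n2 φ (z n * w - Complex.I • w - e) ≤ c}
  have hne : K.Nonempty := ⟨n2 φ e, 0, bdSpan_alg hA heA he S (zero_mem A) Cor.zero,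
    Eventually.of_forall fun n => by simp [n2_neg]⟩
  have hbdd : BddBelow K := ⟨0, by
    rintro c ⟨w, -, hw⟩
    obtain ⟨n, hn⟩ := hw.exists
    exact (n2_nonneg _).trans hn⟩
  by_contra hcon
  set d := sInf K
  have hdε : ε ≤ d := le_csInf hne fun c ⟨w, hw, hev⟩ => le_of_not_gt fun h =>
    hcon ⟨w, hw, hev.mono fun n hn => hn.trans h.le⟩
  have hd : 0 < d := hε.trans_le hdε
  set B := ‖x‖ + 2
  have hB : 2 ≤ B := by simp [B]
  set σ := d / (16 * B ^ 2) with hσdef
  have hσ : 0 < σ := by positivity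
  obtain ⟨c, ⟨w, hw, hev⟩, hc⟩ := exists_lt_of_csInf_lt hne (show d < d + σ by linarith)
  have hwc : Cor M e w := hw.cor hA heA he S
  set a : ℕ → (H →L[ℂ] H) := fun n => z n * w - Complex.I • w - e with hadef
  have hac : ∀ n, Cor M e (a n) := fun n =>
    (((hzc n).mul he hwc).sub (hwc.csmul _)).sub hec
  obtain ⟨N₁, hN₁⟩ := eventually_atTop.1 hev
  obtain ⟨N₂, hN₂⟩ := hz.cauchy_mul hA heA he S hw hσ
  set N := max N₁ N₂
  have hup : ∀ n ≥ N, n2 φ (a n) ≤ d + σ := fun n hn =>
    (hN₁ n (le_trans (le_max_left _ _) hn)).trans hc.le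
  have hcau : ∀ i ≥ N, ∀ j ≥ N, n2 φ (a i - a j) ≤ σ := fun i hi j hj => by
    have e1 : a i - a j = (z i - z j) * w := by simp only [a, sub_mul]; abel
    rw [e1]
    exact hN₂ i (le_trans (le_max_right _ _) hi) j (le_trans (le_max_right _ _) hj)
  set r := a N with hr
  have hrb : BdSpan M A e φ r := (((hz.bd N).mul hA heA he S hw).sub hA heA he S
    (hw.smul hA heA he S _)).sub hA heA he S (bdSpan_alg hA heA he S heA hec)
  have hrc : Cor M e r := hac N
  set R := n2 φ r
  have hRlow : d - 2 * σ ≤ R := by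
    by_contra! h
    have hmem : R + σ ∈ K := ⟨w, hw, eventually_atTop.2 ⟨N, fun n hn => by
      have := n2_add_le S he hrc ((hac n).sub hrc)
      rw [add_sub_cancel] at this
      exact this.trans (by linarith [hcau n hn N le_rfl])⟩⟩
    linarith [csInf_le hbdd hmem]
  have hR0 : 0 < R := by
    have : σ ≤ d / 64 := by
      rw [hσdef]; gcongr; nlinarith
    linarith
  set τ : ℝ := 1 / B ^ 2
  set w' := w - τ • (Complex.I • r)
  have hw' : BdSpan M A e φ w' :=
    hw.sub hA heA he S ((hrb.smul hA heA he S _).rsmul hA heA he S _)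
  have hK' : Real.sqrt (d ^ 2 - d ^ 2 / (4 * B ^ 2)) ∈ K := by
    refine ⟨w', hw', ?_⟩
    filter_upwards [hz.left_bound hA heA he S hx hxs hrb hR0, eventually_ge_atTop N] with n hn hnN
    set q := Complex.I • (z n * r) + r
    have hqc : Cor M e q := (((hzc n).mul he hrc).csmul _).add hrc
    have hq : n2 φ q ≤ B * R := by
      refine (n2_add_le S he (((hzc n).mul he hrc).csmul _) hrc).trans ?_
      rw [n2_csmul, Complex.norm_I, one_mul]
      simp only [B]
      linarith
    have e1 : z n * w' - Complex.I • w' - e = a n - τ • q := by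
      simp only [w', a, q, mul_sub, mul_smul_comm, smul_sub, smul_add]
      rw [smul_comm Complex.I τ (Complex.I • r), smul_smul Complex.I Complex.I, Complex.I_mul_I,
        neg_one_smul, smul_neg]
      abel
    rw [e1]
    refine Real.le_sqrt_of_sq_le ?_
    rw [n2_sq S he ((hac n).sub (hqc.rsmul τ))]
    simp only [star_sub, star_smul, star_trivial, sub_mul, mul_sub, smul_mul_assoc,
      mul_smul_comm, map_sub, Complex.sub_re, tr_rsmul]
    rw [re_comm S he (hac n) hqc, ← n2_sq S he (hac n), ← n2_sq S he hqc]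
    -- the value of `q` at `r`
    have him : (φ (star r * (z n * r))).im = 0 := by
      have hX : Cor M e (star r * (z n * r)) := (hrc.star' he).mul he ((hzc n).mul he hrc)
      have hstar : star (star r * (z n * r)) = star r * (z n * r) := by
        rw [star_mul, star_mul, star_star, (hz.sa n).star_eq, mul_assoc]
      have := congrArg Complex.im (tr_star S he (hA.1 e heA) hX)
      rw [hstar, Complex.star_def, Complex.conj_im] at this
      linarith
    have hrq : (φ (star r * q)).re = R ^ 2 := by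
      simp only [q, mul_add, mul_smul_comm, map_add, map_smul, smul_eq_mul, Complex.add_re,
        Complex.mul_re, Complex.I_re, Complex.I_im, him]
      rw [n2_sq S he hrc]
      ring
    have haq : R ^ 2 - σ * (B * R) ≤ (φ (star (a n) * q)).re := by
      have h1 := re_inner_le S he (hrc.sub (hac n)) hqc
      rw [star_sub, sub_mul, map_sub, Complex.sub_re, hrq] at h1
      have h2 : n2 φ (r - a n) * n2 φ q ≤ σ * (B * R) :=
        mul_le_mul (hcau N le_rfl n hnN) hq (n2_nonneg _) hσ.le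
      linarith
    have hq2 := pow_le_pow_left₀ (n2_nonneg _) hq 2
    have hτ : 0 ≤ τ := by positivity
    have harith := step_arith hd hB (n2_nonneg (τ := φ) (a n)) (hup n hnN) hRlow (hup N le_rfl)
    have h3 : n2 φ (a n) ^ 2 - 2 * τ * (R ^ 2 - σ * (B * R)) + τ * τ * (B * R) ^ 2 =
        n2 φ (a n) ^ 2 - R ^ 2 / B ^ 2 + 2 * σ * R / B := by
      simp only [τ]; field_simp; ring
    nlinarith [mul_le_mul_of_nonneg_left haq hτ,
      mul_le_mul_of_nonneg_left hq2 (mul_nonneg hτ hτ)]
  have hlt : Real.sqrt (d ^ 2 - d ^ 2 / (4 * B ^ 2)) < d := by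
    rw [Real.sqrt_lt' hd]
    linarith [show 0 < d ^ 2 / (4 * B ^ 2) by positivity]
  linarith [csInf_le hbdd hK']

/-- The resolvents converge strongly and in the 2-norm. -/
theorem Seq.res_limit : ∃ L : H →L[ℂ] H, Cor M e L ∧ ‖L‖ ≤ 1 ∧
    L ∈ Set.centralizer (Set.centralizer (normStar hA : Set (H →L[ℂ] H))) ∧
    Tendsto (fun n => n2 φ (res e (z n) - L)) atTop (𝓝 0) ∧
    ∀ v, Tendsto (fun n => res e (z n) v) atTop (𝓝 (L v)) := by
  have hec : Cor M e e := cor_proj (hA.1 e heA) he
  have hzc : ∀ n, Cor M e (z n) := fun n => (hz.bd n).cor hA heA he S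
  have hRc : ∀ n, Cor M e (res e (z n)) := fun n => cor_res (hA.1 e heA) he (hz.sa n) (hzc n)
  obtain ⟨L, hLc, hLn, hL2, hLs⟩ := complete_ok H M A e φ hA heA he S (fun n => res e (z n)) 1
    (fun n => ⟨hRc n, norm_res_le he (hz.sa n)⟩) fun η hη => by
      obtain ⟨w, hw, hev⟩ := hz.near_one hA heA he S hx hxs (half_pos hη)
      have hwc : Cor M e w := hw.cor hA heA he S
      obtain ⟨N, hN⟩ := eventually_atTop.1 hev
      have key : ∀ n ≥ N, n2 φ (w - res e (z n)) ≤ η / 2 := fun n hn => by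
        have hac : Cor M e (z n * w - Complex.I • w - e) :=
          (((hzc n).mul he hwc).sub (hwc.csmul _)).sub hec
        have e1 : res e (z n) * (z n * w - Complex.I • w - e) = w - res e (z n) := by
          rw [mul_sub, res_shift he (hz.sa n) hwc, (hRc n).mul_right he]
        rw [← e1]
        exact (n2_mul_le S he ((hRc n).mul he hac) hac).trans
          ((mul_le_of_le_one_left (n2_nonneg _) (norm_res_le he (hz.sa n))).trans (hN n hn))
      refine ⟨N, fun i hi j hj => ?_⟩
      have := n2_sub_le S he (hwc.sub (hRc j)) (hwc.sub (hRc i))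
      rw [sub_sub_sub_cancel_left] at this
      linarith [key i hi, key j hj]
  refine ⟨L, hLc, hLn, fun T hT => ?_, hL2, hLs⟩
  ext v
  rw [mul_apply_eq_comp, mul_apply_eq_comp]
  refine tendsto_nhds_unique ((T.continuous.tendsto _).comp (hLs v))
    ((hLs (T v)).congr fun n => ?_)
  have hc := commute_res (e := e) (hz.sa n) (centralizer_span hA heA he S hT (hz.bd n).1)
    (centralizer_span hA heA he S hT (proj_mem_normSpan heA he))
  simpa [mul_apply_eq_comp] using (DFunLike.congr_fun hc v).symm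

/-- The limit of the resolvents is normal, with the adjoint given by the opposite sequence. -/
theorem Seq.limit_normal {L L' : H →L[ℂ] H}
    (hL : ∀ v, Tendsto (fun n => res e (z n) v) atTop (𝓝 (L v)))
    (hL' : ∀ v, Tendsto (fun n => res e (-z n) v) atTop (𝓝 (L' v))) :
    star L = -L' ∧ L * L' = L' * L := by
  have hzc : ∀ n, Cor M e (z n) := fun n => (hz.bd n).cor hA heA he S
  refine ⟨ContinuousLinearMap.ext fun v => ext_inner_right ℂ fun w => ?_,
    ContinuousLinearMap.ext fun v => ?_⟩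
  · rw [ContinuousLinearMap.star_eq_adjoint, ContinuousLinearMap.adjoint_inner_left]
    refine tendsto_nhds_unique ((tendsto_const_nhds (x := v)).inner (hL w) (𝕜 := ℂ))
      (((hL' v).neg.inner (tendsto_const_nhds (x := w)) (𝕜 := ℂ)).congr fun n => ?_)
    rw [res_neg he (hz.sa n) (hzc n), neg_apply, neg_neg, ContinuousLinearMap.star_eq_adjoint,
      ContinuousLinearMap.adjoint_inner_left]
  · rw [mul_apply_eq_comp, mul_apply_eq_comp]
    refine tendsto_nhds_unique (strong_mul (fun n => norm_res_le he (hz.sa n)) hL hL' v)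
      ((strong_mul (fun n => norm_res_le he (hz.sa n).neg) hL' hL v).congr fun n => ?_)
    have h1 : z n * res e (z n) = res e (z n) * z n := commute_res (hz.sa n) rfl
      (by rw [(hzc n).mul_right he, (hzc n).mul_left he])
    have h2 : e * res e (z n) = res e (z n) * e := by
      rw [(cor_res (hA.1 e heA) he (hz.sa n) (hzc n)).mul_left he,
        (cor_res (hA.1 e heA) he (hz.sa n) (hzc n)).mul_right he]
    have hc : res e (z n) * res e (-z n) = res e (-z n) * res e (z n) :=
      commute_res (hz.sa n).neg (by rw [mul_neg, neg_mul, h1]) h2.symm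
    simpa [mul_apply_eq_comp] using (DFunLike.congr_fun hc v).symm

/-- The limit of the resolvents is bounded below on the bounded part of the span. -/
theorem Seq.limit_below_bd {L : H →L[ℂ] H} (hLc : Cor M e L)
    (hL : Tendsto (fun n => n2 φ (res e (z n) - L)) atTop (𝓝 0)) {u : H →L[ℂ] H}
    (hu : BdSpan M A e φ u) : n2 φ u ≤ (‖x‖ + 1) * n2 φ (L * u) := by
  have huc : Cor M e u := hu.cor hA heA he S
  have hzc : ∀ n, Cor M e (z n) := fun n => (hz.bd n).cor hA heA he S
  have hRc : ∀ n, Cor M e (res e (z n)) := fun n => cor_res (hA.1 e heA) he (hz.sa n) (hzc n)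
  obtain ⟨C, hC, hub⟩ := hu.2.1
  have hlim : Tendsto (fun n => n2 φ (L * u) + C * n2 φ (res e (z n) - L)) atTop
      (𝓝 (n2 φ (L * u))) := by
    simpa using (tendsto_const_nhds (x := n2 φ (L * u))).add (hL.const_mul C)
  have key : ∀ η : ℝ, 0 < η →
      n2 φ u * n2 φ u ≤ ((‖x‖ + 1) * n2 φ u + η) * n2 φ (L * u) := fun η hη => by
    refine ge_of_tendsto (hlim.const_mul _) ?_
    filter_upwards [hz.left_bound hA heA he S hx hxs hu hη] with n hn
    set Q := (z n + Complex.I • e) * u
    have hQc : Cor M e Q := ((hzc n).add ((cor_proj (hA.1 e heA) he).csmul _)).mul he huc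
    have hQ : n2 φ Q ≤ (‖x‖ + 1) * n2 φ u + η := by
      simp only [Q, add_mul, smul_mul_assoc, huc.mul_left he]
      refine (n2_add_le S he ((hzc n).mul he huc) (huc.csmul _)).trans ?_
      rw [n2_csmul, Complex.norm_I, one_mul]
      linarith
    have e1 : star u * u = star Q * (res e (z n) * u) := by
      simp only [Q, star_mul, star_add, star_smul, (hz.sa n).star_eq, he.isSelfAdjoint.star_eq,
        Complex.star_def, Complex.conj_I, neg_smul, ← sub_eq_add_neg]
      rw [mul_assoc, ← mul_assoc (z n - Complex.I • e), shift_res he (hz.sa n) (hzc n),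
        huc.mul_left he]
    rw [← sq, n2_sq S he huc, e1]
    refine (re_inner_le S he hQc ((hRc n).mul he huc)).trans (mul_le_mul hQ ?_ (n2_nonneg _) ?_)
    · have h1 := n2_add_le S he (hLc.mul he huc) (((hRc n).sub hLc).mul he huc)
      rw [← add_mul, add_sub_cancel] at h1
      exact h1.trans (by linarith [hub _ ((hRc n).sub hLc)])
    · positivity [n2_nonneg (τ := φ) u]
  have h0 : n2 φ u * n2 φ u ≤ n2 φ u * ((‖x‖ + 1) * n2 φ (L * u)) := by
    refine le_of_forall_gt_imp_ge_of_dense fun c hc => ?_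
    set η := (c - n2 φ u * ((‖x‖ + 1) * n2 φ (L * u))) / (n2 φ (L * u) + 1) with hηdef
    have hp : 0 < n2 φ (L * u) + 1 := by linarith [n2_nonneg (τ := φ) (L * u)]
    have hη : 0 < η := div_pos (by linarith) hp
    have := key η hη
    have e2 : η * (n2 φ (L * u) + 1) = c - n2 φ u * ((‖x‖ + 1) * n2 φ (L * u)) := by
      rw [hηdef, div_mul_cancel₀ _ hp.ne']
    nlinarith
  rcases (n2_nonneg (τ := φ) u).eq_or_lt with h | h
  · rw [← h]; exact mul_nonneg (by positivity) (n2_nonneg _)
  · exact le_of_mul_le_mul_left h0 h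

/-- The limit of the resolvents is bounded below on the algebra of the normaliser. -/
theorem Seq.limit_below {L : H →L[ℂ] H} (hLc : Cor M e L) (hLn : ‖L‖ ≤ 1)
    (hL : Tendsto (fun n => n2 φ (res e (z n) - L)) atTop (𝓝 0)) {y : H →L[ℂ] H}
    (hy : Cor M e y)
    (hbic : y ∈ Set.centralizer (Set.centralizer (normStar hA : Set (H →L[ℂ] H)))) :
    n2 φ y ≤ (‖x‖ + 1) * n2 φ (L * y) := by
  refine le_of_forall_gt_imp_ge_of_dense fun c hc => ?_
  set η := (c - (‖x‖ + 1) * n2 φ (L * y)) / (2 * ‖x‖ + 4) with hηdef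
  have hη : 0 < η := div_pos (by linarith) (by positivity)
  obtain ⟨v, hv, -, hv2⟩ := span_near so_ok hA heA he S hy hbic (half_pos hη)
  obtain ⟨u, hu, hu2, -⟩ :=
    exists_bd hA heA he S right_ok complete_ok diag_limit_ok hv (half_pos hη)
  have huc : Cor M e u := hu.cor hA heA he S
  have hyu : n2 φ (y - u) ≤ η := by
    have := n2_add_le S he (hy.sub (normSpan_cor hA hv)) ((normSpan_cor hA hv).sub huc)
    rw [sub_add_sub_cancel] at this
    linarith
  have h1 := n2_add_le S he huc (hy.sub huc)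
  rw [add_sub_cancel] at h1
  have h2 : n2 φ (L * u) ≤ n2 φ (L * y) + η := by
    have := n2_sub_le S he (hLc.mul he hy) (hLc.mul he (hy.sub huc))
    rw [← mul_sub, sub_sub_cancel] at this
    exact this.trans (add_le_add le_rfl ((n2_mul_le S he (hLc.mul he (hy.sub huc))
      (hy.sub huc)).trans ((mul_le_of_le_one_left (n2_nonneg _) hLn).trans hyu)))
  have h3 := hz.limit_below_bd hA heA he S hx hxs hLc hL hu
  have h4 : η * (2 * ‖x‖ + 4) = c - (‖x‖ + 1) * n2 φ (L * y) := by
    rw [hηdef, div_mul_cancel₀ _ (by positivity)]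
  nlinarith [mul_le_mul_of_nonneg_left h2 (show 0 ≤ ‖x‖ + 1 by positivity),
    mul_nonneg hη.le (norm_nonneg x)]

end

end Vale.Agent.P078.State
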