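import Vale.Agent.P078.State.BoundedSpan

/-!
Nearest bounded elements of the span of the normaliser: the differences are asymptotically
orthogonal to the span, and left multiplication by them converges on the bounded part.
-/

namespace Vale.Agent.P078.State

open Filter Topology MKS Singular

set_option linter.unusedSectionVars false

variable {H : Type} [NormedAddCommGroup H] [InnerProductSpace ℂ H] [CompleteSpace H]
variable {M A : VonNeumannAlgebra H} {e : H →L[ℂ] H} {φ : (H →L[ℂ] H) →ₗ[ℂ] ℂ}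

/-- A minimising sequence. -/
structure Seq (M A : VonNeumannAlgebra H) (e : H →L[ℂ] H) (φ : (H →L[ℂ] H) →ₗ[ℂ] ℂ)
    (x : H →L[ℂ] H) (z : ℕ → (H →L[ℂ] H)) : Prop where
  bd : ∀ n, BdSpan M A e φ (z n)
  sa : ∀ n, IsSelfAdjoint (z n)
  far : ∃ B : ℝ, 0 ≤ B ∧ ∀ n, n2 φ (x - z n) ≤ B
  cauchy : ∀ η : ℝ, 0 < η → ∃ N, ∀ i ≥ N, ∀ j ≥ N, n2 φ (z i - z j) ≤ η
  test : ∀ u ∈ normSpan M A e, Tendsto (fun n => φ (u * (x - z n))) atTop (𝓝 0)

section

variable (hA : IsMASA M A) (heA : e ∈ A) (he : IsStarProjection e) (S : IsState M A e φ)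
include hA heA he S

theorem BdSpan.cor {u : H →L[ℂ] H} (hu : BdSpan M A e φ u) : Cor M e u := normSpan_cor hA hu.1

theorem bdSpan_alg {b : H →L[ℂ] H} (hb : b ∈ A) (hc : Cor M e b) : BdSpan M A e φ b :=
  ⟨Orth.alg_mem_normSpan hb hc.2, bd_alg hA heA he S hb, bd_alg hA heA he S (star_mem hb)⟩

theorem BdSpan.add {u w : H →L[ℂ] H} (hu : BdSpan M A e φ u) (hw : BdSpan M A e φ w) :
    BdSpan M A e φ (u + w) := by
  refine ⟨add_mem hu.1 hw.1, Bd.add hA heA he S hu.2.1 hw.2.1 (hu.cor hA heA he S)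
    (hw.cor hA heA he S), ?_⟩
  rw [star_add]
  exact Bd.add hA heA he S hu.2.2 hw.2.2 ((hu.cor hA heA he S).star' he)
    ((hw.cor hA heA he S).star' he)

theorem BdSpan.smul (t : ℂ) {u : H →L[ℂ] H} (hu : BdSpan M A e φ u) :
    BdSpan M A e φ (t • u) := by
  refine ⟨Submodule.smul_mem _ _ hu.1, Bd.smul hA heA he S t hu.2.1, ?_⟩
  rw [star_smul]
  exact Bd.smul hA heA he S _ hu.2.2

theorem BdSpan.rsmul (t : ℝ) {u : H →L[ℂ] H} (hu : BdSpan M A e φ u) :
    BdSpan M A e φ (t • u) := by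
  rw [RCLike.real_smul_eq_coe_smul (K := ℂ)]
  exact hu.smul hA heA he S _

theorem BdSpan.sub {u w : H →L[ℂ] H} (hu : BdSpan M A e φ u) (hw : BdSpan M A e φ w) :
    BdSpan M A e φ (u - w) := by
  rw [sub_eq_add_neg, ← neg_one_smul ℂ w]
  exact hu.add hA heA he S (hw.smul hA heA he S _)

theorem BdSpan.star' {u : H →L[ℂ] H} (hu : BdSpan M A e φ u) : BdSpan M A e φ (star u) :=
  ⟨Orth.normSpan_star' hA heA he hu.1, hu.2.2, by rw [star_star]; exact hu.2.1⟩

theorem BdSpan.mul {u w : H →L[ℂ] H} (hu : BdSpan M A e φ u) (hw : BdSpan M A e φ w) :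
    BdSpan M A e φ (u * w) := by
  refine ⟨Orth.normSpan_mul' hA heA he hu.1 hw.1,
    Bd.mul hA heA he S hu.2.1 hw.2.1 (hu.cor hA heA he S), ?_⟩
  rw [star_mul]
  exact Bd.mul hA heA he S hw.2.2 hu.2.2 ((hw.cor hA heA he S).star' he)

/-- Values against approximable elements. -/
theorem tendsto_of_near {X : ℕ → (H →L[ℂ] H)} (hX : ∀ n, Cor M e (X n)) {B : ℝ} (hB : 0 ≤ B)
    (hXB : ∀ n, n2 φ (X n) ≤ B) {u : H →L[ℂ] H} (huc : Cor M e u)
    (h : ∀ η : ℝ, 0 < η → ∃ w, Cor M e w ∧ n2 φ (star u - star w) ≤ η ∧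
      Tendsto (fun n => φ (w * X n)) atTop (𝓝 0)) :
    Tendsto (fun n => φ (u * X n)) atTop (𝓝 0) := by
  refine Metric.tendsto_nhds.2 fun η hη => ?_
  obtain ⟨w, hwc, hw, hlim⟩ := h (η / (2 * (B + 1))) (by positivity)
  filter_upwards [Metric.tendsto_nhds.1 hlim (η / 2) (half_pos hη)] with n hn
  rw [dist_zero_right] at hn ⊢
  have h1 : ‖φ (u * X n) - φ (w * X n)‖ ≤ η / (2 * (B + 1)) * B := by
    rw [← map_sub, ← sub_mul, ← star_star (u - w)]
    refine (norm_inner_le S he ((huc.sub hwc).star' he) (hX n)).trans ?_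
    rw [star_sub]
    exact mul_le_mul hw (hXB n) (n2_nonneg _) (by positivity)
  have h2 : η / (2 * (B + 1)) * B ≤ η / 2 := by
    rw [div_mul_eq_mul_div, div_le_iff₀ (by positivity)]
    nlinarith
  have h3 := norm_sub_norm_le (φ (u * X n)) (φ (w * X n))
  linarith

theorem exists_seq (hR : RightStatement) (hC : CompleteStatement) (hD : DiagLimitStatement)
    {x : H →L[ℂ] H} (hx : Cor M e x) (hxs : IsSelfAdjoint x) : ∃ z, Seq M A e φ x z := by
  set D : Set (H →L[ℂ] H) := {u | BdSpan M A e φ u ∧ IsSelfAdjoint u}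
  set f : (H →L[ℂ] H) → ℝ := fun u => n2 φ (x - u) with hf
  have h0 : (0 : H →L[ℂ] H) ∈ D := ⟨bdSpan_alg hA heA he S (zero_mem A) Cor.zero,
    IsSelfAdjoint.zero _⟩
  have hne : (f '' D).Nonempty := ⟨_, 0, h0, rfl⟩
  have hbdd : BddBelow (f '' D) := ⟨0, by rintro _ ⟨c, -, rfl⟩; exact n2_nonneg _⟩
  set d := sInf (f '' D)
  have hd : ∀ u ∈ D, d ≤ f u := fun u hu => csInf_le hbdd ⟨u, hu, rfl⟩
  have hd0 : 0 ≤ d := le_csInf hne (by rintro _ ⟨c, -, rfl⟩; exact n2_nonneg _)
  have hex : ∀ n : ℕ, ∃ u ∈ D, f u < d + 1 / (n + 1) := fun n => by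
    obtain ⟨_, ⟨c, hc, rfl⟩, h⟩ := exists_lt_of_csInf_lt hne
      (lt_add_of_pos_right d (show (0 : ℝ) < 1 / (n + 1) by positivity))
    exact ⟨c, hc, h⟩
  choose z hzD hzf using hex
  have hzc : ∀ n, Cor M e (z n) := fun n => (hzD n).1.cor hA heA he S
  have hle1 : ∀ n : ℕ, (1 : ℝ) / (n + 1) ≤ 1 := fun n => by
    rw [div_le_one (by positivity)]; simp
  have hsq : ∀ n : ℕ, f (z n) ^ 2 ≤ d ^ 2 + (2 * d + 1) * (1 / ((n : ℝ) + 1)) := fun n => by
    have h1 := pow_le_pow_left₀ (n2_nonneg _) (hzf n).le 2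
    have h2 : (0 : ℝ) ≤ 1 / ((n : ℝ) + 1) := by positivity
    nlinarith [hle1 n]
  have hcau : ∀ η : ℝ, 0 < η → ∃ N, ∀ i ≥ N, ∀ j ≥ N, n2 φ (z i - z j) ≤ η := by
    intro η hη
    obtain ⟨N, hN⟩ := exists_nat_gt (4 * (2 * d + 1) / η ^ 2)
    rw [div_lt_iff₀ (by positivity)] at hN
    refine ⟨N, fun i hi j hj => le_of_sq_le_sq ?_ hη.le⟩
    have hm := pow_le_pow_left₀ hd0 (hd _ ⟨((hzD i).1.add hA heA he S (hzD j).1).rsmul hA heA he S
      (2⁻¹ : ℝ), (IsSelfAdjoint.all _).smul ((hzD i).2.add (hzD j).2)⟩) 2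
    have hp := parallelogram S he (hx.sub (hzc i)) (hx.sub (hzc j))
    have e1 : x - z i + (x - z j) = (2 : ℝ) • (x - (2⁻¹ : ℝ) • (z i + z j)) := by
      rw [smul_sub, smul_smul, mul_inv_cancel₀ (two_ne_zero' ℝ), one_smul, two_smul]; abel
    have e2 : x - z i - (x - z j) = -(z i - z j) := by abel
    rw [e1, e2, n2_rsmul two_pos.le, n2_neg, mul_pow] at hp
    have hb : ∀ k : ℕ, N ≤ k → (2 * d + 1) * (1 / ((k : ℝ) + 1)) ≤ η ^ 2 / 4 := fun k hk => by
      rw [mul_one_div, div_le_iff₀ (by positivity)]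
      nlinarith [(Nat.cast_le (α := ℝ)).2 hk, sq_nonneg η]
    have := hsq i
    have := hsq j
    have := hb i hi
    have := hb j hj
    simp only [hf] at *
    linarith
  have hB : ∀ n, n2 φ (x - z n) ≤ d + 1 := fun n => by
    have := hzf n; have := hle1 n; simp only [hf] at *; linarith
  -- real orthogonality
  have hre : ∀ u ∈ D, Tendsto (fun n => (φ (u * (x - z n))).re) atTop (𝓝 0) := by
    intro u hu
    have huc : Cor M e u := hu.1.cor hA heA he S
    refine Metric.tendsto_nhds.2 fun η hη => ?_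
    have key : ∀ n : ℕ, (φ (u * (x - z n))).re ^ 2 ≤
        (2 * d + 1) * (n2 φ u ^ 2 + 1) * (1 / ((n : ℝ) + 1)) := by
      intro n
      set r := (φ (u * (x - z n))).re with hr
      set K := n2 φ u ^ 2 + 1
      have hK : 0 < K := by positivity
      have h := pow_le_pow_left₀ hd0 (hd _ ⟨(hzD n).1.add hA heA he S (hu.1.rsmul hA heA he S (r / K)),
        (hzD n).2.add ((IsSelfAdjoint.all _).smul hu.2)⟩) 2
      have hX := hx.sub (hzc n)
      have h1 := hsq n
      simp only [hf] at h h1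
      have hexp : ∀ X : H →L[ℂ] H, Cor M e X → ∀ t : ℝ, n2 φ (X - t • u) ^ 2 =
          n2 φ X ^ 2 - 2 * t * (φ (u * X)).re + t ^ 2 * n2 φ u ^ 2 := fun X hX t => by
        rw [n2_sq S he (hX.sub (huc.rsmul t)), n2_sq S he hX, n2_sq S he huc]
        simp only [star_sub, star_smul, star_trivial, sub_mul, mul_sub, smul_mul_assoc,
          mul_smul_comm, map_sub, Complex.sub_re, tr_rsmul]
        rw [re_comm S he huc hX, hu.2.star_eq]
        ring
      rw [show x - (z n + (r / K) • u) = (x - z n) - (r / K) • u by abel, hexp _ hX, ← hr] at h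
      have h2 : r / K * r * 2 - r / K * (r / K) * n2 φ u ^ 2 ≤
          (2 * d + 1) * (1 / ((n : ℝ) + 1)) := by nlinarith
      have h3 : r / K * (r / K) * n2 φ u ^ 2 ≤ r / K * r := by
        have h4 : r / K * (r / K) * n2 φ u ^ 2 ≤ r / K * (r / K) * K :=
          mul_le_mul_of_nonneg_left (by simp [K]) (mul_self_nonneg _)
        refine h4.trans (le_of_eq ?_)
        field_simp
      have h5 : r ^ 2 = r / K * r * K := by field_simp
      rw [h5, mul_right_comm _ K]
      exact mul_le_mul_of_nonneg_right (by linarith) hK.le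
    have hlim : Tendsto (fun n : ℕ => (2 * d + 1) * (n2 φ u ^ 2 + 1) * (1 / ((n : ℝ) + 1)))
        atTop (𝓝 0) := by
      simpa only [mul_zero] using (tendsto_one_div_add_atTop_nhds_zero_nat (𝕜 := ℝ)).const_mul
        ((2 * d + 1) * (n2 φ u ^ 2 + 1))
    filter_upwards [hlim.eventually (gt_mem_nhds (show (0 : ℝ) < η ^ 2 by positivity))] with n hn
    rw [Real.dist_eq, sub_zero]
    exact abs_lt_of_sq_lt_sq (lt_of_le_of_lt (key n) hn) hη.le
  -- the symmetric value
  have hsym : ∀ u, BdSpan M A e φ u →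
      Tendsto (fun n => φ (u * (x - z n)) + φ ((x - z n) * u)) atTop (𝓝 0) := by
    intro u hu
    have huc : Cor M e u := hu.cor hA heA he S
    have hconj : ∀ n, φ ((x - z n) * u) = star (φ (star u * (x - z n))) := fun n => by
      rw [← tr_star S he (hA.1 e heA) ((huc.star' he).mul he (hx.sub (hzc n))), star_mul,
        star_star, (hxs.sub (hzD n).2).star_eq]
    have h1 := hre _ ⟨hu.add hA heA he S (hu.star' hA heA he S), IsSelfAdjoint.add_star_self u⟩
    have h2 := hre _ ⟨(hu.sub hA heA he S (hu.star' hA heA he S)).smul hA heA he S Complex.I,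
      by simp [IsSelfAdjoint, star_smul, smul_sub, neg_add_eq_sub]⟩
    have hlim := ((Complex.continuous_ofReal.tendsto 0).comp h1).sub
      (((Complex.continuous_ofReal.tendsto 0).comp h2).const_mul Complex.I)
    simp only [Complex.ofReal_zero, mul_zero, sub_zero] at hlim
    refine hlim.congr fun n => ?_
    rw [hconj n]
    simp only [Function.comp, add_mul, smul_mul_assoc, sub_mul, map_add, map_smul, map_sub,
      smul_eq_mul, Complex.star_def]
    apply Complex.ext <;> simp <;> ring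
  refine ⟨z, fun n => (hzD n).1, fun n => (hzD n).2, ⟨d + 1, by positivity, hB⟩, hcau, ?_⟩
  intro u hu
  induction hu using Submodule.span_induction with
  | zero => simpa using tendsto_const_nhds
  | add p q _ _ hp hq => simpa only [add_mul, map_add, add_zero] using hp.add hq
  | smul t p _ hp =>
    simpa only [smul_mul_assoc, map_smul, smul_eq_mul, mul_zero] using hp.const_mul t
  | mem g hg =>
    obtain ⟨hgc, c, hcA, v₀, hv₀, rfl⟩ := hg
    obtain ⟨b, hbA, v, hv, hbv⟩ := gen_split hA heA he hcA hv₀ hgc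
    rw [hbv]
    have hec : Cor M e e := cor_proj (hA.1 e heA) he
    set b₁ := b * e with hb₁
    have hb₁A : b₁ ∈ A := mul_mem hbA heA
    have hb₁c : Cor M e b₁ := (cor_mul_mem hA heA he hbA hec).1
    rw [show b * v = b₁ * v by rw [hb₁, mul_assoc, hv.cor.mul_left he]]
    obtain ⟨a, ha⟩ := exists_density hA heA he S hR hC hD hv
    obtain ⟨a', ha'⟩ := exists_density hA heA he S hR hC hD (hv.star' he)
    refine tendsto_of_near hA heA he S (fun n => hx.sub (hzc n))
      (show 0 ≤ d + 1 by positivity) hB (hb₁c.mul he hv.cor) fun η hη => ?_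
    obtain ⟨m, hm⟩ := (pow_small hA heA he S hR ha' (hv.cor.star' he)
      (show 0 < η / (‖b₁‖ + 1) by positivity)).exists
    obtain ⟨hqA, hqc, -⟩ := pow_facts hA heA he S ha' m
    set q := a' ^ (m + 1) with hq
    refine ⟨b₁ * v * (e - q), (hb₁c.mul he hv.cor).mul he (hec.sub hqc), ?_, ?_⟩
    · rw [← star_sub, mul_sub, (hb₁c.mul he hv.cor).mul_right he, sub_sub_cancel, star_mul,
        star_mul, (ha'.2.2.1.pow _).star_eq, ← mul_assoc]
      refine (n2_mul_mem_le S he hA heA (hqc.mul he (hv.cor.star' he)) (star_mem hb₁A)).trans ?_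
      rw [norm_star]
      refine (mul_le_mul_of_nonneg_left hm (norm_nonneg _)).trans ?_
      rw [mul_div_assoc', div_le_iff₀ (by positivity)]
      nlinarith [norm_nonneg b₁]
    · refine (hsym _ (bdSpan_test hA heA he S hv ha ha' hb₁A hb₁c m)).congr fun n => ?_
      exact test_symm hA heA he S hv ha hb₁A hb₁c (sub_mem heA hqA) (hx.sub (hzc n))

/-- The differences are asymptotically orthogonal also between two bounded elements. -/
theorem Seq.test2 (hR : RightStatement) (hC : CompleteStatement) (hD : DiagLimitStatement)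
    {x : H →L[ℂ] H} (hx : Cor M e x) (hxs : IsSelfAdjoint x) {z : ℕ → (H →L[ℂ] H)}
    (hz : Seq M A e φ x z) {u w : H →L[ℂ] H} (hu : BdSpan M A e φ u)
    (hw : w ∈ normSpan M A e) :
    Tendsto (fun n => φ (star u * ((x - z n) * w))) atTop (𝓝 0) := by
  have huc : Cor M e u := hu.cor hA heA he S
  have hXc : ∀ n, Cor M e (x - z n) := fun n => hx.sub ((hz.bd n).cor hA heA he S)
  induction hw using Submodule.span_induction with
  | zero => simpa using tendsto_const_nhds
  | add p q _ _ hp hq => simpa only [mul_add, map_add, add_zero] using hp.add hq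
  | smul t p _ hp =>
    simpa only [mul_smul_comm, map_smul, smul_eq_mul, mul_zero] using hp.const_mul t
  | mem g hg =>
    obtain ⟨hgc, c, hcA, v₀, hv₀, rfl⟩ := hg
    obtain ⟨b, hbA, v, hv, hbv⟩ := gen_split hA heA he hcA hv₀ hgc
    rw [hbv]
    have hec : Cor M e e := cor_proj (hA.1 e heA) he
    set b₁ := b * e with hb₁
    have hb₁A : b₁ ∈ A := mul_mem hbA heA
    have hb₁c : Cor M e b₁ := (cor_mul_mem hA heA he hbA hec).1
    rw [show b * v = b₁ * v by rw [hb₁, mul_assoc, hv.cor.mul_left he]]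
    obtain ⟨a, ha⟩ := exists_density hA heA he S hR hC hD hv
    obtain ⟨B, hB, hXB⟩ := hz.far
    obtain ⟨Cu, hCu, hub⟩ := hu.2.1
    refine Metric.tendsto_nhds.2 fun η hη => ?_
    obtain ⟨m, hm⟩ := (pow_small hA heA he S hR ha hv.cor
      (show 0 < η / (2 * (Cu * B * ‖b₁‖ + 1)) by positivity)).exists
    obtain ⟨hpA, hpc, -⟩ := pow_facts hA heA he S ha m
    obtain ⟨s, hsA, hs⟩ := cut_factor hA heA he S ha m
    set p := a ^ (m + 1) with hp
    set c' := b₁ * s * e with hc'
    have hc'A : c' ∈ A := mul_mem (mul_mem hb₁A hsA) heA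
    have hc'c : Cor M e c' := (cor_mul_mem hA heA he (mul_mem hb₁A hsA) hec).1
    set u' := a * c' * v * e * star u with hu'
    have hmem : u' ∈ normSpan M A e := by
      refine Orth.normSpan_mul' hA heA he ?_ (Orth.normSpan_star' hA heA he hu.1)
      rw [mul_assoc (a * c'), hv.cor.mul_right he]
      exact Submodule.subset_span
        ⟨((ha.2.1.mul he hc'c).mul he hv.cor).2, _, mul_mem ha.1 hc'A, v, hv.1, rfl⟩
    filter_upwards [Metric.tendsto_nhds.1 (hz.test _ hmem) (η / 2) (half_pos hη)] with n hn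
    rw [dist_zero_right] at hn ⊢
    set X := x - z n
    set w' := c' * ((e - a) * v) * e
    have hY : Cor M e (star u * X) := (huc.star' he).mul he (hXc n)
    have hval : φ (star u * (X * w')) = φ (u' * X) := by
      rw [← mul_assoc, test_value hA heA he S hv ha hc'A hc'c heA hY]
      simp only [hu', mul_assoc]
    have hw'e : w' = b₁ * ((e - p) * v) := by
      have h1 : Cor M e ((e - a) * v) := (hec.sub ha.2.1).mul he hv.cor
      simp only [w', hc']
      rw [(((cor_mul_mem hA heA he (mul_mem hb₁A hsA) hec).1).mul he h1).mul_right he,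
        mul_assoc _ e, h1.mul_left he, hs]
      simp only [mul_assoc]
    have hdiff : b₁ * v - w' = b₁ * (p * v) := by
      rw [hw'e, sub_mul, mul_sub, hv.cor.mul_left he, sub_sub_cancel]
    have hpv : Cor M e (p * v) := hpc.mul he hv.cor
    have h1 : ‖φ (star u * (X * (b₁ * v))) - φ (star u * (X * w'))‖ ≤
        Cu * B * (‖b₁‖ * (η / (2 * (Cu * B * ‖b₁‖ + 1)))) := by
      rw [← map_sub, ← mul_sub, ← mul_sub, hdiff, ← mul_assoc, ← star_star X, ← star_mul]
      have hXu : Cor M e (star X * u) := ((hXc n).star' he).mul he huc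
      refine (norm_inner_le S he hXu (hb₁c.mul he hpv)).trans ?_
      refine mul_le_mul ?_ ((n2_mul_le S he (hb₁c.mul he hpv) hpv).trans
        (mul_le_mul_of_nonneg_left hm (norm_nonneg _))) (n2_nonneg _) (mul_nonneg hCu hB)
      rw [(hxs.sub (hz.sa n)).star_eq]
      exact (hub _ (hXc n)).trans (mul_le_mul_of_nonneg_left (hXB n) hCu)
    have h2 : Cu * B * (‖b₁‖ * (η / (2 * (Cu * B * ‖b₁‖ + 1)))) ≤ η / 2 := by
      rw [← mul_assoc, mul_div_assoc', div_le_iff₀ (by positivity)]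
      nlinarith [mul_nonneg (mul_nonneg hCu hB) (norm_nonneg b₁)]
    have h3 := norm_sub_norm_le (φ (star u * (X * (b₁ * v)))) (φ (star u * (X * w')))
    rw [hval] at h3 h1
    linarith

end

end Vale.Agent.P078.State
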