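import Vale.Agent.P078.State.Cyclic
import Vale.Agent.P078.State.Perp
import Vale.Agent.P078.State.BoundedSpan
import Vale.Agent.P078.Orth.Words

/-!
Linear alternations of orthogonal operators and centred tuple sums have small averaged value for
a state in whose centraliser the MASA lies.
-/

namespace Vale.Agent.P078.State

open Filter Topology MKS Singular
open Orth (Cut fine Rand cst nr etr avg Good good_cst NorC norC_e Perp Ltr PiW FW pv OkPairs
  normSpan_mul' normSpan_star' alg_mem_normSpan cst_mul cells_proj mem_inj weight avg_eq Lin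
  Centred)

set_option linter.unusedSectionVars false

variable {H : Type} [NormedAddCommGroup H] [InnerProductSpace ℂ H] [CompleteSpace H]
variable {M A : VonNeumannAlgebra H} {e : H →L[ℂ] H} {τ : (H →L[ℂ] H) →ₗ[ℂ] ℂ}
variable {L : Type} [Fintype L] {μ : L → ℝ}

section

variable (S : Setting M A e τ μ)
include S

theorem perp_right' {m z : H →L[ℂ] H} (hm : Perp M A e τ m) (hz : z ∈ normSpan M A e) :
    Perp M A e τ (m * z) :=
  ((perp_of right_ok diag_limit_ok H M A e τ S.hA S.heA S.he S.hS m hm).2 z hz).2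

theorem perp_star' {m : H →L[ℂ] H} (hm : Perp M A e τ m) : Perp M A e τ (star m) :=
  (perp_of right_ok diag_limit_ok H M A e τ S.hA S.heA S.he S.hS m hm).1

theorem goodR_ltr {w : Ltr H L} (hw : w.Ok M A e μ) : GoodR M τ (w.val : Rand A e L) :=
  goodR_val S hw.1 w.f

theorem ltr_mem {w : Ltr H L} (hw : w.Ok M A e μ) (c : Cut A e) (ω : Fin c.n → L) :
    (w.val : Rand A e L) c ω ∈ A :=
  val_mem_alg S hw.1 w.f c ω

theorem span_cor {z : H →L[ℂ] H} (hz : z ∈ normSpan M A e) : Cor M e z := normSpan_cor S.hA hz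

theorem e_mem_span : e ∈ normSpan M A e := proj_mem_normSpan S.heA S.he

theorem good_ltr {w : Ltr H L} (hw : w.Ok M A e μ) : Good M (w.val : Rand A e L) :=
  good_val S hw.1 w.f

theorem mul_cst_e {G : Rand A e L} (hG : Good M G) : G * cst e = G := by
  obtain ⟨_, _, hG⟩ := hG
  funext c ω
  exact (hG c ω).1.mul_right S.he

theorem piW_good {G : Rand A e L} (h : PiW M A e τ μ G) : Good M G := by
  induction h with
  | base m hm => exact good_cst hm.1
  | last m hm w hw z hz =>
    exact (good_cst hm.1).mul S.he ((good_ltr S hw).mul S.he (good_cst (span_cor S hz)))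
  | step m hm w hw G _ ih => exact (good_cst hm.1).mul S.he ((good_ltr S hw).mul S.he ih)

theorem fw_good {G : Rand A e L} (h : FW M A e τ μ G) : Good M G := by
  cases h with
  | last w hw z hz => exact (good_ltr S hw).mul S.he (good_cst (span_cor S hz))
  | step w hw G hG => exact (good_ltr S hw).mul S.he (piW_good S hG)

theorem piW_mul {G : Rand A e L} (h : PiW M A e τ μ G) {u : H →L[ℂ] H}
    (hu : u ∈ normSpan M A e) : PiW M A e τ μ (G * cst u) := by
  induction h with
  | base m hm => exact PiW.base (m * u) (perp_right' S hm hu)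
  | last m hm w hw z hz =>
    rw [mul_assoc, mul_assoc, cst_mul]
    exact PiW.last m hm w hw (z * u) (normSpan_mul' S.hA S.heA S.he hz hu)
  | step m hm w hw G _ ih => rw [mul_assoc, mul_assoc]; exact PiW.step m hm w hw _ ih

theorem piW_cmul {G : Rand A e L} (h : PiW M A e τ μ G) {u : H →L[ℂ] H}
    (hu : u ∈ normSpan M A e) : PiW M A e τ μ (cst u * G) := by
  cases h with
  | base m hm => exact PiW.base (u * m) (hm.mul_left S.hA S.heA S.he hu)
  | last m hm w hw z hz =>
    rw [← mul_assoc, cst_mul]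
    exact PiW.last (u * m) (hm.mul_left S.hA S.heA S.he hu) w hw z hz
  | step m hm w hw G hG =>
    rw [← mul_assoc, cst_mul]
    exact PiW.step (u * m) (hm.mul_left S.hA S.heA S.he hu) w hw G hG

theorem fw_mul {G : Rand A e L} (h : FW M A e τ μ G) {u : H →L[ℂ] H}
    (hu : u ∈ normSpan M A e) : FW M A e τ μ (G * cst u) := by
  cases h with
  | last w hw z hz =>
    rw [mul_assoc, cst_mul]
    exact FW.last w hw (z * u) (normSpan_mul' S.hA S.heA S.he hz hu)
  | step w hw G hG => rw [mul_assoc]; exact FW.step w hw _ (piW_mul S hG hu)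

theorem pv_good {l : List ((H →L[ℂ] H) × Ltr H L)} (hl : OkPairs M A e τ μ l) :
    Good M (pv l : Rand A e L) := by
  induction l with
  | nil => exact good_cst (cor_e S)
  | cons p l ih =>
    obtain ⟨hm, hw⟩ := hl p (List.mem_cons_self ..)
    exact (good_cst hm.1).mul S.he
      ((good_ltr S hw).mul S.he (ih fun q hq => hl q (List.mem_cons_of_mem _ hq)))

theorem pv_append : ∀ {l l' : List ((H →L[ℂ] H) × Ltr H L)}, OkPairs M A e τ μ l' →
    (pv (l ++ l') : Rand A e L) = pv l * pv l'
  | [], l', h => by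
    show pv l' = cst e * pv l'
    rw [cst_e_mul S (pv_good S h)]
  | p :: l, l', h => by
    show cst p.1 * (p.2.val * pv (l ++ l')) = cst p.1 * (p.2.val * pv l) * pv l'
    rw [pv_append h, mul_assoc, mul_assoc]

theorem pv_single {m : H →L[ℂ] H} {w : Ltr H L} (hw : w.Ok M A e μ) :
    (pv [(m, w)] : Rand A e L) = cst m * w.val := by
  show cst m * (w.val * cst e) = _
  rw [mul_cst_e S (good_ltr S hw)]

theorem piW_pairs {G : Rand A e L} (h : PiW M A e τ μ G) :
    (∃ l z, l ≠ [] ∧ OkPairs M A e τ μ l ∧ z ∈ normSpan M A e ∧ G = pv l * cst z) ∨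
      ∃ l m, OkPairs M A e τ μ l ∧ Perp M A e τ m ∧ G = pv l * cst m := by
  induction h with
  | base m hm =>
    exact Or.inr ⟨[], m, fun _ h => absurd h (List.not_mem_nil), hm,
      (cst_e_mul S (good_cst hm.1)).symm⟩
  | last m hm w hw z hz =>
    refine Or.inl ⟨[(m, w)], z, List.cons_ne_nil _ _, fun p hp => ?_, hz, ?_⟩
    · rw [List.mem_singleton] at hp; subst hp; exact ⟨hm, hw⟩
    · rw [pv_single S hw, mul_assoc]
  | step m hm w hw G _ ih =>
    have hc : ∀ l, OkPairs M A e τ μ l → OkPairs M A e τ μ ((m, w) :: l) := fun l hl p hp => by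
      rcases List.mem_cons.1 hp with rfl | hp
      exacts [⟨hm, hw⟩, hl p hp]
    rcases ih with ⟨l, z, -, hl, hz, rfl⟩ | ⟨l, m', hl, hm', rfl⟩
    · refine Or.inl ⟨(m, w) :: l, z, List.cons_ne_nil _ _, hc l hl, hz, ?_⟩
      show cst m * (w.val * (pv l * cst z)) = cst m * (w.val * pv l) * cst z
      simp only [mul_assoc]
    · refine Or.inr ⟨(m, w) :: l, m', hc l hl, hm', ?_⟩
      show cst m * (w.val * (pv l * cst m')) = cst m * (w.val * pv l) * cst m'
      simp only [mul_assoc]

theorem piW_goodR {G : Rand A e L} (h : PiW M A e τ μ G) : GoodR M τ G := by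
  induction h with
  | base m hm => exact goodR_cst S hm.1
  | last m hm w hw z hz =>
    exact (goodR_cst S hm.1).mul S ((goodR_ltr S hw).mul S (goodR_cst S (span_cor S hz)))
  | step m hm w hw G _ ih => exact (goodR_cst S hm.1).mul S ((goodR_ltr S hw).mul S ih)

theorem fw_goodR {G : Rand A e L} (h : FW M A e τ μ G) : GoodR M τ G := by
  cases h with
  | last w hw z hz => exact (goodR_ltr S hw).mul S (goodR_cst S (span_cor S hz))
  | step w hw G hG => exact (goodR_ltr S hw).mul S (piW_goodR S hG)

/-- The value of a product does not see on which side a random element of `A` stands. -/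
theorem etr_comm_alg {F X : Rand A e L} (hF : ∀ c ω, F c ω ∈ A) (hX : Good M X) (c : Cut A e) :
    etr τ μ (F * X) c = etr τ μ (X * F) c := by
  obtain ⟨_, _, hX⟩ := hX
  simp only [etr, Pi.mul_apply]
  exact congrArg _ (funext fun ω => S.hS.2.2.1 _ (hF c ω) _ (hX c ω).1.1 (hX c ω).1.2)

theorem tendsto_etr_span {T : Rand A e L} {z : H →L[ℂ] H} (hz : z ∈ normSpan M A e)
    (h : ∀ g ∈ normSpan M A e, (∃ a ∈ A, ∃ v, NorC M A e v ∧ g = a * v) →
      Tendsto (etr τ μ (T * cst g)) (fine A e) (𝓝 0)) :
    Tendsto (etr τ μ (T * cst z)) (fine A e) (𝓝 0) := by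
  induction hz using Submodule.span_induction with
  | zero =>
    refine tendsto_const_nhds.congr fun c => ?_
    simp [etr, cst, avg]
  | add x y _ _ hx hy =>
    have : (T * cst (x + y) : Rand A e L) = T * cst x + T * cst y := by
      rw [← mul_add]; rfl
    rw [this]
    exact tendsto_etr_add hx hy
  | smul t x _ hx =>
    refine (by simpa using hx.const_mul t :
      Tendsto (fun c => t * etr τ μ (T * cst x) c) (fine A e) (𝓝 0)).congr fun c => ?_
    simp only [etr, avg, Pi.mul_apply, cst, mul_smul_comm, map_smul, Finset.mul_sum,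
      Complex.real_smul, smul_eq_mul]
    exact Finset.sum_congr rfl fun ω _ => by ring
  | mem g hg =>
    obtain ⟨hge, a, ha, v, hv, rfl⟩ := hg
    obtain ⟨b, hb, w, hw, heq⟩ := gen_split S.hA S.heA S.he ha hv hge
    rw [heq]
    exact h _ (heq ▸ Submodule.subset_span ⟨hge, a, ha, v, hv, rfl⟩) ⟨b, hb, w, hw, rfl⟩

theorem letter_move {w : Ltr H L} (hw : w.Ok M A e μ) {a v : H →L[ℂ] H} (ha : a ∈ A)
    (hv : NorC M A e v) : ∃ w' : Ltr H L, w'.Ok M A e μ ∧
      (w.val * cst (a * v) : Rand A e L) = cst (a * v) * w'.val := by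
  refine ⟨⟨w.d, fun t => star v * w.h t, w.f⟩,
    ⟨fun t => (hv.star' S.he).mul S.hA S.he (hw.1 t), hw.2⟩, ?_⟩
  show Orth.val w.h w.f * cst (a * v) = cst (a * v) * Orth.val _ w.f
  rw [← cst_mul, ← mul_assoc, val_comm S hw.1 w.f ha, mul_assoc, val_mul_nor S hw.1 w.f hv,
    ← mul_assoc]

theorem etr_single {w : Ltr H L} (hw : w.Ok M A e μ) {z : H →L[ℂ] H} (c : Cut A e) :
    etr τ μ (w.val * cst z) c = 0 := by
  simp only [etr, Pi.mul_apply, cst, Ltr.val, Orth.val, Finset.sum_mul, map_sum, smul_mul_assoc,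
    LinearMap.map_smul_of_tower, avg, Finset.smul_sum, smul_smul]
  rw [Finset.sum_comm]
  refine Finset.sum_eq_zero fun i hi => ?_
  rw [← Finset.sum_smul]
  have h1 := avg_prod_blocks S w.f id i (mem_inj.1 hi)
  simp only [avg, id, smul_eq_mul] at h1
  simp only [weight]
  rw [h1, Finset.prod_eq_zero (Finset.mem_univ (0 : Fin (w.d + 1))), zero_smul]
  rw [show (Finset.univ.filter fun o : Fin (w.d + 1) => o = 0) = {0} by ext; simp]
  simpa using hw.2 0

theorem star_ltr {w : Ltr H L} (hw : w.Ok M A e μ) : star (w.val : Rand A e L) = w.val := by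
  funext c ω
  simp only [Pi.star_apply, Ltr.val, Orth.val, star_sum, star_smul, star_trivial]
  exact Finset.sum_congr rfl fun i _ => by
    rw [(cells_proj S.hA S.heA S.he (fun t => (hw.1 t).1) c i).2.isSelfAdjoint.star_eq]

/-- A generator of the span moves to the right past a tuple sum. -/
theorem letter_move' {w : Ltr H L} (hw : w.Ok M A e μ) {a v : H →L[ℂ] H} (ha : a ∈ A)
    (hv : NorC M A e v) : ∃ w' : Ltr H L, w'.Ok M A e μ ∧
      (cst (a * v) * w.val : Rand A e L) = w'.val * cst (a * v) := by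
  set w' : Ltr H L := ⟨w.d, fun t => v * w.h t, w.f⟩ with hw'def
  have hok : Ltr.Ok M A e μ w' := ⟨fun t => hv.mul S.hA S.he (hw.1 t), hw.2⟩
  refine ⟨w', hok, ?_⟩
  have h1 : (w.val * cst (star v) : Rand A e L) = cst (star v) * w'.val := by
    have h := val_mul_nor S (A := A) hw.1 w.f (hv.star' S.he)
    rw [star_star] at h
    exact h
  have h2 := congrArg star h1
  rw [star_mul, star_mul, star_ltr S hw, star_ltr S hok,
    show star (cst (star v) : Rand A e L) = cst v from
      funext fun c => funext fun ω => star_star v] at h2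
  calc (cst (a * v) * w.val : Rand A e L) = cst a * (cst v * w.val) := by
        rw [← cst_mul, mul_assoc]
    _ = (cst a * w'.val) * cst v := by rw [h2, mul_assoc]
    _ = (w'.val * cst a) * cst v :=
        congrArg (· * cst v) (val_comm S (A := A) hok.1 w'.f ha).symm
    _ = _ := by rw [mul_assoc, cst_mul]

theorem pv_goodR {l : List ((H →L[ℂ] H) × Ltr H L)} (hl : OkPairs M A e τ μ l) :
    GoodR M τ (pv l : Rand A e L) := by
  induction l with
  | nil => exact goodR_cst S (cor_e S)
  | cons p l ih =>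
    obtain ⟨hm, hw⟩ := hl p (List.mem_cons_self ..)
    exact (goodR_cst S hm.1).mul S
      ((goodR_ltr S hw).mul S (ih fun q hq => hl q (List.mem_cons_of_mem _ hq)))

theorem okPairs_snoc {l : List ((H →L[ℂ] H) × Ltr H L)} (hl : OkPairs M A e τ μ l)
    {m : H →L[ℂ] H} (hm : Perp M A e τ m) {w : Ltr H L} (hw : w.Ok M A e μ) :
    OkPairs M A e τ μ (l ++ [(m, w)]) := fun q hq => by
  rcases List.mem_append.1 hq with hq | hq
  · exact hl q hq
  · rw [List.mem_singleton] at hq; subst hq; exact ⟨hm, hw⟩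

theorem okPairs_single {m : H →L[ℂ] H} (hm : Perp M A e τ m) {w : Ltr H L}
    (hw : w.Ok M A e μ) : OkPairs M A e τ μ [(m, w)] :=
  okPairs_snoc S (fun q hq => absurd hq List.not_mem_nil) hm hw (l := [])

theorem pv_snoc {l : List ((H →L[ℂ] H) × Ltr H L)} {m : H →L[ℂ] H} (hm : Perp M A e τ m)
    {w : Ltr H L} (hw : w.Ok M A e μ) :
    (pv (l ++ [(m, w)]) : Rand A e L) = pv l * (cst m * w.val) := by
  rw [pv_append S (okPairs_single S hm hw), pv_single S hw]

theorem pv_cst_apply {m : H →L[ℂ] H} (hm : Cor M e m) :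
    ∀ (l : List ((H →L[ℂ] H) × Ltr H L)) (c : Cut A e) (ω : Fin c.n → L),
      (pv l * cst m : Rand A e L) c ω = (l.map fun q => q.1 * q.2.val c ω).prod * m := by
  intro l
  induction l with
  | nil =>
    intro c ω
    show e * m = _
    rw [hm.mul_left S.he]
    simp
  | cons p l ih =>
    intro c ω
    have h : (pv l : Rand A e L) c ω * m = (l.map fun q => q.1 * q.2.val c ω).prod * m := ih c ω
    show p.1 * (p.2.val c ω * (pv l : Rand A e L) c ω) * m = _
    simp only [mul_assoc, h, List.map_cons, List.prod_cons]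

theorem fw_gen {a v : H →L[ℂ] H} (ha : a ∈ A) (hv : NorC M A e v)
    (hg : a * v ∈ normSpan M A e) {F : Rand A e L} (hF : FW M A e τ μ F) :
    FW M A e τ μ (cst (a * v) * F) := by
  cases hF with
  | last w hw u hu =>
    obtain ⟨w', hw', he'⟩ := letter_move' S hw ha hv
    rw [← mul_assoc, he', mul_assoc, cst_mul]
    exact FW.last w' hw' _ (normSpan_mul' S.hA S.heA S.he hg hu)
  | step w hw G hG =>
    obtain ⟨w', hw', he'⟩ := letter_move' S hw ha hv
    rw [← mul_assoc, he', mul_assoc]
    exact FW.step w' hw' _ (piW_cmul S hG hg)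

variable (hCore : CoreStatement)
include hCore

theorem tendsto_pairs_e {l : List ((H →L[ℂ] H) × Ltr H L)} (hne : l ≠ [])
    (hl : OkPairs M A e τ μ l) : Tendsto (etr τ μ (pv l : Rand A e L)) (fine A e) (𝓝 0) := by
  have h := linear_tendsto hCore S (List.length_pos_of_ne_nil hne)
    (fun t : Fin l.length => (l.get t).1) (fun t => (hl _ (List.get_mem l t)).1)
    (fun t => (l.get t).2.d + 1) (fun t => (l.get t).2.h) (fun t => (l.get t).2.f)
    (fun t => (hl _ (List.get_mem l t)).2.1) (fun t => (hl _ (List.get_mem l t)).2.2)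
    fun t _ => Nat.succ_pos _
  refine h.congr fun c => ?_
  refine congrArg (avg μ) (funext fun ω => congrArg τ ?_)
  have key : ∀ (p : (H →L[ℂ] H) × Ltr H L) (l : List ((H →L[ℂ] H) × Ltr H L)),
      OkPairs M A e τ μ (p :: l) →
      (pv (p :: l) : Rand A e L) c ω = ((p :: l).map fun q => q.1 * q.2.val c ω).prod := by
    intro p l
    induction l generalizing p with
    | nil =>
      intro h
      obtain ⟨_, _, hg⟩ := good_ltr S (A := A) (h p (List.mem_cons_self ..)).2
      show p.1 * (p.2.val c ω * e) = _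
      rw [(hg c ω).1.mul_right S.he]
      simp
    | cons q l ih =>
      intro h
      show p.1 * (p.2.val c ω * (pv (q :: l) : Rand A e L) c ω) = _
      rw [ih q fun r hr => h r (List.mem_cons_of_mem _ hr)]
      simp [mul_assoc]
  obtain ⟨p, l', rfl⟩ := List.exists_cons_of_ne_nil hne
  rw [key p l' hl]
  refine congrArg List.prod ?_
  conv_rhs => rw [← List.ofFn_get (p :: l'), List.map_ofFn]
  rfl

/-- Words which end with an orthogonal operator. -/
theorem tendsto_pairs_last {l : List ((H →L[ℂ] H) × Ltr H L)} (hl : OkPairs M A e τ μ l)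
    {m : H →L[ℂ] H} (hm : Perp M A e τ m) :
    Tendsto (etr τ μ (pv l * cst m : Rand A e L)) (fine A e) (𝓝 0) := by
  have hget := fun t : Fin l.length => hl _ (List.get_mem l t)
  let q : Fin (l.length + 1) → Σ d, (Fin d → (H →L[ℂ] H)) × (Fin d → L → ℝ) :=
    Fin.snoc (fun t => ⟨(l.get t).2.d + 1, (l.get t).2.h, (l.get t).2.f⟩)
      ⟨0, Fin.elim0, Fin.elim0⟩
  let P : (Σ d, (Fin d → (H →L[ℂ] H)) × (Fin d → L → ℝ)) → Prop :=
    fun x => (∀ s, NorC M A e (x.2.1 s)) ∧ Centred μ x.2.2
  have hq : ∀ t, P (q t) := fun t => by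
    induction t using Fin.lastCases with
    | last =>
      simp only [q, Fin.snoc_last]
      exact ⟨fun s => s.elim0, fun s => s.elim0⟩
    | cast u =>
      simp only [q, Fin.snoc_castSucc]
      exact (hget u).2
  have hm' : ∀ t, Perp M A e τ
      (Fin.snoc (α := fun _ => H →L[ℂ] H) (fun u : Fin l.length => (l.get u).1) m t) := fun t => by
    induction t using Fin.lastCases with
    | last => simpa using hm
    | cast u => simpa using (hget u).1
  have h := linear_tendsto hCore S (Nat.succ_pos l.length) _ hm' (fun t => (q t).1)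
    (fun t => (q t).2.1) (fun t => (q t).2.2) (fun t => (hq t).1) (fun t => (hq t).2) fun t ht => by
      induction t using Fin.lastCases with
      | last => simp at ht
      | cast u => simp [q]
  let V : (Σ d, (Fin d → (H →L[ℂ] H)) × (Fin d → L → ℝ)) → Rand A e L :=
    fun x => Orth.val x.2.1 x.2.2
  have e1 : ∀ u : Fin l.length,
      (Orth.val (q u.castSucc).2.1 (q u.castSucc).2.2 : Rand A e L) = (l.get u).2.val := fun u => by
    show V (q u.castSucc) = _
    simp only [q, Fin.snoc_castSucc]
    rfl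
  have e2 : (Orth.val (q (Fin.last l.length)).2.1 (q (Fin.last l.length)).2.2 : Rand A e L) =
      cst e := by
    show V (q (Fin.last l.length)) = _
    simp only [q, Fin.snoc_last]
    exact Orth.val_zero _
  refine h.congr fun c => congrArg (avg μ) (funext fun ω => congrArg τ ?_)
  rw [pv_cst_apply S hm.1, List.ofFn_succ', List.prod_concat]
  congr 1
  · conv_rhs => rw [← List.ofFn_get l, List.map_ofFn]
    refine congrArg List.prod (congrArg List.ofFn (funext fun u => ?_))
    simp only [Fin.snoc_castSucc, Function.comp_apply, e1]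
  · simp only [Fin.snoc_last, e2, cst, hm.1.mul_right S.he]

theorem tendsto_pairs {l : List ((H →L[ℂ] H) × Ltr H L)} (hne : l ≠ [])
    (hl : OkPairs M A e τ μ l) {z : H →L[ℂ] H} (hz : z ∈ normSpan M A e) :
    Tendsto (etr τ μ (pv l * cst z : Rand A e L)) (fine A e) (𝓝 0) := by
  refine tendsto_etr_span S hz fun g hg => ?_
  rintro ⟨a, ha, v, hv, rfl⟩
  set p := l.getLast hne with hp
  obtain ⟨hm, hw⟩ := hl p (List.getLast_mem hne)
  obtain ⟨w', hw', he'⟩ := letter_move S hw ha hv
  have hinit : OkPairs M A e τ μ l.dropLast := fun q hq => hl q (List.dropLast_subset l hq)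
  set m' := p.1 * (a * v)
  have hm' : Perp M A e τ m' := perp_right' S hm hg
  have hl' : OkPairs M A e τ μ (l.dropLast ++ [(m', w')]) := fun q hq => by
    rcases List.mem_append.1 hq with hq | hq
    · exact hinit q hq
    · rw [List.mem_singleton] at hq; subst hq; exact ⟨hm', hw'⟩
  refine (tendsto_pairs_e S hCore (by simp) hl').congr fun c => ?_
  congr 1
  have hone : OkPairs M A e τ μ [(m', w')] := fun q hq => hl' q (List.mem_append_right _ hq)
  have hp1 : OkPairs M A e τ μ [p] := fun q hq => by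
    rw [List.mem_singleton] at hq; subst hq; exact ⟨hm, hw⟩
  conv_rhs => rw [← List.dropLast_append_getLast hne]
  rw [pv_append S hone, pv_append S hp1, pv_single S hw',
    show [p] = [(p.1, p.2)] from rfl, pv_single S hw, mul_assoc, mul_assoc, he']
  simp only [m', ← cst_mul, mul_assoc]

/-- Words starting with an orthogonal operator have small averaged value. -/
theorem tendsto_piW {G : Rand A e L} (h : PiW M A e τ μ G) :
    Tendsto (etr τ μ G) (fine A e) (𝓝 0) := by
  rcases piW_pairs S h with ⟨l, z, hne, hl, hz, rfl⟩ | ⟨l, m, hl, hm, rfl⟩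
  · exact tendsto_pairs S hCore hne hl hz
  · exact tendsto_pairs_last S hCore hl hm

/-- A combination of tuple sums after a word. -/
theorem tendsto_pairs_lin {l : List ((H →L[ℂ] H) × Ltr H L)} (hl : OkPairs M A e τ μ l)
    {u : H →L[ℂ] H} (hu : Perp M A e τ u) {G : Rand A e L} (hG : Lin M A e μ G) :
    Tendsto (etr τ μ (pv l * cst u * G)) (fine A e) (𝓝 0) := by
  induction hG with
  | base b hb bc =>
    rw [mul_assoc, cst_mul]
    exact tendsto_pairs_last S hCore hl (perp_right' S hu (alg_mem_normSpan hb bc.2))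
  | val b hb bc h hn f hf =>
    have hub := perp_right' S hu (alg_mem_normSpan hb bc.2)
    have := tendsto_pairs_e S hCore (l := l ++ [(u * b, ⟨_, h, f⟩)]) (by simp)
      (okPairs_snoc S hl hub ⟨hn, hf⟩)
    rw [pv_snoc S hub ⟨hn, hf⟩, ← cst_mul] at this
    simpa only [mul_assoc, Ltr.val] using this
  | add G G' _ _ h h' => rw [mul_add]; exact tendsto_etr_add h h'

/-- Words starting with a centred tuple sum have small averaged value. -/
theorem tendsto_fw {G : Rand A e L} (h : FW M A e τ μ G) :
    Tendsto (etr τ μ G) (fine A e) (𝓝 0) := by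
  cases h with
  | last w hw z hz => exact tendsto_const_nhds.congr fun c => (etr_single S hw c).symm
  | step w hw G hG =>
    rcases piW_pairs S hG with ⟨l, z, hne, hl, hz, rfl⟩ | ⟨l, m, hl, hm, rfl⟩
    · rw [← mul_assoc]
      refine tendsto_etr_span S hz fun g hg => ?_
      rintro ⟨a, ha, v, hv, rfl⟩
      obtain ⟨p, l', rfl⟩ : ∃ p l', l = l' ++ [p] :=
        ⟨l.getLast hne, l.dropLast, (List.dropLast_append_getLast hne).symm⟩
      obtain ⟨m₁, w₁⟩ := p
      obtain ⟨hm₁, hw₁⟩ := hl (m₁, w₁) (List.mem_append_right _ (List.mem_singleton_self _))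
      have hl' : OkPairs M A e τ μ l' := fun q hq => hl q (List.mem_append_left _ hq)
      obtain ⟨w', hw', he'⟩ := letter_move S hw₁ ha hv
      have hu : Perp M A e τ (m₁ * (a * v)) := perp_right' S hm₁ hg
      set X : Rand A e L := pv l' * cst (m₁ * (a * v))
      have hXg : Good M X := (pv_good S hl').mul S.he (good_cst hu.1)
      have hPg : Good M (w'.val * w.val : Rand A e L) := (good_ltr S hw').mul S.he (good_ltr S hw)
      have hX : ∀ c, etr τ μ ((w.val * pv (l' ++ [(m₁, w₁)])) * cst (a * v) : Rand A e L) c =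
          etr τ μ (X * (w'.val * w.val)) c := by
        intro c
        rw [mul_assoc, etr_comm_alg S (ltr_mem S hw)
          ((pv_good S hl).mul S.he (good_cst (span_cor S hg))), pv_snoc S hm₁ hw₁]
        congr 1
        simp only [X, mul_assoc]
        rw [← mul_assoc w₁.val, he']
        simp only [← cst_mul, mul_assoc]
      obtain ⟨K, hK, hKr, ht⟩ := near_val_mul_val S hw'.1 hw'.2 hw.1 w.f
      refine Tendsto.congr (fun c => (hX c).symm) (tendsto_etr_congr S (hXg.mul S.he hPg)
        (hXg.mul S.he hKr.1) ?_ (tendsto_pairs_lin S hCore hl' hu hK))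
      rw [← mul_sub]
      exact tendsto_mul_left S hXg (hPg.sub hKr.1) ht
    · have := tendsto_pairs_e S hCore (l := l ++ [(m, w)]) (by simp) (okPairs_snoc S hl hm hw)
      rw [pv_snoc S hm hw, ← mul_assoc] at this
      exact this.congr fun c => (etr_comm_alg S (ltr_mem S hw)
        ((pv_good S hl).mul S.he (good_cst hm.1)) c).symm

theorem tendsto_cmul_fw {z : H →L[ℂ] H} (hz : z ∈ normSpan M A e) {F : Rand A e L}
    (hF : FW M A e τ μ F) : Tendsto (etr τ μ (cst z * F)) (fine A e) (𝓝 0) := by
  induction hz using Submodule.span_induction with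
  | zero => exact tendsto_const_nhds.congr fun c => by simp [etr, cst, avg]
  | add x y _ _ hx hy =>
    rw [show (cst (x + y) * F : Rand A e L) = cst x * F + cst y * F by rw [← add_mul]; rfl]
    exact tendsto_etr_add hx hy
  | smul t x _ hx =>
    refine (by simpa using hx.const_mul t :
      Tendsto (fun c => t * etr τ μ (cst x * F) c) (fine A e) (𝓝 0)).congr fun c => ?_
    simp only [etr, avg, Pi.mul_apply, cst, smul_mul_assoc, map_smul, Finset.mul_sum,
      Complex.real_smul, smul_eq_mul]
    exact Finset.sum_congr rfl fun ω _ => by ring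
  | mem g hg =>
    obtain ⟨hge, a, ha, v, hv, rfl⟩ := hg
    obtain ⟨b, hb, w, hw, heq⟩ := gen_split S.hA S.heA S.he ha hv hge
    rw [heq]
    exact tendsto_fw S hCore (fw_gen S hb hw
      (heq ▸ Submodule.subset_span ⟨hge, a, ha, v, hv, rfl⟩) hF)

theorem star_piW_mul {G : Rand A e L} (h : PiW M A e τ μ G) : ∀ K : Rand A e L,
    ((∃ z ∈ normSpan M A e, K = cst z) ∨ FW M A e τ μ K) →
    ∃ z₀ ∈ normSpan M A e, ∃ Y : Rand A e L, (PiW M A e τ μ Y ∨ FW M A e τ μ Y) ∧
      star G * K = cst z₀ * Y := by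
  have hms : ∀ m, Perp M A e τ m → ∀ K : Rand A e L,
      ((∃ z ∈ normSpan M A e, K = cst z) ∨ FW M A e τ μ K) → PiW M A e τ μ (cst (star m) * K) := by
    intro m hm K hK
    have hm' := perp_star' S hm
    rcases hK with ⟨z, hz, rfl⟩ | hK
    · exact PiW.base _ (perp_right' S hm' hz)
    · cases hK with
      | last w hw z hz => exact PiW.last _ hm' w hw z hz
      | step w hw G hG => exact PiW.step _ hm' w hw G hG
  induction h with
  | base m hm =>
    intro K hK
    refine ⟨e, e_mem_span S, cst (star m) * K, Or.inl (hms m hm K hK), ?_⟩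
    rw [cst_e_mul S (piW_good S (hms m hm K hK))]
    rfl
  | last m hm w hw z hz =>
    intro K hK
    refine ⟨star z, normSpan_star' S.hA S.heA S.he hz, w.val * (cst (star m) * K),
      Or.inr (FW.step w hw _ (hms m hm K hK)), ?_⟩
    simp only [star_mul, star_ltr S hw, mul_assoc]
    rfl
  | step m hm w hw G _ ih =>
    intro K hK
    obtain ⟨z₀, hz₀, Y, hY, heq⟩ := ih (w.val * (cst (star m) * K))
      (Or.inr (FW.step w hw _ (hms m hm K hK)))
    refine ⟨z₀, hz₀, Y, hY, ?_⟩
    rw [← heq]
    simp only [star_mul, star_ltr S hw, mul_assoc]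
    rfl

/-- The two kinds of words are asymptotically orthogonal. -/
theorem tendsto_inner {G K : Rand A e L} (h : PiW M A e τ μ G)
    (hK : (∃ z ∈ normSpan M A e, K = cst z) ∨ FW M A e τ μ K) :
    Tendsto (etr τ μ (star G * K)) (fine A e) (𝓝 0) := by
  obtain ⟨z₀, hz₀, Y, hY, heq⟩ := star_piW_mul S hCore h K hK
  rw [heq]
  rcases hY with hY | hY
  · exact tendsto_piW S hCore (piW_cmul S hY hz₀)
  · exact tendsto_cmul_fw S hCore hz₀ hY

end

end Vale.Agent.P078.State
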